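import Crest.Agent.R074.Tau

/-!
Row 74 (S0099): unit triangles `‖a‖ = ‖b‖ = ‖a + b‖ = 1` and chords: strict crossing lemma,
openness statements, existence of unit-sum chords in small cosets.
-/

set_option autoImplicit false

namespace Crest.Agent.R074

open Metric Set Filter Topology

section Cross

variable {X : Type*} [NormedAddCommGroup X] [NormedSpace ℝ X]

/-- length of the chord of a unit triangle -/
theorem one_le_norm_sub {a b : X} (ha : ‖a‖ = 1) (hab : ‖a + b‖ = 1) : 1 ≤ ‖a - b‖ := by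
  have e : (2 : ℝ) • a = (a + b) + (a - b) := by rw [two_smul]; abel
  have h1 : ‖(2 : ℝ) • a‖ ≤ ‖a + b‖ + ‖a - b‖ := by rw [e]; exact norm_add_le _ _
  rw [norm_smul, ha, hab, Real.norm_of_nonneg (by norm_num)] at h1
  linarith

/-- exit time of the `u`-chord over `(lam/2) • (a+b)`, `0 ≤ lam ≤ 1` -/
theorem tau_cross_le {a b u : X} (ha : ‖a‖ = 1) (hb : ‖b‖ = 1) (hab : ‖a + b‖ = 1) (hu : ‖u‖ = 1)
    {r : ℝ} (hr : 0 < r) (h : a - b = r • u) {lam : ℝ} (h0 : 0 ≤ lam) (h1 : lam ≤ 1) :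
    r / 2 ≤ tau u ((lam / 2) • (a + b)) ∧ tau u ((lam / 2) • (a + b)) ≤ r * (1 - lam / 2) := by
  set z := a + b with hz
  set v : X := (lam / 2) • z with hv
  have hvn : ‖v‖ < 1 := by
    rw [hv, norm_smul, hab, Real.norm_of_nonneg (by linarith)]; linarith
  have hlow : r / 2 ≤ tau u v := by
    by_contra hcon
    push Not at hcon
    have h2 := (tau_lt_iff hu hvn (by linarith : (0 : ℝ) ≤ r / 2)).mp hcon
    have e : v + (r / 2) • u = ((1 + lam) / 2) • a + ((1 - lam) / 2) • (-b) := by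
      have : (r / 2) • u = (1 / 2 : ℝ) • (a - b) := by rw [h, smul_smul]; congr 1; ring
      rw [this, hv, hz]
      module
    rw [e] at h2
    have h3 := norm_add_le (((1 + lam) / 2) • a) (((1 - lam) / 2) • (-b))
    rw [norm_smul, norm_smul, norm_neg, ha, hb, Real.norm_of_nonneg (by linarith),
      Real.norm_of_nonneg (by linarith)] at h3
    linarith
  refine ⟨hlow, ?_⟩
  set α := tau u v with hα
  have hα0 : 0 < α := tau_pos hu hvn
  have hy : ‖v + α • u‖ = 1 := norm_add_tau hu hvn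
  -- a as a combination of z and y
  have e : a = (1 / 2 - r * lam / (4 * α)) • z + (r / (2 * α)) • (v + α • u) := by
    have e1 : (r / (2 * α)) • (α • u) = (1 / 2 : ℝ) • (a - b) := by
      rw [h, smul_smul, smul_smul]; congr 1; field_simp
    have e2 : 1 / 2 - r * lam / (4 * α) + r / (2 * α) * (lam / 2) = 1 / 2 := by
      field_simp; ring
    rw [smul_add (r / (2 * α)) v (α • u), e1, hv, smul_smul, ← add_assoc, ← add_smul, e2, hz]
    module
  have hx : 0 ≤ 1 / 2 - r * lam / (4 * α) := by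
    rw [sub_nonneg, div_le_iff₀ (by positivity)]
    nlinarith
  have h3 : (1 : ℝ) ≤ (1 / 2 - r * lam / (4 * α)) + r / (2 * α) := by
    have h4 := norm_add_le ((1 / 2 - r * lam / (4 * α)) • z) ((r / (2 * α)) • (v + α • u))
    rw [← e, ha, norm_smul, norm_smul, hab, hy, Real.norm_of_nonneg hx,
      Real.norm_of_nonneg (by positivity)] at h4
    linarith
  have h5 : (1 / 2 : ℝ) * (4 * α) ≤ (r / (2 * α) - r * lam / (4 * α)) * (4 * α) :=
    mul_le_mul_of_nonneg_right (by linarith) (by positivity)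
  have h6 : (r / (2 * α) - r * lam / (4 * α)) * (4 * α) = 2 * r - r * lam := by
    field_simp; ring
  rw [h6] at h5
  linarith

/-- exit time of the `u`-chord over `(lam/2) • (a+b)`, `1 ≤ lam < 2` -/
theorem tau_cross_ge {a b u : X} (ha : ‖a‖ = 1) (hb : ‖b‖ = 1) (hab : ‖a + b‖ = 1) (hu : ‖u‖ = 1)
    {r : ℝ} (hr : 0 < r) (h : a - b = r • u) {lam : ℝ} (h1 : 1 ≤ lam) (h2 : lam < 2) :
    r * (1 - lam / 2) ≤ tau u ((lam / 2) • (a + b)) ∧
      tau u ((lam / 2) • (a + b)) ≤ r / 2 := by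
  rcases h1.eq_or_lt with hl | hl
  · have h3 := tau_cross_le ha hb hab hu hr h (lam := lam) (by linarith) hl.symm.le
    rw [← hl] at h3 ⊢
    constructor
    · have := h3.1; linarith
    · have := h3.2; linarith
  set z := a + b with hz
  set v : X := (lam / 2) • z with hv
  have hvn : ‖v‖ < 1 := by
    rw [hv, norm_smul, hab, Real.norm_of_nonneg (by linarith)]; linarith
  constructor
  · by_contra hcon
    push Not at hcon
    have h4 := (tau_lt_iff hu hvn (by nlinarith : (0 : ℝ) ≤ r * (1 - lam / 2))).mp hcon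
    have e : v + (r * (1 - lam / 2)) • u = (lam - 1) • z + (2 - lam) • a := by
      have : (r * (1 - lam / 2)) • u = (1 - lam / 2 : ℝ) • (a - b) := by
        rw [h, smul_smul]; congr 1; ring
      rw [this, hv, hz]
      module
    rw [e] at h4
    have h3 := norm_add_le ((lam - 1) • z) ((2 - lam) • a)
    rw [norm_smul, norm_smul, ha, hab, Real.norm_of_nonneg (by linarith),
      Real.norm_of_nonneg (by linarith)] at h3
    linarith
  · set α := tau u v with hα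
    have hα0 : 0 < α := tau_pos hu hvn
    have hy : ‖v + α • u‖ = 1 := norm_add_tau hu hvn
    have hden : 0 < r * lam + 2 * α := by positivity
    -- a as a combination of -b and y
    have e : (r * lam + 2 * α) • a = (r * lam - 2 * α) • (-b) + (2 * r) • (v + α • u) := by
      have e1 : (2 * r) • (α • u) = (2 * α) • (a - b) := by
        rw [h, smul_smul, smul_smul]; congr 1; ring
      rw [smul_add, e1, hv, hz]
      module
    have h4 := norm_add_le ((r * lam - 2 * α) • (-b)) ((2 * r) • (v + α • u))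
    rw [← e, norm_smul, norm_smul, norm_smul, norm_neg, ha, hb, hy,
      Real.norm_of_nonneg hden.le, Real.norm_of_nonneg (by positivity : (0:ℝ) ≤ 2 * r),
      Real.norm_eq_abs] at h4
    rcases le_total 0 (r * lam - 2 * α) with h5 | h5
    · rw [abs_of_nonneg h5] at h4
      linarith
    · rw [abs_of_nonpos h5] at h4
      nlinarith

/-- CROSSING LEMMA, lower part -/
theorem cross_le {a b u : X} (ha : ‖a‖ = 1) (hb : ‖b‖ = 1) (hab : ‖a + b‖ = 1) (hu : ‖u‖ = 1)
    {r : ℝ} (hr : 0 < r) (h : a - b = r • u) {lam : ℝ} (h0 : 1 / 3 ≤ lam) (h1 : lam ≤ 1) :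
    ‖top u ((lam / 2) • (a + b)) + top (-u) ((lam / 2) • (a + b))‖ ≤ (1 + lam) / 2 := by
  have hu' : ‖-u‖ = 1 := by rw [norm_neg]; exact hu
  have h' : b - a = r • (-u) := by rw [smul_neg, ← h]; abel
  obtain ⟨hα1, hα2⟩ := tau_cross_le ha hb hab hu hr h (by linarith : (0 : ℝ) ≤ lam) h1
  obtain ⟨hβ1, hβ2⟩ := tau_cross_le hb ha (by rw [add_comm]; exact hab) hu' hr h'
    (by linarith : (0 : ℝ) ≤ lam) h1
  rw [add_comm b a] at hβ1 hβ2
  rw [top_add_top]
  set α := tau u ((lam / 2) • (a + b)) with hα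
  set β := tau (-u) ((lam / 2) • (a + b)) with hβ
  have key : ∀ (a b u : X) (δ : ℝ), ‖a‖ = 1 → ‖a + b‖ = 1 → a - b = r • u → 0 ≤ δ →
      δ ≤ r * (1 - lam) / 2 → ‖(2 : ℝ) • ((lam / 2) • (a + b)) + δ • u‖ ≤ (1 + lam) / 2 := by
    intro a b u δ ha hab h hδ hδ'
    have e : (2 : ℝ) • ((lam / 2) • (a + b)) + δ • u
        = (lam - δ / r) • (a + b) + (2 * (δ / r)) • a := by
      have e1 : δ • u = (δ / r) • (a - b) := by
        rw [h, smul_smul, div_mul_cancel₀ δ hr.ne']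
      rw [e1]
      module
    have hq : δ / r ≤ (1 - lam) / 2 := by
      rw [div_le_iff₀ hr]; linarith
    have hq0 : 0 ≤ δ / r := div_nonneg hδ hr.le
    rw [e]
    refine (norm_add_le _ _).trans ?_
    rw [norm_smul, norm_smul, ha, hab, Real.norm_of_nonneg (by linarith),
      Real.norm_of_nonneg (by linarith)]
    linarith
  rcases le_total 0 (α - β) with hs | hs
  · exact key a b u (α - β) ha hab h hs (by linarith)
  · have h3 := key b a (-u) (-(α - β)) hb (by rw [add_comm]; exact hab) h' (by linarith)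
      (by linarith)
    rw [smul_neg, neg_smul, neg_neg, add_comm b a] at h3
    exact h3

/-- CROSSING LEMMA, upper part -/
theorem cross_ge {a b u : X} (ha : ‖a‖ = 1) (hb : ‖b‖ = 1) (hab : ‖a + b‖ = 1) (hu : ‖u‖ = 1)
    {r : ℝ} (hr : 0 < r) (h : a - b = r • u) {lam : ℝ} (h1 : 1 ≤ lam) (h2 : lam < 2) :
    (1 + lam) / 2 ≤ ‖top u ((lam / 2) • (a + b)) + top (-u) ((lam / 2) • (a + b))‖ := by
  have hu' : ‖-u‖ = 1 := by rw [norm_neg]; exact hu
  have h' : b - a = r • (-u) := by rw [smul_neg, ← h]; abel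
  obtain ⟨hα1, hα2⟩ := tau_cross_ge ha hb hab hu hr h h1 h2
  obtain ⟨hβ1, hβ2⟩ := tau_cross_ge hb ha (by rw [add_comm]; exact hab) hu' hr h' h1 h2
  rw [add_comm b a] at hβ1 hβ2
  rw [top_add_top]
  set α := tau u ((lam / 2) • (a + b)) with hα
  set β := tau (-u) ((lam / 2) • (a + b)) with hβ
  set κ := J (a + b) with hκ
  have hκz : κ a + κ b = 1 := by rw [← map_add, hκ, J_self, hab]
  have hκa : κ a ≤ 1 := by rw [← ha]; exact J_le _ _
  have hκb : κ b ≤ 1 := by rw [← hb]; exact J_le _ _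
  have hκu : κ a - κ b = r * κ u := by
    rw [← map_sub, h, map_smul, smul_eq_mul]
  have hval : κ ((2 : ℝ) • ((lam / 2) • (a + b)) + (α - β) • u) = lam + (α - β) * κ u := by
    rw [map_add, map_smul, map_smul, map_smul, map_add, hκz, smul_eq_mul, smul_eq_mul, smul_eq_mul]
    ring
  have hle := J_le (a + b) ((2 : ℝ) • ((lam / 2) • (a + b)) + (α - β) • u)
  rw [← hκ, hval] at hle
  refine le_trans ?_ hle
  have hd : |α - β| ≤ r * (lam - 1) / 2 := by
    rw [_root_.abs_le]; constructor <;> linarith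
  have hru : |r * κ u| ≤ 1 := by
    rw [← hκu, _root_.abs_le]; constructor <;> linarith
  have hprod : |(α - β) * κ u| ≤ (lam - 1) / 2 := by
    have e : (α - β) * κ u = ((α - β) / r) * (r * κ u) := by field_simp
    rw [e, abs_mul]
    have h3 : |(α - β) / r| ≤ (lam - 1) / 2 := by
      rw [abs_div, abs_of_pos hr, div_le_iff₀ hr]; linarith
    calc |(α - β) / r| * |r * κ u| ≤ ((lam - 1) / 2) * 1 :=
          mul_le_mul h3 hru (abs_nonneg _) (by linarith)
      _ = (lam - 1) / 2 := by ring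
  have := (_root_.abs_le.mp hprod).1
  linarith

/-- openness of the map `(a,b) ↦ direction of a - b` on unit triangles -/
theorem exists_unitSum_dir {a b u : X} (ha : ‖a‖ = 1) (hb : ‖b‖ = 1) (hab : ‖a + b‖ = 1)
    (hu : ‖u‖ = 1) {r : ℝ} (hr : 0 < r) (h : a - b = r • u) {ε : ℝ} (hε : 0 < ε) :
    ∃ δ : ℝ, 0 < δ ∧ ∀ u' : X, ‖u'‖ = 1 → ‖u' - u‖ < δ → ∃ a' b' : X, ∃ r' : ℝ,
      ‖a'‖ = 1 ∧ ‖b'‖ = 1 ∧ ‖a' + b'‖ = 1 ∧ 0 < r' ∧ a' - b' = r' • u' ∧
        ‖a' - a‖ < ε ∧ ‖b' - b‖ < ε := by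
  have hu' : ‖-u‖ = 1 := by rw [norm_neg]; exact hu
  set z := a + b with hz
  have hmid := chord_eq_top ha hb (by rw [hab]; norm_num : ‖a + b‖ < 2) hr.le h
  rw [← hz] at hmid
  -- the two maps
  set S : Set (X × ℝ) := {q | ‖q.1‖ = 1 ∧ |q.2| < 2} with hS
  have hmaps : ∀ q ∈ S, ‖(q.2 / 2) • z‖ < 1 := by
    rintro q ⟨_, hq⟩
    rw [norm_smul, hab, Real.norm_eq_abs, abs_div, abs_of_pos (by norm_num : (0 : ℝ) < 2)]
    linarith
  have hA : ContinuousOn (fun q : X × ℝ => top q.1 ((q.2 / 2) • z)) S := by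
    have h1 : ContinuousOn (fun q : X × ℝ => ((q.1, (q.2 / 2) • z) : X × X)) S := by fun_prop
    refine (continuousOn_top (X := X)).comp h1 ?_
    intro q hq
    exact ⟨hq.1, hmaps q hq⟩
  have hB : ContinuousOn (fun q : X × ℝ => top (-q.1) ((q.2 / 2) • z)) S := by
    have h1 : ContinuousOn (fun q : X × ℝ => ((-q.1, (q.2 / 2) • z) : X × X)) S := by fun_prop
    refine (continuousOn_top (X := X)).comp h1 ?_
    intro q hq
    exact ⟨by rw [norm_neg]; exact hq.1, hmaps q hq⟩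
  have hmem : ((u, 1) : X × ℝ) ∈ S := ⟨hu, by norm_num⟩
  have hA0 : top u ((1 / 2 : ℝ) • z) = a := hmid.1.symm
  have hB0 : top (-u) ((1 / 2 : ℝ) • z) = b := hmid.2.symm
  -- closeness
  obtain ⟨δ₁, hδ₁, hclA⟩ := Metric.continuousOn_iff.mp hA (u, 1) hmem ε hε
  obtain ⟨δ₂, hδ₂, hclB⟩ := Metric.continuousOn_iff.mp hB (u, 1) hmem ε hε
  set η : ℝ := min (1 / 2) (min (δ₁ / 2) (δ₂ / 2)) with hη
  have hη0 : 0 < η := lt_min (by norm_num) (lt_min (by positivity) (by positivity))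
  have hη1 : η ≤ 1 / 2 := min_le_left _ _
  have hη2 : η < δ₁ := by
    have : η ≤ δ₁ / 2 := (min_le_right _ _).trans (min_le_left _ _)
    linarith
  have hη3 : η < δ₂ := by
    have : η ≤ δ₂ / 2 := (min_le_right _ _).trans (min_le_right _ _)
    linarith
  -- the sum function
  set F : X × ℝ → ℝ := fun q => ‖top q.1 ((q.2 / 2) • z) + top (-q.1) ((q.2 / 2) • z)‖ with hF
  have hFc : ContinuousOn F S := (hA.add hB).norm
  have hlo : F (u, 1 - η) < 1 := by
    have := cross_le ha hb hab hu hr h (lam := 1 - η) (by linarith) (by linarith)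
    have h3 : F (u, 1 - η) ≤ (1 + (1 - η)) / 2 := this
    linarith
  have hhi : 1 < F (u, 1 + η) := by
    have := cross_ge ha hb hab hu hr h (lam := 1 + η) (by linarith) (by linarith)
    have h3 : (1 + (1 + η)) / 2 ≤ F (u, 1 + η) := this
    linarith
  have hm1 : ((u, 1 - η) : X × ℝ) ∈ S := ⟨hu, by rw [abs_lt]; constructor <;> simp only <;> linarith⟩
  have hm2 : ((u, 1 + η) : X × ℝ) ∈ S := ⟨hu, by rw [abs_lt]; constructor <;> simp only <;> linarith⟩
  obtain ⟨δ₃, hδ₃, hcl3⟩ := Metric.continuousOn_iff.mp hFc _ hm1 (1 - F (u, 1 - η)) (by linarith)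
  obtain ⟨δ₄, hδ₄, hcl4⟩ := Metric.continuousOn_iff.mp hFc _ hm2 (F (u, 1 + η) - 1) (by linarith)
  refine ⟨min (min δ₁ δ₂) (min δ₃ δ₄), lt_min (lt_min hδ₁ hδ₂) (lt_min hδ₃ hδ₄), ?_⟩
  intro w hw hwu
  have hw1 : ‖w - u‖ < δ₁ := hwu.trans_le ((min_le_left _ _).trans (min_le_left _ _))
  have hw2 : ‖w - u‖ < δ₂ := hwu.trans_le ((min_le_left _ _).trans (min_le_right _ _))
  have hw3 : ‖w - u‖ < δ₃ := hwu.trans_le ((min_le_right _ _).trans (min_le_left _ _))
  have hw4 : ‖w - u‖ < δ₄ := hwu.trans_le ((min_le_right _ _).trans (min_le_right _ _))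
  have hw' : ‖-w‖ = 1 := by rw [norm_neg]; exact hw
  have hmw1 : ((w, 1 - η) : X × ℝ) ∈ S := ⟨hw, hm1.2⟩
  have hmw2 : ((w, 1 + η) : X × ℝ) ∈ S := ⟨hw, hm2.2⟩
  have hlo' : F (w, 1 - η) < 1 := by
    have := hcl3 _ hmw1 (by
      rw [Prod.dist_eq, dist_self, max_eq_left dist_nonneg, dist_eq_norm]; exact hw3)
    rw [Real.dist_eq, abs_lt] at this
    linarith [this.2]
  have hhi' : 1 < F (w, 1 + η) := by
    have := hcl4 _ hmw2 (by
      rw [Prod.dist_eq, dist_self, max_eq_left dist_nonneg, dist_eq_norm]; exact hw4)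
    rw [Real.dist_eq, abs_lt] at this
    linarith [this.1]
  have hcont : ContinuousOn (fun lam : ℝ => F (w, lam)) (Icc (1 - η) (1 + η)) := by
    have h1 : ContinuousOn (fun lam : ℝ => ((w, lam) : X × ℝ)) (Icc (1 - η) (1 + η)) := by
      fun_prop
    refine hFc.comp h1 ?_
    intro lam hlam
    refine ⟨hw, ?_⟩
    rw [abs_lt]
    constructor <;> simp only <;> linarith [hlam.1, hlam.2]
  obtain ⟨lam, hlam, hlam1⟩ := intermediate_value_Icc (by linarith : 1 - η ≤ 1 + η) hcont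
    (show (1 : ℝ) ∈ Icc (F (w, 1 - η)) (F (w, 1 + η)) from ⟨hlo'.le, hhi'.le⟩)
  have hmemlam : ((w, lam) : X × ℝ) ∈ S := by
    refine ⟨hw, ?_⟩
    rw [abs_lt]
    constructor <;> simp only <;> linarith [hlam.1, hlam.2]
  have hvl : ‖(lam / 2) • z‖ < 1 := hmaps _ hmemlam
  have hdl : |lam - 1| ≤ η := by
    rw [_root_.abs_le]; constructor <;> linarith [hlam.1, hlam.2]
  refine ⟨top w ((lam / 2) • z), top (-w) ((lam / 2) • z),
    tau w ((lam / 2) • z) + tau (-w) ((lam / 2) • z), norm_top hw hvl, norm_top hw' hvl, hlam1,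
    add_pos (tau_pos hw hvl) (tau_pos hw' hvl), top_sub_top _ _, ?_, ?_⟩
  · have := hclA _ hmemlam (by
      rw [Prod.dist_eq, max_lt_iff, dist_eq_norm, Real.dist_eq]
      exact ⟨hw1, hdl.trans_lt hη2⟩)
    rw [dist_eq_norm] at this
    rwa [hA0] at this
  · have := hclB _ hmemlam (by
      rw [Prod.dist_eq, max_lt_iff, dist_eq_norm, Real.dist_eq]
      exact ⟨hw2, hdl.trans_lt hη3⟩)
    rw [dist_eq_norm] at this
    rwa [hB0] at this

end Cross

section Vary

variable {X : Type*} [NormedAddCommGroup X] [NormedSpace ℝ X]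

/-- value of `‖a + ν(b + s a)‖` -/
theorem norm_add_normalize {a b : X} {s : ℝ} (h0 : 0 < ‖b + s • a‖) :
    ‖a + ‖b + s • a‖⁻¹ • (b + s • a)‖ = ‖b + (s + ‖b + s • a‖) • a‖ / ‖b + s • a‖ := by
  set h := ‖b + s • a‖ with hh
  have e : a + h⁻¹ • (b + s • a) = h⁻¹ • (b + (s + h) • a) := by
    have h1 : h⁻¹ • (h • a) = a := by rw [smul_smul, inv_mul_cancel₀ h0.ne', one_smul]
    rw [add_smul, smul_add, smul_add, smul_add, h1]
    abel
  rw [e, norm_smul, norm_inv, Real.norm_of_nonneg h0.le]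
  field_simp

/-- strict crossing of `{‖a + ·‖ = 1}` along `ν(b + s a)` -/
theorem cross_fst {a b : X} (ha : ‖a‖ = 1) (hb : ‖b‖ = 1) (hab : ‖a + b‖ = 1)
    (h2 : ‖a + (2 : ℝ) • b‖ < 2) {s : ℝ} (hs : 0 < s) (hs2 : s ≤ 1 / 2) :
    1 < ‖a + ‖b + s • a‖⁻¹ • (b + s • a)‖ ∧
      ‖a + ‖b + (-s) • a‖⁻¹ • (b + (-s) • a)‖ < 1 := by
  have hhalf : ‖b + (1 / 2 : ℝ) • a‖ < 1 := by
    have e : a + (2 : ℝ) • b = (2 : ℝ) • (b + (1 / 2 : ℝ) • a) := by
      rw [smul_add, smul_smul]; norm_num; abel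
    rw [e, norm_smul, Real.norm_of_nonneg (by norm_num)] at h2
    linarith
  have hge : ∀ t : ℝ, 1 - |t| ≤ ‖b + t • a‖ := by
    intro t
    have h3 : ‖b‖ ≤ ‖b + t • a‖ + ‖t • a‖ := by
      have e : b = (b + t • a) - t • a := by abel
      conv_lhs => rw [e]
      exact norm_sub_le _ _
    rw [norm_smul, ha, hb, Real.norm_eq_abs] at h3
    linarith
  have hle : ∀ t : ℝ, ‖b + t • a‖ ≤ 1 + |t| := by
    intro t
    have h3 := norm_add_le b (t • a)
    rw [norm_smul, ha, hb, Real.norm_eq_abs] at h3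
    linarith
  have hba : ‖b + (1 : ℝ) • a‖ = 1 := by rw [one_smul, add_comm]; exact hab
  constructor
  · have h3 := hge s
    rw [abs_of_pos hs] at h3
    have hpos : 0 < ‖b + s • a‖ := by linarith
    have hlt : ‖b + s • a‖ < 1 := by
      have h4 := norm_line_le b a hs.le hs2 (by norm_num : (0 : ℝ) < 1 / 2)
      rw [hb] at h4
      have h5 : 0 < s / (1 / 2) := by positivity
      nlinarith
    rw [norm_add_normalize hpos, lt_div_iff₀ hpos, one_mul]
    refine lt_of_lt_of_le hlt ?_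
    -- `‖b + t a‖ ≥ 1` for `t ≥ 1`
    set t := s + ‖b + s • a‖ with ht
    have ht1 : 1 ≤ t := by linarith
    have h4 := norm_line_le b a (by norm_num : (0 : ℝ) ≤ 1) ht1 (by linarith)
    rw [hb, hba] at h4
    have h5 : 0 < 1 / t := by positivity
    by_contra hcon
    push Not at hcon
    nlinarith
  · have h3 := hge (-s)
    rw [abs_neg, abs_of_pos hs] at h3
    have h3' := hle (-s)
    rw [abs_neg, abs_of_pos hs] at h3'
    have hpos : 0 < ‖b + (-s) • a‖ := by linarith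
    have hgt : 1 < ‖b + (-s) • a‖ := by
      have h4 := norm_line_le (b + (-s) • a) a hs.le (by linarith : s ≤ s + 1 / 2)
        (by linarith)
      have e1 : b + (-s) • a + s • a = b := by
        rw [add_assoc, ← add_smul, neg_add_cancel, zero_smul, add_zero]
      have e2 : b + (-s) • a + (s + 1 / 2) • a = b + (1 / 2 : ℝ) • a := by
        rw [add_assoc, ← add_smul]; congr 2; ring
      rw [e1, e2, hb] at h4
      have h5 : 0 < s / (s + 1 / 2) := by positivity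
      have h6 : s / (s + 1 / 2) < 1 := (div_lt_one (by linarith)).mpr (by linarith)
      by_contra hcon
      push Not at hcon
      nlinarith
    rw [norm_add_normalize hpos, div_lt_iff₀ hpos, one_mul]
    refine lt_of_le_of_lt ?_ hgt
    set t := -s + ‖b + (-s) • a‖ with ht
    have ht1 : t ≤ 1 := by linarith
    have ht0 : 0 ≤ t := by linarith
    have h4 := norm_line_le b a ht0 ht1 (by norm_num)
    rw [hb, hba] at h4
    linarith

/-- openness of `(a,b) ↦ a` on unit triangles with `‖a + 2b‖ < 2` -/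
theorem exists_unitSum_fst {a b : X} (ha : ‖a‖ = 1) (hb : ‖b‖ = 1) (hab : ‖a + b‖ = 1)
    (h2 : ‖a + (2 : ℝ) • b‖ < 2) {ε : ℝ} (hε : 0 < ε) :
    ∃ δ : ℝ, 0 < δ ∧ ∀ a' : X, ‖a'‖ = 1 → ‖a' - a‖ < δ → ∃ b' : X,
      ‖b'‖ = 1 ∧ ‖a' + b'‖ = 1 ∧ ‖b' - b‖ < ε := by
  set G : X × ℝ → X := fun q => ‖b + q.2 • q.1‖⁻¹ • (b + q.2 • q.1) with hG
  set S : Set (X × ℝ) := {q | ‖q.1‖ = 1 ∧ |q.2| < 1} with hS
  have hne : ∀ q ∈ S, 0 < ‖b + q.2 • q.1‖ := by
    rintro q ⟨hq1, hq2⟩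
    have h3 : ‖b‖ ≤ ‖b + q.2 • q.1‖ + ‖q.2 • q.1‖ := by
      have e : b = (b + q.2 • q.1) - q.2 • q.1 := by abel
      conv_lhs => rw [e]
      exact norm_sub_le _ _
    rw [norm_smul, hq1, hb, Real.norm_eq_abs] at h3
    linarith
  have hGn : ∀ q ∈ S, ‖G q‖ = 1 := by
    intro q hq
    have := hne q hq
    simp only [hG]
    rw [norm_smul, norm_inv, norm_norm, inv_mul_cancel₀ this.ne']
  have hGc : ContinuousOn G S := by
    have h1 : Continuous (fun q : X × ℝ => b + q.2 • q.1) := by fun_prop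
    exact (h1.norm.continuousOn.inv₀ (fun q hq => (hne q hq).ne')).smul h1.continuousOn
  have hm0 : ((a, 0) : X × ℝ) ∈ S := ⟨ha, by norm_num⟩
  have hG0 : G (a, 0) = b := by
    simp only [hG, zero_smul, add_zero, hb, inv_one, one_smul]
  obtain ⟨δ₁, hδ₁, hcl⟩ := Metric.continuousOn_iff.mp hGc _ hm0 ε hε
  rw [hG0] at hcl
  set s : ℝ := min (1 / 2) (δ₁ / 2) with hs
  have hs0 : 0 < s := lt_min (by norm_num) (by positivity)
  have hs1 : s ≤ 1 / 2 := min_le_left _ _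
  have hs2 : s < δ₁ := by
    have : s ≤ δ₁ / 2 := min_le_right _ _
    linarith
  obtain ⟨hhi, hlo⟩ := cross_fst ha hb hab h2 hs0 hs1
  set F : X × ℝ → ℝ := fun q => ‖q.1 + G q‖ with hF
  have hFc : ContinuousOn F S := (continuousOn_fst.add hGc).norm
  have hm1 : ((a, s) : X × ℝ) ∈ S := ⟨ha, by rw [abs_lt]; constructor <;> simp only <;> linarith⟩
  have hm2 : ((a, -s) : X × ℝ) ∈ S := ⟨ha, by rw [abs_lt]; constructor <;> simp only <;> linarith⟩
  have hhi1 : 1 < F (a, s) := hhi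
  have hlo1 : F (a, -s) < 1 := hlo
  obtain ⟨δ₃, hδ₃, hcl3⟩ := Metric.continuousOn_iff.mp hFc _ hm1 (F (a, s) - 1) (by linarith)
  obtain ⟨δ₄, hδ₄, hcl4⟩ := Metric.continuousOn_iff.mp hFc _ hm2 (1 - F (a, -s)) (by linarith)
  refine ⟨min δ₁ (min δ₃ δ₄), lt_min hδ₁ (lt_min hδ₃ hδ₄), ?_⟩
  intro a' ha' hd
  have hd1 : ‖a' - a‖ < δ₁ := hd.trans_le (min_le_left _ _)
  have hd3 : ‖a' - a‖ < δ₃ := hd.trans_le ((min_le_right _ _).trans (min_le_left _ _))
  have hd4 : ‖a' - a‖ < δ₄ := hd.trans_le ((min_le_right _ _).trans (min_le_right _ _))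
  have hmem : ∀ t ∈ Icc (-s) s, ((a', t) : X × ℝ) ∈ S := by
    intro t ht
    refine ⟨ha', ?_⟩
    rw [abs_lt]
    constructor <;> simp only <;> linarith [ht.1, ht.2]
  have hhi' : 1 < F (a', s) := by
    have := hcl3 _ (hmem s ⟨by linarith, le_rfl⟩) (by
      rw [Prod.dist_eq, dist_self, max_eq_left dist_nonneg, dist_eq_norm]; exact hd3)
    rw [Real.dist_eq, abs_lt] at this
    linarith [this.1]
  have hlo' : F (a', -s) < 1 := by
    have := hcl4 _ (hmem (-s) ⟨le_rfl, by linarith⟩) (by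
      rw [Prod.dist_eq, dist_self, max_eq_left dist_nonneg, dist_eq_norm]; exact hd4)
    rw [Real.dist_eq, abs_lt] at this
    linarith [this.2]
  have hcont : ContinuousOn (fun t : ℝ => F (a', t)) (Icc (-s) s) := by
    have h1 : ContinuousOn (fun t : ℝ => ((a', t) : X × ℝ)) (Icc (-s) s) := by fun_prop
    exact hFc.comp h1 hmem
  obtain ⟨t, ht, ht1⟩ := intermediate_value_Icc (by linarith : -s ≤ s) hcont
    (show (1 : ℝ) ∈ Icc (F (a', -s)) (F (a', s)) from ⟨hlo'.le, hhi'.le⟩)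
  refine ⟨G (a', t), hGn _ (hmem t ht), ht1, ?_⟩
  have := hcl _ (hmem t ht) (by
    rw [Prod.dist_eq, max_lt_iff, dist_eq_norm, Real.dist_eq, sub_zero]
    exact ⟨hd1, (_root_.abs_le.mpr ht).trans_lt hs2⟩)
  rwa [dist_eq_norm] at this


/-- openness of `(a,b) ↦ a + b` on unit triangles with `‖a - b‖ < 2` -/
theorem exists_unitSum_sum {a b : X} (ha : ‖a‖ = 1) (hb : ‖b‖ = 1) (hab : ‖a + b‖ = 1)
    (h2 : ‖a - b‖ < 2) {ε : ℝ} (hε : 0 < ε) :
    ∃ δ : ℝ, 0 < δ ∧ ∀ z' : X, ‖z'‖ = 1 → ‖z' - (a + b)‖ < δ → ∃ a' b' : X,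
      ‖a'‖ = 1 ∧ ‖b'‖ = 1 ∧ a' + b' = z' ∧ ‖a' - a‖ < ε ∧ ‖b' - b‖ < ε := by
  obtain ⟨δ, hδ, h⟩ := exists_unitSum_fst (a := a + b) (b := -a) hab (by rw [norm_neg]; exact ha)
    (by
      have e : a + b + -a = b := by abel
      rw [e]; exact hb)
    (by
      have e : a + b + (2 : ℝ) • (-a) = -(a - b) := by rw [smul_neg, two_smul]; abel
      rw [e, norm_neg]; exact h2) (half_pos hε)
  refine ⟨min δ (ε / 2), lt_min hδ (half_pos hε), fun z' hz' hd => ?_⟩
  obtain ⟨c, hc1, hc2, hc3⟩ := h z' hz' (hd.trans_le (min_le_left _ _))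
  have hd2 : ‖z' - (a + b)‖ < ε / 2 := hd.trans_le (min_le_right _ _)
  refine ⟨-c, z' + c, by rw [norm_neg]; exact hc1, hc2, by abel, ?_, ?_⟩
  · have e : -c - a = -(c - -a) := by abel
    rw [e, norm_neg]; linarith
  · have e : z' + c - b = (z' - (a + b)) + (c - -a) := by abel
    rw [e]
    refine (norm_add_le _ _).trans_lt ?_
    linarith

/-- Birkhoff orthogonality: in a plane containing the unit vector `u` there are a unit vector `e`
and a norming functional of `e` which kills `u`. -/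
theorem exists_birkhoff {u h : X} (hu : ‖u‖ = 1) (hh : ∀ t : ℝ, h ≠ t • u) :
    ∃ (e : X) (κ : X →L[ℝ] ℝ) (s t : ℝ), ‖e‖ = 1 ∧ ‖κ‖ ≤ 1 ∧ κ u = 0 ∧ κ e = 1 ∧
      e = s • u + t • h := by
  -- nearest point of `ℝ u` to `h`
  have hc : Continuous (fun t : ℝ => ‖h - t • u‖) := by fun_prop
  obtain ⟨t₀, ht₀, hmin⟩ := (isCompact_Icc (a := -(2 * ‖h‖)) (b := 2 * ‖h‖)).exists_isMinOn
    ⟨0, by constructor <;> nlinarith [norm_nonneg h]⟩ hc.continuousOn
  have hall : ∀ t : ℝ, ‖h - t₀ • u‖ ≤ ‖h - t • u‖ := by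
    intro t
    by_cases ht : t ∈ Icc (-(2 * ‖h‖)) (2 * ‖h‖)
    · exact hmin ht
    · have h1 : ‖h - t₀ • u‖ ≤ ‖h‖ := by
        have := hmin (show (0 : ℝ) ∈ Icc (-(2 * ‖h‖)) (2 * ‖h‖) by
          constructor <;> nlinarith [norm_nonneg h])
        simpa using this
      have h2 : 2 * ‖h‖ ≤ |t| := by
        by_contra hcon
        push Not at hcon
        exact ht ⟨by linarith [(abs_lt.mp hcon).1], by linarith [(abs_lt.mp hcon).2]⟩
      have h3 : ‖t • u‖ ≤ ‖h - t • u‖ + ‖h‖ := by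
        have e : t • u = h - (h - t • u) := by abel
        conv_lhs => rw [e]
        refine (norm_sub_le _ _).trans ?_
        linarith
      rw [norm_smul, hu, mul_one, Real.norm_eq_abs] at h3
      linarith
  set d := ‖h - t₀ • u‖ with hd
  have hd0 : 0 < d := by
    rw [hd, norm_pos_iff]
    intro h0
    exact hh t₀ (sub_eq_zero.mp h0)
  set e : X := d⁻¹ • (h - t₀ • u) with he
  have hen : ‖e‖ = 1 := by
    rw [he, norm_smul, norm_inv, Real.norm_of_nonneg hd0.le, ← hd, inv_mul_cancel₀ hd0.ne']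
  have hperp : ∀ t : ℝ, 1 ≤ ‖e + t • u‖ := by
    intro t
    have e1 : e + t • u = d⁻¹ • (h - (t₀ - d * t) • u) := by
      rw [he, sub_smul, mul_smul, smul_sub, smul_sub, smul_sub, smul_smul d⁻¹ d,
        inv_mul_cancel₀ hd0.ne', one_smul]
      abel
    rw [e1, norm_smul, norm_inv, Real.norm_of_nonneg hd0.le]
    have := hall (t₀ - d * t)
    have h2 : d⁻¹ * d ≤ d⁻¹ * ‖h - (t₀ - d * t) • u‖ :=
      mul_le_mul_of_nonneg_left this (inv_pos.mpr hd0).le
    rwa [inv_mul_cancel₀ hd0.ne'] at h2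
  -- functional on the line quotient
  set P : Submodule ℝ X := Submodule.span ℝ {u} with hP
  have : IsClosed (P : Set X) := Submodule.closed_of_finiteDimensional P
  have hqn : 1 ≤ ‖(Submodule.Quotient.mk e : X ⧸ P)‖ := by
    by_contra hcon
    push Not at hcon
    obtain ⟨w, hw1, hw2⟩ := Submodule.Quotient.norm_mk_lt (Submodule.Quotient.mk e : X ⧸ P)
      (show (0 : ℝ) < 1 - ‖(Submodule.Quotient.mk e : X ⧸ P)‖ by linarith)
    rw [Submodule.Quotient.eq] at hw1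
    obtain ⟨c, hc'⟩ := Submodule.mem_span_singleton.mp hw1
    have h3 := hperp c
    have e1 : e + c • u = w := by rw [hc']; abel
    rw [e1] at h3
    linarith
  have hne : ‖(Submodule.Quotient.mk e : X ⧸ P)‖ ≠ 0 := by linarith
  obtain ⟨φ, hφ1, hφ2⟩ := exists_dual_vector ℝ (Submodule.Quotient.mk e : X ⧸ P) hne
  have hmk : ∀ x : X, ‖(Submodule.Quotient.mk x : X ⧸ P)‖ ≤ ‖x‖ := fun x =>
    Submodule.Quotient.norm_mk_le P x
  have hqe : ‖(Submodule.Quotient.mk e : X ⧸ P)‖ = 1 :=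
    le_antisymm ((hmk e).trans hen.le) hqn
  set κ : X →L[ℝ] ℝ := (φ.toLinearMap.comp P.mkQ).mkContinuous 1 (by
    intro x
    show ‖φ (Submodule.Quotient.mk x)‖ ≤ 1 * ‖x‖
    refine (φ.le_opNorm _).trans ?_
    rw [hφ1]
    exact mul_le_mul_of_nonneg_left (hmk x) zero_le_one) with hκ
  refine ⟨e, κ, -(d⁻¹ * t₀), d⁻¹, hen, LinearMap.mkContinuous_norm_le _ zero_le_one _, ?_, ?_, ?_⟩
  · show φ (Submodule.Quotient.mk u) = 0
    have : (Submodule.Quotient.mk u : X ⧸ P) = 0 :=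
      (Submodule.Quotient.mk_eq_zero P).mpr (Submodule.mem_span_singleton_self u)
    rw [this, map_zero]
  · show φ (Submodule.Quotient.mk e) = 1
    rw [hφ2, hqe]; simp
  · rw [he, smul_sub, smul_smul, neg_smul]; abel

/-- unit-sum chords in small cosets: if `κ u = 0`, `κ e = 1`, there is a `u`-chord over a point
`m + t e` whose ends have a unit sum. -/
theorem exists_unitSum_coset {u e m : X} {κ : X →L[ℝ] ℝ} (hu : ‖u‖ = 1) (he : ‖e‖ = 1)
    (hκ : ‖κ‖ ≤ 1) (hκu : κ u = 0) (hκe : κ e = 1) (hm : ‖m‖ ≤ 1 / 8) :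
    ∃ t : ℝ, 0 ≤ t ∧ t ≤ 3 / 4 ∧ ‖top u (m + t • e) + top (-u) (m + t • e)‖ = 1 := by
  have hu' : ‖-u‖ = 1 := by rw [norm_neg]; exact hu
  have hb : ∀ t ∈ Icc (0 : ℝ) (3 / 4), ‖m + t • e‖ < 1 := by
    intro t ht
    have := norm_add_le m (t • e)
    rw [norm_smul, he, Real.norm_of_nonneg ht.1] at this
    linarith [ht.2]
  have hc : ContinuousOn (fun t : ℝ => ‖top u (m + t • e) + top (-u) (m + t • e)‖)
      (Icc (0 : ℝ) (3 / 4)) := by
    have h1 : ContinuousOn (fun t : ℝ => m + t • e) (Icc (0 : ℝ) (3 / 4)) := by fun_prop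
    have hm1 : MapsTo (fun t : ℝ => m + t • e) (Icc (0 : ℝ) (3 / 4)) (ball 0 1) := by
      intro t ht
      simpa using hb t ht
    exact (((continuousOn_top_right hu).comp h1 hm1).add
      ((continuousOn_top_right hu').comp h1 hm1)).norm
  have h0 : ‖top u (m + (0 : ℝ) • e) + top (-u) (m + (0 : ℝ) • e)‖ ≤ 1 := by
    have hm1 : ‖m‖ < 1 := by linarith
    rw [zero_smul, add_zero]
    have h1 := norm_top_sub_self hu hm1
    have h2 := norm_top_sub_self hu' hm1
    have e1 : top u m + top (-u) m = (top u m - u) + (top (-u) m - -u) := by abel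
    rw [e1]
    refine (norm_add_le _ _).trans ?_
    linarith
  have h1 : 1 ≤ ‖top u (m + (3 / 4 : ℝ) • e) + top (-u) (m + (3 / 4 : ℝ) • e)‖ := by
    have h2 : κ (top u (m + (3 / 4 : ℝ) • e) + top (-u) (m + (3 / 4 : ℝ) • e))
        = 2 * κ m + 3 / 2 := by
      rw [top_add_top, map_add, map_smul, map_smul, map_add, map_smul, hκu, hκe]
      simp only [smul_eq_mul]
      ring
    have h3 : |κ m| ≤ 1 / 8 := by
      have h4 : ‖κ m‖ ≤ ‖κ‖ * ‖m‖ := κ.le_opNorm m
      rw [Real.norm_eq_abs] at h4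
      have h5 : ‖κ‖ * ‖m‖ ≤ 1 * (1 / 8) := mul_le_mul hκ hm (norm_nonneg _) zero_le_one
      linarith
    have h4 : |κ (top u (m + (3 / 4 : ℝ) • e) + top (-u) (m + (3 / 4 : ℝ) • e))|
        ≤ ‖top u (m + (3 / 4 : ℝ) • e) + top (-u) (m + (3 / 4 : ℝ) • e)‖ := by
      have h5 := κ.le_opNorm (top u (m + (3 / 4 : ℝ) • e) + top (-u) (m + (3 / 4 : ℝ) • e))
      rw [Real.norm_eq_abs] at h5
      refine h5.trans ?_
      have := mul_le_mul_of_nonneg_right hκ
        (norm_nonneg (top u (m + (3 / 4 : ℝ) • e) + top (-u) (m + (3 / 4 : ℝ) • e)))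
      linarith
    have h5 := le_abs_self (κ (top u (m + (3 / 4 : ℝ) • e) + top (-u) (m + (3 / 4 : ℝ) • e)))
    have h6 := (_root_.abs_le.mp h3).1
    linarith
  obtain ⟨t, ht, ht1⟩ := intermediate_value_Icc (by norm_num : (0 : ℝ) ≤ 3 / 4) hc
    (show (1 : ℝ) ∈ Icc _ _ from ⟨h0, h1⟩)
  exact ⟨t, ht.1, ht.2, ht1⟩

end Vary

end Crest.Agent.R074
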