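import Crest.Agent.R074.Centre

-- ▼ part R074/Est
section

/-!
Row 74 (S0099), the one-stroke estimate (helper844's note 7381) in abstract form:
slice functionals `q` on cosets of `L`, doubling relation, weak* continuity at the zero coset
⇒ local Theorem A with a universal radius.
-/

set_option autoImplicit false

namespace Crest.Agent.R074.Est

open Metric Set Filter Topology

variable {X Y : Type*} [NormedAddCommGroup X] [NormedSpace ℝ X] [NormedAddCommGroup Y]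
  [NormedSpace ℝ Y] {f : X → Y} {g : Y → X}

/-- slice functional: on the slice `S ∩ (m + L)` the function `p - q ∘ f` is constant `= s`. -/
def QQ (f : X → Y) (p : X →L[ℝ] ℝ) (L : Submodule ℝ X) (m : X) (q : Y →L[ℝ] ℝ) (s : ℝ) : Prop :=
  ‖q‖ ≤ 1 ∧ ∀ x : X, ‖x‖ = 1 → x - m ∈ L → p x - q (f x) = s

theorem le_norm_of {q : Y →L[ℝ] ℝ} (hq : ‖q‖ ≤ 1) (y : Y) : |q y| ≤ ‖y‖ := by
  have h2 : ‖q y‖ ≤ ‖q‖ * ‖y‖ := q.le_opNorm y
  have h3 : ‖q‖ * ‖y‖ ≤ 1 * ‖y‖ := mul_le_mul_of_nonneg_right hq (norm_nonneg _)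
  rw [Real.norm_eq_abs] at h2
  linarith

/-- intermediate value on a ray -/
theorem exists_unit_on_line {m v : X} {a b : ℝ} (hab : a ≤ b) (ha : ‖m + a • v‖ ≤ 1)
    (hb : 1 ≤ ‖m + b • v‖) : ∃ t : ℝ, a ≤ t ∧ t ≤ b ∧ ‖m + t • v‖ = 1 := by
  have hc : ContinuousOn (fun t : ℝ => ‖m + t • v‖) (Icc a b) := by fun_prop
  obtain ⟨t, ht, h1⟩ := intermediate_value_Icc hab hc ⟨ha, hb⟩
  exact ⟨t, ht.1, ht.2, h1⟩

/-- the `u`-chord through `m` -/
theorem exists_chord {m u : X} (hu : ‖u‖ = 1) (hm : ‖m‖ < 1) :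
    ∃ α : ℝ, 1 - ‖m‖ ≤ α ∧ α ≤ 1 + ‖m‖ ∧ ‖m + α • u‖ = 1 := by
  apply exists_unit_on_line (by linarith [norm_nonneg m])
  · refine (norm_add_le _ _).trans ?_
    rw [norm_smul, hu, Real.norm_of_nonneg (by linarith)]
    linarith
  · have h1 := norm_sub_le (m + (1 + ‖m‖) • u) m
    rw [add_sub_cancel_left, norm_smul, hu, Real.norm_of_nonneg (by linarith [norm_nonneg m])] at h1
    linarith

/-- crude bound for the slice constant -/
theorem QQ.abs_le_two (h : SI f g) {p : X →L[ℝ] ℝ} (hp : ‖p‖ ≤ 1) {L : Submodule ℝ X} {u : X}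
    (hu : ‖u‖ = 1) (huL : u ∈ L) (hpu : p u = 1) {m : X} (hm : ‖m‖ < 1) {q : Y →L[ℝ] ℝ} {s : ℝ}
    (hq : QQ f p L m q s) : |s| ≤ 2 * ‖m‖ := by
  obtain ⟨α, hα1, hα2, hα⟩ := exists_chord hu hm
  obtain ⟨β, hβ1, hβ2, hβ⟩ := exists_chord (u := -u) (by rw [norm_neg]; exact hu) hm
  rw [smul_neg, ← sub_eq_add_neg] at hβ
  have h1 := hq.2 (m + α • u) hα (by rw [add_sub_cancel_left]; exact L.smul_mem _ huL)
  have h2 := hq.2 (m - β • u) hβ (by
    rw [show m - β • u - m = (-β) • u by rw [neg_smul]; abel]; exact L.smul_mem _ huL)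
  rw [map_add, map_smul, hpu, smul_eq_mul, mul_one] at h1
  rw [map_sub, map_smul, hpu, smul_eq_mul, mul_one] at h2
  have h3 := le_norm_of hq.1 (f (m + α • u))
  have h4 := le_norm_of hq.1 (f (m - β • u))
  rw [h.map _ hα] at h3
  rw [h.map _ hβ] at h4
  have h5 := le_norm_of hp m
  rw [abs_le] at *
  constructor <;> linarith

/-- closedness of the slice functional relation under ultralimits -/
theorem QQ.closed (h : SI f g) {p : X →L[ℝ] ℝ} {L : Submodule ℝ X} {ι : Type*}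
    (U : Ultrafilter ι) {m : ι → X} {m0 : X} {q : ι → Y →L[ℝ] ℝ} {s : ι → ℝ}
    (hQ : ∀ i, QQ f p L (m i) (q i) (s i)) (hm : Tendsto m U (𝓝 m0)) (hm0 : ‖m0‖ < 1)
    {B : ℝ} (hs : ∀ i, |s i| ≤ B) :
    ∃ (q' : Y →L[ℝ] ℝ) (s' : ℝ), QQ f p L m0 q' s' ∧
      (∀ y, Tendsto (fun i => q i y) U (𝓝 (q' y))) ∧ Tendsto s U (𝓝 s') := by
  obtain ⟨q', hq1, hq2⟩ := exists_ultra_limit U q (fun i => (hQ i).1)
  obtain ⟨s', hs'⟩ : ∃ s' : ℝ, Tendsto s U (𝓝 s') := by
    have hc : IsCompact (Set.Icc (-B) B) := isCompact_Icc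
    have hmem : (U.map s : Filter ℝ) ≤ 𝓟 (Set.Icc (-B) B) := by
      rw [le_principal_iff, Ultrafilter.coe_map, mem_map]
      apply Filter.univ_mem'
      intro i
      exact _root_.abs_le.mp (hs i)
    obtain ⟨a, _, hle⟩ := hc.ultrafilter_le_nhds _ hmem
    exact ⟨a, hle⟩
  refine ⟨q', s', ⟨hq1, ?_⟩, hq2, hs'⟩
  intro x hx hxL
  -- `x = m0 + l`
  set l : X := x - m0 with hl
  have hxl : x = m0 + l := by rw [hl]; abel
  -- approximate
  have key : ∀ ε : ℝ, 0 < ε → ε < 1 → |p x - q' (f x) - s'| ≤ (‖p‖ + 1) * (ε * (‖l‖ + 1)) := by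
    intro ε hε hε1
    have hlt : ‖m0 + (1 - ε) • l‖ < 1 := by
      have e : m0 + (1 - ε) • l = ε • m0 + (1 - ε) • x := by
        rw [hxl, smul_add]
        have : m0 = ε • m0 + (1 - ε) • m0 := by rw [← add_smul]; simp
        conv_lhs => rw [this]
        abel
      rw [e]
      refine (norm_add_le _ _).trans_lt ?_
      rw [norm_smul, norm_smul, Real.norm_of_nonneg hε.le, Real.norm_of_nonneg (by linarith), hx]
      nlinarith
    have hgt : 1 < ‖m0 + (1 + ε) • l‖ := by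
      have e : (1 + ε) • x = ε • m0 + (m0 + (1 + ε) • l) := by
        rw [hxl, smul_add, add_smul 1 ε m0, one_smul]; abel
      have h1 : ‖(1 + ε) • x‖ ≤ ε * ‖m0‖ + ‖m0 + (1 + ε) • l‖ := by
        rw [e]
        refine (norm_add_le _ _).trans ?_
        rw [norm_smul, Real.norm_of_nonneg hε.le]
      rw [norm_smul, Real.norm_of_nonneg (by linarith), hx] at h1
      nlinarith
    have hev : ∀ᶠ i in (U : Filter ι), ‖m i - m0‖ < ε ∧ ‖m i + (1 - ε) • l‖ < 1 ∧
        1 < ‖m i + (1 + ε) • l‖ := by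
      have h1 : Tendsto (fun i => ‖m i - m0‖) U (𝓝 0) := by
        rw [← tendsto_iff_norm_sub_tendsto_zero]; exact hm
      have h2 : Tendsto (fun i => ‖m i + (1 - ε) • l‖) U (𝓝 ‖m0 + (1 - ε) • l‖) :=
        (hm.add_const _).norm
      have h3 : Tendsto (fun i => ‖m i + (1 + ε) • l‖) U (𝓝 ‖m0 + (1 + ε) • l‖) :=
        (hm.add_const _).norm
      exact (h1.eventually_lt_const hε).and
        ((h2.eventually_lt_const hlt).and (h3.eventually_const_lt hgt))
    have hbd : ∀ᶠ i in (U : Filter ι), |p x - q i (f x) - s i| ≤ (‖p‖ + 1) * (ε * (‖l‖ + 1)) := by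
      filter_upwards [hev] with i hi
      obtain ⟨h1, h2, h3⟩ := hi
      obtain ⟨t, ht1, ht2, ht⟩ := exists_unit_on_line (by linarith) h2.le h3.le
      have h4 := (hQ i).2 _ ht (by rw [add_sub_cancel_left]; exact L.smul_mem _ hxL)
      have h5 : ‖x - (m i + t • l)‖ ≤ ε * (‖l‖ + 1) := by
        have e : x - (m i + t • l) = -(m i - m0) + (1 - t) • l := by
          rw [sub_smul, one_smul]; nth_rewrite 1 [hxl]; abel
        rw [e]
        refine (norm_add_le _ _).trans ?_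
        rw [norm_neg, norm_smul, Real.norm_eq_abs]
        have h6 : |1 - t| ≤ ε := by rw [_root_.abs_le]; constructor <;> linarith
        nlinarith [norm_nonneg l]
      have h6 : ‖f x - f (m i + t • l)‖ = ‖x - (m i + t • l)‖ := h.dist _ _ hx ht
      have h7 := le_norm_of (hQ i).1 (f x - f (m i + t • l))
      rw [h6] at h7
      have h8 : |p (x - (m i + t • l))| ≤ ‖p‖ * ‖x - (m i + t • l)‖ := by
        rw [← Real.norm_eq_abs]; exact p.le_opNorm _
      rw [map_sub] at h7 h8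
      have e : p x - q i (f x) - s i
          = (p x - p (m i + t • l)) - (q i (f x) - q i (f (m i + t • l))) := by
        rw [← h4]; ring
      rw [e]
      refine (abs_sub _ _).trans ?_
      have h9 : ‖p‖ * ‖x - (m i + t • l)‖ ≤ ‖p‖ * (ε * (‖l‖ + 1)) :=
        mul_le_mul_of_nonneg_left h5 (norm_nonneg _)
      linarith
    have hlim : Tendsto (fun i => |p x - q i (f x) - s i|) U (𝓝 |p x - q' (f x) - s'|) :=
      ((tendsto_const_nhds.sub (hq2 (f x))).sub hs').abs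
    exact le_of_tendsto hlim hbd
  have hz : |p x - q' (f x) - s'| ≤ 0 := by
    apply le_of_forall_pos_le_add
    intro ε hε
    set C : ℝ := (‖p‖ + 1) * (‖l‖ + 1) with hC
    have hC0 : 0 < C := by positivity
    have h1 := key (min (1 / 2) (ε / C)) (lt_min (by norm_num) (by positivity))
      ((min_le_left _ _).trans_lt (by norm_num))
    have h2 : min (1 / 2) (ε / C) ≤ ε / C := min_le_right _ _
    have h3 : (‖p‖ + 1) * (min (1 / 2) (ε / C) * (‖l‖ + 1)) ≤ ε := by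
      have h4 : (‖p‖ + 1) * (min (1 / 2) (ε / C) * (‖l‖ + 1)) = C * min (1 / 2) (ε / C) := by
        rw [hC]; ring
      rw [h4]
      calc C * min (1 / 2) (ε / C) ≤ C * (ε / C) := mul_le_mul_of_nonneg_left h2 hC0.le
        _ = ε := by field_simp
    linarith
  have := abs_nonpos_iff.mp hz
  linarith

/-- two-parameter first order estimate at a smooth point -/
theorem Smooth.deriv2 {z : X} (hz : Smooth z) (b x : X) {K ε : ℝ} (hK : 0 ≤ K) (hε : 0 < ε) :
    ∃ δ : ℝ, 0 < δ ∧ ∀ t κ : ℝ, 0 ≤ t → t ≤ δ → |κ| ≤ K →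
      ‖z + t • (b - κ • x)‖ ≤ ‖z‖ + t * J z (b - κ • x) + ε * t := by
  obtain ⟨δ1, hδ1, h1⟩ := hz.deriv (b - K • x) hε
  obtain ⟨δ2, hδ2, h2⟩ := hz.deriv (b + K • x) hε
  refine ⟨min δ1 δ2, lt_min hδ1 hδ2, ?_⟩
  intro t κ ht0 ht hκ
  have h3 := h1 t (by rw [abs_of_nonneg ht0]; exact ht.trans (min_le_left _ _))
  have h4 := h2 t (by rw [abs_of_nonneg ht0]; exact ht.trans (min_le_right _ _))
  rw [abs_of_nonneg ht0] at h3 h4
  rcases hK.eq_or_lt with hK0 | hK0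
  · have : κ = 0 := by
      rw [← hK0] at hκ; exact abs_nonpos_iff.mp hκ
    subst this
    rw [← hK0] at h3
    exact h3
  obtain ⟨hκ1, hκ2⟩ := _root_.abs_le.mp hκ
  set a : ℝ := (K + κ) / (2 * K) with ha
  have ha0 : 0 ≤ a := by apply div_nonneg <;> linarith
  have ha1 : a ≤ 1 := by rw [ha, div_le_one (by linarith)]; linarith
  have ha2 : a * K - (1 - a) * K = κ := by rw [ha]; field_simp; ring
  have e : z + t • (b - κ • x) = a • (z + t • (b - K • x)) + (1 - a) • (z + t • (b + K • x)) := by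
    rw [← ha2]
    module
  have e2 : J z (b - κ • x) = a * J z (b - K • x) + (1 - a) * J z (b + K • x) := by
    rw [← ha2]
    simp only [map_sub, map_add, map_smul, smul_eq_mul]
    ring
  rw [e2]
  calc ‖z + t • (b - κ • x)‖ = ‖a • (z + t • (b - K • x)) + (1 - a) • (z + t • (b + K • x))‖ := by
        rw [e]
    _ ≤ a * ‖z + t • (b - K • x)‖ + (1 - a) * ‖z + t • (b + K • x)‖ := by
        refine (norm_add_le _ _).trans ?_
        rw [norm_smul, norm_smul, Real.norm_of_nonneg ha0, Real.norm_of_nonneg (by linarith)]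
    _ ≤ a * (‖z‖ + t * J z (b - K • x) + ε * t) + (1 - a) * (‖z‖ + t * J z (b + K • x) + ε * t) := by
        apply add_le_add (mul_le_mul_of_nonneg_left h3 ha0)
          (mul_le_mul_of_nonneg_left h4 (by linarith))
    _ = _ := by ring

/-- radial projection -/
noncomputable def nrm (y : X) : X := ‖y‖⁻¹ • y

theorem norm_nrm {y : X} (hy : 0 < ‖y‖) : ‖nrm y‖ = 1 := by
  rw [nrm, norm_smul, norm_inv, norm_norm, inv_mul_cancel₀ hy.ne']

/-- one-sided slope bound for `p - q0 ∘ f` along radially projected segments -/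
theorem slope_bound (h : SI f g) {u : X} (hu1 : ‖u‖ = 1) (hu : Smooth u) {L : Submodule ℝ X}
    (huL : u ∈ L) {q0 : Y →L[ℝ] ℝ} {m' : X} (b : X) (hN : 1 / 2 < ‖u + m'‖)
    (hmN : ‖m'‖ < ‖u + m'‖) {q : Y →L[ℝ] ℝ} {s : ℝ}
    (hq : QQ f (J u) L (‖u + m'‖⁻¹ • m') q s) {E : ℝ} (hE : ‖q - q0‖ ≤ E) {ε : ℝ} (hε : 0 < ε) :
    ∃ δ : ℝ, 0 < δ ∧ ∀ t : ℝ, 0 < t → t ≤ δ →
      J u (nrm (u + m')) - q0 (f (nrm (u + m'))) - (ε + 4 * E * ‖b‖) * t
        ≤ J u (nrm (u + m' + t • b)) - q0 (f (nrm (u + m' + t • b))) := by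
  set y : X := u + m' with hy
  set N : ℝ := ‖y‖ with hNdef
  have hN0 : 0 < N := by linarith
  have hE0 : 0 ≤ E := (norm_nonneg _).trans hE
  set x : X := nrm y with hx
  have hx1 : ‖x‖ = 1 := norm_nrm hN0
  have hxy : x = N⁻¹ • y := rfl
  -- the other end of the chord
  obtain ⟨ρ, hρ1, hρ2, hρ⟩ : ∃ ρ : ℝ, N⁻¹ ≤ ρ ∧ ρ ≤ N⁻¹ + 2 ∧ ‖x + ρ • (-u)‖ = 1 := by
    apply exists_unit_on_line (by linarith)
    · have e : x + N⁻¹ • (-u) = N⁻¹ • m' := by rw [hxy, hy, smul_add, smul_neg]; abel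
      rw [e, norm_smul, norm_inv, Real.norm_of_nonneg hN0.le, inv_mul_le_iff₀ hN0]
      linarith
    · have h1 := norm_sub_le (x + (N⁻¹ + 2) • (-u)) x
      rw [add_sub_cancel_left, norm_smul, norm_neg, hu1, hx1,
        Real.norm_of_nonneg (by positivity)] at h1
      have : 0 < N⁻¹ := by positivity
      linarith
  have hρ0 : 0 < ρ := lt_of_lt_of_le (by positivity) hρ1
  set w : X := x + ρ • (-u) with hw
  have hwx : x - w = ρ • u := by rw [hw, smul_neg]; abel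
  have hxL : x - N⁻¹ • m' ∈ L := by
    have e : x - N⁻¹ • m' = N⁻¹ • u := by rw [hxy, hy, smul_add]; abel
    rw [e]; exact L.smul_mem _ huL
  have hwL : w - N⁻¹ • m' ∈ L := by
    have e : w - N⁻¹ • m' = (x - N⁻¹ • m') - ρ • u := by rw [← hwx]; abel
    rw [e]; exact L.sub_mem hxL (L.smul_mem _ huL)
  have h1 := hq.2 x hx1 hxL
  have h2 := hq.2 w hρ hwL
  have h3 : J u x - J u w = ρ := by
    rw [← map_sub, hwx, map_smul, J_self, hu1, smul_eq_mul, mul_one]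
  -- smoothness at z = ρ u
  have hz : Smooth (ρ • u) := hu.smul hρ0
  have hJz : J (ρ • u) = J u := hu.J_smul hρ0
  have hznorm : ‖ρ • u‖ = ρ := by rw [norm_smul, hu1, Real.norm_of_nonneg hρ0.le, mul_one]
  obtain ⟨δ1, hδ1, hder⟩ := Smooth.deriv2 hz b x (K := ‖b‖) (norm_nonneg b) (half_pos hε)
  rw [hJz, hznorm] at hder
  refine ⟨min (δ1 / 2) ((N - 1 / 2) / (‖b‖ + 1)), lt_min (by positivity)
    (div_pos (by linarith) (by positivity)), ?_⟩
  intro t ht0 ht
  have ht1 : t ≤ δ1 / 2 := ht.trans (min_le_left _ _)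
  have ht2 : t * (‖b‖ + 1) ≤ N - 1 / 2 := by
    have := ht.trans (min_le_right _ _)
    rwa [le_div_iff₀ (by positivity)] at this
  set N' : ℝ := ‖y + t • b‖ with hN'
  have hNN : |N' - N| ≤ t * ‖b‖ := by
    have := abs_norm_sub_norm_le (y + t • b) y
    rw [add_sub_cancel_left, norm_smul, Real.norm_of_nonneg ht0.le] at this
    exact this
  have hN'1 : 1 / 2 ≤ N' := by
    have := (_root_.abs_le.mp hNN).1
    nlinarith [norm_nonneg b]
  have hN'0 : 0 < N' := by linarith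
  set x' : X := nrm (y + t • b) with hx'
  have hx'1 : ‖x'‖ = 1 := norm_nrm hN'0
  have hx'y : x' = N'⁻¹ • (y + t • b) := rfl
  set τ : ℝ := t / N' with hτ
  have hτ0 : 0 < τ := by positivity
  have hτ2 : τ ≤ 2 * t := by
    rw [hτ, div_le_iff₀ hN'0]; nlinarith
  set κ : ℝ := (N' - N) / t with hκ
  have hκ1 : |κ| ≤ ‖b‖ := by
    rw [hκ, abs_div, abs_of_pos ht0, div_le_iff₀ ht0]; linarith
  have hxx : x' - x = τ • (b - κ • x) := by
    have e1 : τ • (b - κ • x) = N'⁻¹ • (t • b - (N' - N) • x) := by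
      rw [hτ, hκ, smul_sub, smul_sub, smul_smul, smul_smul, smul_smul, div_eq_inv_mul]
      congr 1
      congr 1
      field_simp
    rw [e1, hx'y]
    have e2 : y = N • x := by rw [hxy, smul_smul, mul_inv_cancel₀ hN0.ne', one_smul]
    have e3 : x = N'⁻¹ • (N' • x) := by rw [smul_smul, inv_mul_cancel₀ hN'0.ne', one_smul]
    have e4 : N'⁻¹ • (y + t • b) - N'⁻¹ • (N' • x) = N'⁻¹ • (t • b - (N' - N) • x) := by
      rw [← smul_sub, e2]; congr 1; module
    rw [← e4, ← e3]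
  have hx'w : x' - w = ρ • u + τ • (b - κ • x) := by
    rw [← hxx, ← hwx]; abel
  have h4 := hder τ κ hτ0.le (hτ2.trans (by linarith)) hκ1
  rw [← hx'w] at h4
  have h5 : τ * J u (b - κ • x) = J u x' - J u x := by
    rw [← map_sub, hxx, map_smul, smul_eq_mul]
  rw [h5] at h4
  -- isometry
  have h6 := le_norm_of hq.1 (f x' - f w)
  rw [h.dist _ _ hx'1 hρ, map_sub] at h6
  have h7 := (_root_.abs_le.mp h6).2
  -- difference of functionals
  have h8 : |(q - q0) (f x' - f x)| ≤ E * (τ * (2 * ‖b‖)) := by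
    have h9 : ‖(q - q0) (f x' - f x)‖ ≤ ‖q - q0‖ * ‖f x' - f x‖ := (q - q0).le_opNorm _
    rw [Real.norm_eq_abs, h.dist _ _ hx'1 hx1, hxx, norm_smul, Real.norm_of_nonneg hτ0.le] at h9
    have h10 : ‖b - κ • x‖ ≤ 2 * ‖b‖ := by
      refine (norm_sub_le _ _).trans ?_
      rw [norm_smul, hx1, mul_one, Real.norm_eq_abs]; linarith
    calc |(q - q0) (f x' - f x)| ≤ ‖q - q0‖ * (τ * ‖b - κ • x‖) := h9
      _ ≤ E * (τ * (2 * ‖b‖)) := by
        apply mul_le_mul hE (mul_le_mul_of_nonneg_left h10 hτ0.le) (by positivity) hE0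
  have h11 : E * (τ * (2 * ‖b‖)) ≤ E * (2 * t * (2 * ‖b‖)) := by
    apply mul_le_mul_of_nonneg_left _ hE0
    apply mul_le_mul_of_nonneg_right hτ2 (by positivity)
  have h12 := (_root_.abs_le.mp h8).1
  rw [_root_.sub_apply, map_sub, map_sub] at h12
  nlinarith

theorem continuousOn_comp_sphere (h : SI f g) {x : ℝ → X} {S : Set ℝ} (hx : ContinuousOn x S)
    (hx1 : ∀ t ∈ S, ‖x t‖ = 1) : ContinuousOn (fun t => f (x t)) S := by
  rw [Metric.continuousOn_iff] at hx ⊢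
  intro t ht ε hε
  obtain ⟨δ, hδ, hd⟩ := hx t ht ε hε
  refine ⟨δ, hδ, fun t' ht' hdist => ?_⟩
  have h1 := hd t' ht' hdist
  rw [dist_eq_norm] at h1 ⊢
  rw [h.dist _ _ (hx1 t' ht') (hx1 t ht)]
  exact h1

theorem norm_add_ge_of {u m : X} (hu : ‖u‖ = 1) (hm : ‖m‖ ≤ 1 / 3) : 2 / 3 ≤ ‖u + m‖ := by
  have h1 := norm_sub_le (u + m) m
  rw [add_sub_cancel_right, hu] at h1
  linarith

/-- integration of the slope bound along a segment -/
theorem path_bound (h : SI f g) {u : X} (hu1 : ‖u‖ = 1) (hu : Smooth u) {L : Submodule ℝ X}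
    (huL : u ∈ L) {q0 : Y →L[ℝ] ℝ} {a b : X} (hab : ∀ t ∈ Icc (0 : ℝ) 1, ‖a + t • b‖ ≤ 1 / 3)
    {E : ℝ} (hq : ∀ t ∈ Icc (0 : ℝ) 1, ∃ q s,
      QQ f (J u) L (‖u + (a + t • b)‖⁻¹ • (a + t • b)) q s ∧ ‖q - q0‖ ≤ E) :
    J u (nrm (u + a)) - q0 (f (nrm (u + a))) - 4 * E * ‖b‖
      ≤ J u (nrm (u + (a + b))) - q0 (f (nrm (u + (a + b)))) := by
  set F : ℝ → ℝ := fun t => J u (nrm (u + (a + t • b))) - q0 (f (nrm (u + (a + t • b)))) with hF
  have hN : ∀ t ∈ Icc (0 : ℝ) 1, 2 / 3 ≤ ‖u + (a + t • b)‖ := fun t ht =>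
    norm_add_ge_of hu1 (hab t ht)
  have hE0 : 0 ≤ E := by
    obtain ⟨q, s, _, h2⟩ := hq 0 (by simp)
    exact (norm_nonneg _).trans h2
  have hcx : ContinuousOn (fun t : ℝ => nrm (u + (a + t • b))) (Icc 0 1) := by
    unfold nrm
    refine ContinuousOn.smul (ContinuousOn.inv₀ (by fun_prop) (fun t ht => ?_)) (by fun_prop)
    have := hN t ht
    positivity
  have hx1 : ∀ t ∈ Icc (0 : ℝ) 1, ‖nrm (u + (a + t • b))‖ = 1 := fun t ht =>
    norm_nrm (by have := hN t ht; linarith)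
  have hcF : ContinuousOn F (Icc 0 1) :=
    ((J u).continuous.comp_continuousOn hcx).sub
      (q0.continuous.comp_continuousOn (continuousOn_comp_sphere h hcx hx1))
  suffices hmain : ∀ ε : ℝ, 0 < ε → -F 1 ≤ -F 0 + (4 * E * ‖b‖ + ε) * 1 by
    have h1 : -F 1 ≤ -F 0 + 4 * E * ‖b‖ := by
      apply le_of_forall_pos_le_add
      intro ε hε
      have := hmain ε hε
      linarith
    simp only [hF, one_smul, zero_smul, add_zero] at h1
    linarith
  intro ε hε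
  refine image_le_of_liminf_slope_right_lt_deriv_boundary' (f := fun t => -F t)
    (f' := fun _ => 4 * E * ‖b‖ + ε / 2) (a := 0) (b := 1)
    (B := fun t => -F 0 + (4 * E * ‖b‖ + ε) * t) (B' := fun _ => 4 * E * ‖b‖ + ε)
    hcF.neg ?_ (by simp) (by fun_prop) ?_ ?_ (by simp)
  · intro t ht r hr
    have htI : t ∈ Icc (0 : ℝ) 1 := ⟨ht.1, ht.2.le⟩
    obtain ⟨q, s, hqs, hqE⟩ := hq t htI
    have hNt := hN t htI
    obtain ⟨δ, hδ, hsl⟩ := slope_bound h hu1 hu huL b (m' := a + t • b) (by linarith)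
      (by have := hab t htI; linarith) hqs hqE (half_pos hε)
    apply Filter.Eventually.frequently
    have hev : ∀ᶠ z in 𝓝[>] t, z - t ≤ δ := by
      have : ∀ᶠ z in 𝓝 t, z - t < δ := by
        have hc : Tendsto (fun z : ℝ => z - t) (𝓝 t) (𝓝 (t - t)) := by
          exact (continuous_id.sub continuous_const).tendsto t
        rw [sub_self] at hc
        exact hc.eventually_lt_const hδ
      filter_upwards [nhdsWithin_le_nhds this] with z hz using hz.le
    filter_upwards [hev, self_mem_nhdsWithin] with z hz hzt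
    have hzt' : 0 < z - t := sub_pos.mpr hzt
    have h1 := hsl (z - t) hzt' hz
    have e1 : u + (a + t • b) + (z - t) • b = u + (a + z • b) := by rw [sub_smul]; abel
    rw [e1] at h1
    rw [slope_def_field, div_lt_iff₀ hzt']
    have h2 : -F z - -F t ≤ (ε / 2 + 4 * E * ‖b‖) * (z - t) := by
      simp only [hF]; linarith
    refine h2.trans_lt ?_
    have : ε / 2 + 4 * E * ‖b‖ < r := by linarith
    exact mul_lt_mul_of_pos_right this hzt'
  · intro t _
    have := ((hasDerivAt_id t).const_mul (4 * E * ‖b‖ + ε)).const_add (-F 0)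
    simp only [id, mul_one] at this
    exact this.hasDerivWithinAt
  · intro t _ _
    show 4 * E * ‖b‖ + ε / 2 < 4 * E * ‖b‖ + ε
    linarith

/-- `|λ|` at the `u`-top point of the coset of `m` (note 6727 (A3)) -/
theorem lam_bound (h : SI f g) {u : X} (hu1 : ‖u‖ = 1) (hu : Smooth u) {L : Submodule ℝ X}
    (huL : u ∈ L) {q0 : Y →L[ℝ] ℝ} (h0 : q0 (f u) = 1) {m : X} (hm : ‖m‖ ≤ 1 / 4) {α : ℝ}
    (hα1 : 1 - ‖m‖ ≤ α) (hα : ‖m + α • u‖ = 1) {E : ℝ}
    (hq : ∀ m' : X, ‖m'‖ ≤ ‖m‖ → ∃ q s, QQ f (J u) L m' q s ∧ ‖q - q0‖ ≤ E) :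
    |J u (m + α • u) - q0 (f (m + α • u))| ≤ 6 * E * ‖m‖ := by
  have hα0 : 3 / 4 ≤ α := by linarith
  have hαpos : 0 < α := by linarith
  set b : X := α⁻¹ • m with hb
  have hbn : ‖b‖ = α⁻¹ * ‖m‖ := by rw [hb, norm_smul, norm_inv, Real.norm_of_nonneg hαpos.le]
  have hαinv : α⁻¹ ≤ 4 / 3 := by
    rw [inv_le_comm₀ hαpos (by norm_num)]; linarith
  have hbn2 : ‖b‖ ≤ 4 / 3 * ‖m‖ := by
    rw [hbn]; exact mul_le_mul_of_nonneg_right hαinv (norm_nonneg _)
  have hb3 : ‖b‖ ≤ 1 / 3 := by linarith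
  have hE0 : 0 ≤ E := by
    obtain ⟨q, s, _, h2⟩ := hq 0 (by simp)
    exact (norm_nonneg _).trans h2
  have hub : ‖u + b‖ = α⁻¹ := by
    have e : u + b = α⁻¹ • (m + α • u) := by
      rw [hb, smul_add, smul_smul, inv_mul_cancel₀ hαpos.ne', one_smul]; abel
    rw [e, norm_smul, hα, mul_one, norm_inv, Real.norm_of_nonneg hαpos.le]
  have hnrm1 : nrm (u + b) = m + α • u := by
    rw [nrm, hub, inv_inv, hb, smul_add, smul_smul, mul_inv_cancel₀ hαpos.ne', one_smul]; abel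
  have hnrm0 : nrm u = u := by rw [nrm, hu1, inv_one, one_smul]
  -- cosets on the path have smaller norm
  have hcos : ∀ t ∈ Icc (0 : ℝ) 1, ‖‖u + t • b‖⁻¹ • (t • b)‖ ≤ ‖m‖ := by
    intro t ht
    have htb : ‖t • b‖ ≤ 1 / 3 := by
      rw [norm_smul, Real.norm_of_nonneg ht.1]
      nlinarith [norm_nonneg b, ht.2]
    have hN := norm_add_ge_of hu1 htb
    have hNpos : 0 < ‖u + t • b‖ := by linarith
    rw [norm_smul, norm_inv, norm_norm, norm_smul, Real.norm_of_nonneg ht.1,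
      inv_mul_le_iff₀ hNpos]
    -- lower bound by a norming functional of u + b
    have hj := J_le (u + b) (u + t • b)
    have e : u + t • b = t • (u + b) + (1 - t) • u := by rw [smul_add, sub_smul, one_smul]; abel
    have h1 : J (u + b) (u + t • b) = t * α⁻¹ + (1 - t) * J (u + b) u := by
      rw [e, map_add, map_smul, map_smul, J_self, hub, smul_eq_mul, smul_eq_mul]
    have h2 : 0 ≤ J (u + b) u := by
      have h3 : J (u + b) u = J (u + b) (u + b) - J (u + b) b := by rw [map_add]; ring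
      rw [h3, J_self]
      have h4 := J_le (u + b) b
      have h5 := norm_add_ge_of hu1 hb3
      linarith
    have h3 : t * α⁻¹ ≤ ‖u + t • b‖ := by
      have : 0 ≤ (1 - t) * J (u + b) u := mul_nonneg (by linarith [ht.2]) h2
      linarith
    rw [hbn]
    calc t * (α⁻¹ * ‖m‖) = (t * α⁻¹) * ‖m‖ := by ring
      _ ≤ ‖u + t • b‖ * ‖m‖ := mul_le_mul_of_nonneg_right h3 (norm_nonneg _)
  -- forward path
  have hfw := path_bound h hu1 hu huL (q0 := q0) (a := 0) (b := b) (E := E)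
    (fun t ht => by
      rw [zero_add, norm_smul, Real.norm_of_nonneg ht.1]
      nlinarith [norm_nonneg b, ht.2])
    (fun t ht => by
      rw [zero_add]
      exact hq _ (hcos t ht))
  -- backward path
  have hbw := path_bound h hu1 hu huL (q0 := q0) (a := b) (b := -b) (E := E)
    (fun t ht => by
      have e : b + t • -b = (1 - t) • b := by rw [smul_neg, sub_smul, one_smul]; abel
      rw [e, norm_smul, Real.norm_of_nonneg (by linarith [ht.2])]
      nlinarith [norm_nonneg b, ht.1])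
    (fun t ht => by
      have e : b + t • -b = (1 - t) • b := by rw [smul_neg, sub_smul, one_smul]; abel
      rw [e]
      exact hq _ (hcos (1 - t) ⟨by linarith [ht.2], by linarith [ht.1]⟩))
  rw [zero_add, add_zero, hnrm0, hnrm1] at hfw
  rw [add_neg_cancel, add_zero, hnrm0, hnrm1, norm_neg] at hbw
  have hlam0 : J u u - q0 (f u) = 0 := by rw [J_self, hu1, h0, sub_self]
  rw [hlam0] at hfw hbw
  have h6 : 4 * E * ‖b‖ ≤ 6 * E * ‖m‖ := by
    have : E * ‖b‖ ≤ E * (4 / 3 * ‖m‖) := mul_le_mul_of_nonneg_left hbn2 hE0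
    nlinarith [mul_nonneg hE0 (norm_nonneg m)]
  rw [_root_.abs_le]
  constructor <;> linarith

/-- the slice constant is controlled by `‖q - q0‖` -/
theorem s_bound (h : SI f g) (ho : ∀ x, ‖x‖ = 1 → f (-x) = -f x) {u : X} (hu1 : ‖u‖ = 1)
    (hu : Smooth u) {L : Submodule ℝ X} (huL : u ∈ L) {q0 : Y →L[ℝ] ℝ} (h0 : q0 (f u) = 1)
    {m : X} (hm : ‖m‖ ≤ 1 / 4) {E : ℝ}
    (hq : ∀ m' : X, ‖m'‖ ≤ ‖m‖ → ∃ q s, QQ f (J u) L m' q s ∧ ‖q - q0‖ ≤ E)
    {q : Y →L[ℝ] ℝ} {s : ℝ} (hqs : QQ f (J u) L m q s) (hqE : ‖q - q0‖ ≤ E) :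
    |s| ≤ 8 * E * ‖m‖ := by
  obtain ⟨α, hα1, hα2, hα⟩ := exists_chord hu1 (m := m) (by linarith)
  obtain ⟨β, hβ1, hβ2, hβ⟩ := exists_chord hu1 (m := -m) (by rw [norm_neg]; linarith)
  rw [norm_neg] at hβ1 hβ2
  have hE0 : 0 ≤ E := (norm_nonneg _).trans hqE
  set x : X := m + α • u with hx
  set w' : X := -m + β • u with hw'
  have hw1 : ‖-w'‖ = 1 := by rw [norm_neg]; exact hβ
  have h1 := hqs.2 x hα (by rw [hx, add_sub_cancel_left]; exact L.smul_mem _ huL)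
  have h2 := hqs.2 (-w') hw1 (by
    have e : -w' - m = -(β • u) := by rw [hw']; abel
    rw [e]; exact L.neg_mem (L.smul_mem _ huL))
  have h3 := lam_bound h hu1 hu huL h0 hm hα1 hα hq
  have h4 := lam_bound h hu1 hu huL h0 (m := -m) (by rw [norm_neg]; exact hm)
    (by rw [norm_neg]; exact hβ1) hβ (fun m' hm' => hq m' (by rwa [norm_neg] at hm'))
  rw [norm_neg] at h4
  rw [map_neg, ho _ hβ, map_neg] at h2
  -- sum
  have h5 : |(q - q0) (f x - f w')| ≤ E * (4 * ‖m‖) := by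
    have h6 : ‖(q - q0) (f x - f w')‖ ≤ ‖q - q0‖ * ‖f x - f w'‖ := (q - q0).le_opNorm _
    rw [Real.norm_eq_abs, h.dist _ _ hα hβ] at h6
    have h7 : ‖x - w'‖ ≤ 4 * ‖m‖ := by
      have e : x - w' = (2 : ℝ) • m + (α - β) • u := by rw [hx, hw', two_smul, sub_smul]; abel
      rw [e]
      refine (norm_add_le _ _).trans ?_
      rw [norm_smul, norm_smul, hu1, Real.norm_of_nonneg (by norm_num), Real.norm_eq_abs]
      have : |α - β| ≤ 2 * ‖m‖ := by rw [_root_.abs_le]; constructor <;> linarith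
      linarith
    calc |(q - q0) (f x - f w')| ≤ ‖q - q0‖ * ‖x - w'‖ := h6
      _ ≤ E * (4 * ‖m‖) := mul_le_mul hqE h7 (norm_nonneg _) hE0
  have h6 : 2 * s = (J u x - q0 (f x)) - (J u w' - q0 (f w')) - (q - q0) (f x - f w') := by
    rw [map_sub, _root_.sub_apply, _root_.sub_apply]
    linarith
  rw [_root_.abs_le] at h3 h4 h5 ⊢
  constructor <;> nlinarith

end Crest.Agent.R074.Est
end

-- ▼ part R074/LTA

/-!
Row 74 (S0099): LTA = local Theorem A with a universal radius, from an abstract family of coset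
functionals (interface of helper439's note 7980).
-/

set_option autoImplicit false

namespace Crest.Agent.R074

open Metric Set Filter Topology

variable {X Y : Type*} [NormedAddCommGroup X] [NormedSpace ℝ X] [NormedAddCommGroup Y]
  [NormedSpace ℝ Y] {f : X → Y} {g : Y → X}

/-- `p - q ∘ f` is constant `= s` on the slice `S ∩ (m + V)`. -/
structure CosetFun (f : X → Y) (p : X →L[ℝ] ℝ) (V : Submodule ℝ X) (m : X) (q : Y →L[ℝ] ℝ)
    (s : ℝ) : Prop where
  norm_le : ‖q‖ ≤ 1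
  rel : ∀ x, ‖x‖ = 1 → x - m ∈ V → p x - q (f x) = s

theorem CosetFun.qq {p : X →L[ℝ] ℝ} {V : Submodule ℝ X} {m : X} {q : Y →L[ℝ] ℝ} {s : ℝ}
    (h : CosetFun f p V m q s) : Est.QQ f p V m q s := ⟨h.norm_le, h.rel⟩

theorem norm_sub_le_of_tendsto {U : Filter ℕ} [U.NeBot] {q : ℕ → Y →L[ℝ] ℝ} {q0 q1 : Y →L[ℝ] ℝ}
    (hq : ∀ y, Tendsto (fun i => q i y) U (𝓝 (q0 y))) {E : ℝ} (hE : 0 ≤ E)
    (hb : ∀ i, ‖q1 - q i‖ ≤ E) : ‖q1 - q0‖ ≤ E := by
  refine ContinuousLinearMap.opNorm_le_bound _ hE (fun y => ?_)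
  have h1 : ∀ i, ‖q1 y - q i y‖ ≤ E * ‖y‖ := fun i => by
    have := (q1 - q i).le_opNorm y
    rw [_root_.sub_apply] at this
    exact this.trans (mul_le_mul_of_nonneg_right (hb i) (norm_nonneg _))
  have h2 : Tendsto (fun i => ‖q1 y - q i y‖) U (𝓝 ‖q1 y - q0 y‖) :=
    (tendsto_const_nhds.sub (hq y)).norm
  rw [_root_.sub_apply]
  exact le_of_tendsto h2 (Eventually.of_forall h1)

/-- LOCAL THEOREM A (abstract form). -/
theorem lta (h : SI f g) (ho : ∀ x, ‖x‖ = 1 → f (-x) = -f x) {u : X} (hu1 : ‖u‖ = 1)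
    (hu : Smooth u) (hfu : Smooth (f u)) {V : Submodule ℝ X} (huV : u ∈ V) {eps0 : ℝ}
    (heps0 : 0 < eps0) (Q : X → (Y →L[ℝ] ℝ) → ℝ → Prop)
    (h1 : ∀ m q s, Q m q s → CosetFun f (J u) V m q s)
    (h2 : ∀ m, ‖m‖ < eps0 → ∃ q s, Q m q s)
    (h3 : ∀ m q2 s2, ‖(2 : ℝ) • m‖ < eps0 → Q ((2 : ℝ) • m) q2 s2 →
      ∃ q s, Q m q s ∧ ‖q2 - q‖ ≤ |2 * s - s2|)
    {m : X} (hm : ‖m‖ < min eps0 (1 / 64)) {x : X} (hx : ‖x‖ = 1) (hxm : x - m ∈ V) :
    J (f u) (f x) = J u x := by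
  set q0 : Y →L[ℝ] ℝ := J (f u) with hq0
  have hfu1 : ‖f u‖ = 1 := h.map u hu1
  have h00 : q0 (f u) = 1 := by rw [hq0, J_self, hfu1]
  have hJu : ‖J u‖ ≤ 1 := J_norm_le u
  have hpu : J u u = 1 := by rw [J_self, hu1]
  -- chains
  have hchain : ∀ (K : ℝ), 0 ≤ K → (∀ m q s, ‖m‖ < min eps0 (1 / 64) → Q m q s → |s| ≤ K * ‖m‖) →
      ∀ m q s, ‖m‖ < min eps0 (1 / 64) → Q m q s → ‖q - q0‖ ≤ 4 * K * ‖m‖ := by
    intro K hK hs m q s hm hQ
    have hm1 : ‖m‖ < eps0 := hm.trans_le (min_le_left _ _)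
    have hm2 : ‖m‖ < 1 / 64 := hm.trans_le (min_le_right _ _)
    have hpow : ∀ n : ℕ, ‖((1 / 2 : ℝ) ^ n) • m‖ = (1 / 2) ^ n * ‖m‖ := fun n => by
      rw [norm_smul, Real.norm_of_nonneg (by positivity)]
    have hple : ∀ n : ℕ, ((1 : ℝ) / 2) ^ n ≤ 1 := fun n => pow_le_one₀ (by norm_num) (by norm_num)
    have hlt : ∀ n : ℕ, ‖((1 / 2 : ℝ) ^ n) • m‖ < min eps0 (1 / 64) := fun n => by
      rw [hpow]
      refine lt_of_le_of_lt ?_ hm
      nlinarith [norm_nonneg m, hple n]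
    -- the next step of the chain
    have hstep : ∀ n : ℕ, ∀ a : {a : (Y →L[ℝ] ℝ) × ℝ // Q (((1 / 2 : ℝ) ^ n) • m) a.1 a.2},
        ∃ b : {b : (Y →L[ℝ] ℝ) × ℝ // Q (((1 / 2 : ℝ) ^ (n + 1)) • m) b.1 b.2},
          ‖a.1.1 - b.1.1‖ ≤ |2 * b.1.2 - a.1.2| := by
      rintro n ⟨⟨q, s⟩, ha⟩
      have e : (2 : ℝ) • (((1 / 2 : ℝ) ^ (n + 1)) • m) = ((1 / 2 : ℝ) ^ n) • m := by
        rw [smul_smul]; congr 1; ring
      obtain ⟨q', s', hQ', hn⟩ := h3 (((1 / 2 : ℝ) ^ (n + 1)) • m) q s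
        (by rw [e]; exact (hlt n).trans_le (min_le_left _ _)) (by rw [e]; exact ha)
      exact ⟨⟨(q', s'), hQ'⟩, hn⟩
    choose nx hnx using hstep
    let A : (n : ℕ) → {a : (Y →L[ℝ] ℝ) × ℝ // Q (((1 / 2 : ℝ) ^ n) • m) a.1 a.2} := fun n =>
      Nat.rec ⟨(q, s), by rw [pow_zero, one_smul]; exact hQ⟩ (fun n a => nx n a) n
    have hA0 : (A 0).1 = (q, s) := rfl
    have hAs : ∀ n, A (n + 1) = nx n (A n) := fun n => rfl
    -- telescoping
    have htel : ∀ n : ℕ, ‖q - (A n).1.1‖ ≤ 4 * K * ‖m‖ * (1 - (1 / 2) ^ n) := by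
      intro n
      induction n with
      | zero => simp [hA0]
      | succ n ih =>
        have h4 : ‖(A n).1.1 - (A (n + 1)).1.1‖ ≤ |2 * (A (n + 1)).1.2 - (A n).1.2| := by
          rw [hAs]; exact hnx n (A n)
        have h5 := hs _ _ _ (hlt n) (A n).2
        have h6 := hs _ _ _ (hlt (n + 1)) (A (n + 1)).2
        rw [hpow] at h5 h6
        have h7 : |2 * (A (n + 1)).1.2 - (A n).1.2| ≤ 2 * K * ((1 / 2) ^ n * ‖m‖) := by
          have hps : ((1 : ℝ) / 2) ^ (n + 1) * ‖m‖ = (1 / 2) ^ n * ‖m‖ / 2 := by ring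
          rw [hps] at h6
          rw [_root_.abs_le] at h5 h6 ⊢
          constructor <;> linarith
        have h8 : ‖q - (A (n + 1)).1.1‖ ≤ ‖q - (A n).1.1‖ + ‖(A n).1.1 - (A (n + 1)).1.1‖ := by
          have e : q - (A (n + 1)).1.1 = (q - (A n).1.1) + ((A n).1.1 - (A (n + 1)).1.1) := by abel
          rw [e]; exact norm_add_le _ _
        have hps : 4 * K * ‖m‖ * (1 - ((1 : ℝ) / 2) ^ (n + 1))
            = 4 * K * ‖m‖ - 2 * K * ((1 / 2) ^ n * ‖m‖) := by ring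
        rw [hps]
        have hps' : 4 * K * ‖m‖ * (1 - ((1 : ℝ) / 2) ^ n)
            = 4 * K * ‖m‖ - 4 * K * ((1 / 2) ^ n * ‖m‖) := by ring
        rw [hps'] at ih
        linarith
    have htel' : ∀ n : ℕ, ‖q - (A n).1.1‖ ≤ 4 * K * ‖m‖ := fun n => by
      refine (htel n).trans ?_
      have : 0 ≤ 4 * K * ‖m‖ := by positivity
      nlinarith [show (0 : ℝ) ≤ (1 / 2) ^ n by positivity]
    -- ultralimit at the zero coset
    have hU : (hyperfilter ℕ : Filter ℕ) ≤ atTop := by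
      rw [← Nat.cofinite_eq_atTop]; exact hyperfilter_le_cofinite
    have hmt : Tendsto (fun n : ℕ => ((1 / 2 : ℝ) ^ n) • m) (hyperfilter ℕ) (𝓝 0) := by
      have h4 : Tendsto (fun n : ℕ => ((1 / 2 : ℝ) ^ n) • m) atTop (𝓝 ((0 : ℝ) • m)) :=
        (tendsto_pow_atTop_nhds_zero_of_lt_one (by norm_num) (by norm_num)).smul_const m
      rw [zero_smul] at h4
      exact h4.mono_left hU
    have hsb : ∀ n, |(A n).1.2| ≤ K * ‖m‖ := fun n => by
      have h4 := hs _ _ _ (hlt n) (A n).2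
      rw [hpow] at h4
      refine h4.trans (mul_le_mul_of_nonneg_left ?_ hK)
      nlinarith [norm_nonneg m, hple n]
    obtain ⟨q', s', hqq', hqlim, hslim⟩ := Est.QQ.closed h (hyperfilter ℕ)
      (fun n => (h1 _ _ _ (A n).2).qq) hmt (by rw [norm_zero]; norm_num) hsb
    -- `s' = 0`
    have hs0 : s' = 0 := by
      have h4 : Tendsto (fun n => (A n).1.2) (hyperfilter ℕ) (𝓝 0) := by
        have h5 : Tendsto (fun n : ℕ => K * ‖((1 / 2 : ℝ) ^ n) • m‖) (hyperfilter ℕ) (𝓝 0) := by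
          have := hmt.norm.const_mul K
          simpa using this
        exact squeeze_zero_norm (fun n => hs _ _ _ (hlt n) (A n).2) h5
      exact tendsto_nhds_unique hslim h4
    have hq'u : q' (f u) = 1 := by
      have := hqq'.2 u hu1 (by rw [sub_zero]; exact huV)
      rw [hpu, hs0] at this
      linarith
    have hq'0 : q' = q0 := hfu.eq_J ⟨hqq'.1, by rw [hq'u, hfu1]⟩
    rw [hq'0] at hqlim
    exact norm_sub_le_of_tendsto hqlim (by positivity) htel'
  -- contraction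
  have hcontr : ∀ n : ℕ, ∀ m q s, ‖m‖ < min eps0 (1 / 64) → Q m q s →
      |s| ≤ 2 * (1 / 2) ^ n * ‖m‖ := by
    intro n
    induction n with
    | zero =>
      intro m q s hm hQ
      have hm2 : ‖m‖ < 1 / 64 := hm.trans_le (min_le_right _ _)
      have := Est.QQ.abs_le_two h hJu hu1 huV hpu (by linarith) (h1 _ _ _ hQ).qq
      simpa using this
    | succ n ih =>
      intro m q s hm hQ
      have hm2 : ‖m‖ < 1 / 64 := hm.trans_le (min_le_right _ _)
      have hch := hchain (2 * (1 / 2) ^ n) (by positivity) ih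
      have h4 := Est.s_bound h ho hu1 hu huV (q0 := q0) h00 (m := m) (by linarith)
        (E := 4 * (2 * (1 / 2) ^ n) * ‖m‖) (fun m' hm' => by
          obtain ⟨q', s', hQ'⟩ := h2 m' ((hm'.trans_lt hm).trans_le (min_le_left _ _))
          refine ⟨q', s', (h1 _ _ _ hQ').qq, (hch m' q' s' (hm'.trans_lt hm) hQ').trans ?_⟩
          exact mul_le_mul_of_nonneg_left hm' (by positivity))
        (h1 _ _ _ hQ).qq (hch m q s hm hQ)
      refine h4.trans ?_
      rw [pow_succ]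
      have hP : 0 ≤ (2 : ℝ) * (1 / 2) ^ n * ‖m‖ := by positivity
      nlinarith
  have hszero : ∀ m q s, ‖m‖ < min eps0 (1 / 64) → Q m q s → s = 0 := by
    intro m q s hm hQ
    have h4 : Tendsto (fun n : ℕ => 2 * ((1 : ℝ) / 2) ^ n * ‖m‖) atTop (𝓝 0) := by
      have := ((tendsto_pow_atTop_nhds_zero_of_lt_one (r := (1 : ℝ) / 2) (by norm_num)
        (by norm_num)).const_mul 2).mul_const ‖m‖
      simpa using this
    have h5 : |s| ≤ 0 := ge_of_tendsto h4 (Eventually.of_forall fun n => hcontr n m q s hm hQ)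
    exact abs_nonpos_iff.mp h5
  obtain ⟨q, s, hQ⟩ := h2 m (hm.trans_le (min_le_left _ _))
  have hs := hszero m q s hm hQ
  have hq := hchain 0 le_rfl (fun m q s hm hQ => by rw [hszero m q s hm hQ]; simp) m q s hm hQ
  have hqq0 : q = q0 := by
    have : ‖q - q0‖ ≤ 0 := by simpa using hq
    exact sub_eq_zero.mp (norm_le_zero_iff.mp this)
  have h6 := (h1 _ _ _ hQ).rel x hx hxm
  rw [hs, hqq0] at h6
  linarith

end Crest.Agent.R074
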