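import Crest.Agent.R074.HLin_Mg
import Crest.Agent.R074.LTA
import Crest.Agent.R074.Centre
import Crest.Agent.R074.Cross

/-!
Row 74 (S0099): assembly. The module statements enter as explicit hypotheses
(`LTAStatement`, `HLinStatement`, `CaseBStatement`, `CaseCStatement`, `SepRedStatement`, ...);
`assembly` derives the final theorem from them.
-/

set_option autoImplicit false

universe u v

namespace Crest.Agent.R074

open Metric Set Filter Topology

section Defs

variable {X : Type u} {Y : Type v} [NormedAddCommGroup X] [NormedSpace ℝ X]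
  [NormedAddCommGroup Y] [NormedSpace ℝ Y]

/-- the face of `J u` is `{u}` -/
def Expo (u : X) : Prop := ∀ c : X, ‖c‖ = 1 → J u c = 1 → c = u

/-- local Theorem A at `u` with radius `ε` -/
def LTAat (f : X → Y) (ε : ℝ) (u : X) : Prop :=
  ∀ x : X, ‖x‖ = 1 → ‖x - u‖ < ε → J (f u) (f x) = J u x

/-- the conclusion -/
def Ext (f : X → Y) : Prop := ∃ T : X ≃ₗᵢ[ℝ] Y, ∀ x : X, ‖x‖ = 1 → T x = f x

/-- the good set -/
def GoodSet (f : X → Y) (ε : ℝ) : Set X :=
  {u | ‖u‖ = 1 ∧ Smooth u ∧ Smooth (f u) ∧ LTAat f ε u}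

/-- what the local theory provides -/
def GenLTA (f : X → Y) (ε : ℝ) : Prop :=
  ∀ᶠ u : sphere (0 : X) 1 in residual (sphere (0 : X) 1),
    Smooth (u : X) ∧ Smooth (f u) ∧ (Expo (u : X) ∨ LTAat f ε (u : X))

/-- (H): additivity on unit triangles -/
def HProp (f : X → Y) : Prop :=
  ∀ a b : X, ‖a‖ = 1 → ‖b‖ = 1 → ‖a + b‖ = 1 → f (a + b) = f a + f b

end Defs

/-- Module LTA. -/
def LTAStatement : Prop :=
  ∀ (X : Type u) (Y : Type v) [NormedAddCommGroup X] [NormedSpace ℝ X] [CompleteSpace X]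
    [NormedAddCommGroup Y] [NormedSpace ℝ Y] [CompleteSpace Y]
    [TopologicalSpace.SeparableSpace X] [TopologicalSpace.SeparableSpace Y]
    (f : X → Y) (g : Y → X), SI f g → (∀ x, ‖x‖ = 1 → f (-x) = -f x) →
    ¬ FiniteDimensional ℝ X → ∃ ε : ℝ, 0 < ε ∧ GenLTA f ε

/-- Module CaseB. -/
def CaseBStatement : Prop :=
  ∀ (X : Type u) (Y : Type v) [NormedAddCommGroup X] [NormedSpace ℝ X] [CompleteSpace X]
    [NormedAddCommGroup Y] [NormedSpace ℝ Y] [CompleteSpace Y]
    [TopologicalSpace.SeparableSpace X] [TopologicalSpace.SeparableSpace Y]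
    (f : X → Y) (g : Y → X), SI f g → (∀ x, ‖x‖ = 1 → f (-x) = -f x) →
    ¬ FiniteDimensional ℝ X → ∀ ε : ℝ, 0 < ε → sphere (0 : X) 1 ⊆ closure (GoodSet f ε) → Ext f

/-- Module CaseC (mixed case). -/
def CaseCStatement : Prop :=
  ∀ (X : Type u) (Y : Type v) [NormedAddCommGroup X] [NormedSpace ℝ X] [CompleteSpace X]
    [NormedAddCommGroup Y] [NormedSpace ℝ Y] [CompleteSpace Y]
    [TopologicalSpace.SeparableSpace X] [TopologicalSpace.SeparableSpace Y]
    (f : X → Y) (g : Y → X), SI f g → (∀ x, ‖x‖ = 1 → f (-x) = -f x) →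
    ¬ FiniteDimensional ℝ X → ∀ ε : ℝ, 0 < ε → GenLTA f ε →
    (∃ y : X, ‖y‖ = 1 ∧ ∃ r : ℝ, 0 < r ∧
      ∀ s : X, ‖s‖ = 1 → ‖s - y‖ < r → s ∈ closure (GoodSet f ε)) →
    (∃ p : X, ‖p‖ = 1 ∧ p ∉ closure (GoodSet f ε)) → Ext f

/-- Planar crossing lemma (helper180, Cross.lean). -/
def CrossStatement : Prop :=
  ∀ (X : Type u) [NormedAddCommGroup X] [NormedSpace ℝ X] (a b : X), ‖a‖ = 1 → ‖b‖ = 1 →
    ‖a + b‖ = 1 → ∀ ε : ℝ, 0 < ε → ∃ δ : ℝ, 0 < δ ∧ ∀ u : X, ‖u‖ = 1 →
      ‖u - ‖a - b‖⁻¹ • (a - b)‖ < δ → ∃ a' b' : X, ‖a'‖ = 1 ∧ ‖b'‖ = 1 ∧ ‖a' + b'‖ = 1 ∧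
        ‖a' - a‖ < ε ∧ ‖b' - b‖ < ε ∧ ∃ r : ℝ, 0 < r ∧ a' - b' = r • u

theorem crossStatement : CrossStatement.{u} := by
  intro X _ _ a b ha hb hab ε hε
  have hne : a - b ≠ 0 := by
    intro h0
    have h1 : a = b := sub_eq_zero.mp h0
    rw [← h1, ← two_smul ℝ, norm_smul, ha] at hab
    norm_num at hab
  have hpos : 0 < ‖a - b‖ := norm_pos_iff.mpr hne
  have hv : ‖‖a - b‖⁻¹ • (a - b)‖ = 1 := by
    rw [norm_smul, norm_inv, norm_norm, inv_mul_cancel₀ hpos.ne']
  obtain ⟨δ, hδ, H⟩ := exists_unitSum_dir ha hb hab hv hpos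
    (by rw [smul_smul, mul_inv_cancel₀ hpos.ne', one_smul]) hε
  refine ⟨δ, hδ, fun u hu huv => ?_⟩
  obtain ⟨a', b', r, h1, h2, h3, h4, h5, h6, h7⟩ := H u hu huv
  exact ⟨a', b', h1, h2, h3, h6, h7, r, h4, h5⟩

/-- separable reduction (helper269). -/
def SepRedStatement : Prop :=
  (∀ (X : Type u) (Y : Type v) [NormedAddCommGroup X] [NormedSpace ℝ X] [CompleteSpace X]
    [NormedAddCommGroup Y] [NormedSpace ℝ Y] [CompleteSpace Y]
    [TopologicalSpace.SeparableSpace X] [TopologicalSpace.SeparableSpace Y]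
    (f : X → Y) (g : Y → X), SI f g → Ext f) →
  ∀ (X : Type u) (Y : Type v) [NormedAddCommGroup X] [NormedSpace ℝ X] [CompleteSpace X]
    [NormedAddCommGroup Y] [NormedSpace ℝ Y] [CompleteSpace Y]
    (f : X → Y) (g : Y → X), SI f g → Ext f

section HExpo

variable {X : Type u} {Y : Type v} [NormedAddCommGroup X] [NormedSpace ℝ X]
  [NormedAddCommGroup Y] [NormedSpace ℝ Y] {f : X → Y} {g : Y → X}

theorem SI.continuousOn (h : SI f g) : ContinuousOn f (sphere (0 : X) 1) := by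
  have : LipschitzOnWith 1 f (sphere (0 : X) 1) := by
    refine LipschitzOnWith.of_dist_le_mul (fun x hx y hy => ?_)
    rw [dist_eq_norm, dist_eq_norm, h.dist x y (by simpa using hx) (by simpa using hy)]
    simp
  exact this.continuousOn

/-- (H) for triangles with an exposed mid-direction. -/
theorem SI.H_of_expo (h : SI f g) (ho : ∀ x, ‖x‖ = 1 → f (-x) = -f x) {a b u : X} {r : ℝ}
    (ha : ‖a‖ = 1) (hb : ‖b‖ = 1) (hab : ‖a + b‖ = 1) (hu : ‖u‖ = 1) (hr : 0 < r)
    (hd : a - b = r • u) (hE : Expo u) : f (a + b) = f a + f b := by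
  obtain ⟨h1, h2⟩ := h.flat ho ha hb hab
  set e := a + b - g (f a + f b) with he
  have hJu : J u u = 1 := by rw [J_self, hu]
  have hn : ‖a - b‖ = r := by rw [hd, norm_smul, hu, mul_one, Real.norm_of_nonneg hr.le]
  have hJab : J u (a - b) = r := by rw [hd, map_smul, hJu, smul_eq_mul, mul_one]
  have hJe : J u e = 0 := by
    have h3 := J_le u (a - b + e)
    have h4 := J_le u (a - b - e)
    rw [h1, hn, map_add, hJab] at h3
    rw [h2, hn, map_sub, hJab] at h4
    linarith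
  have hc : r⁻¹ • (a - b + e) = u := by
    apply hE
    · rw [norm_smul, h1, hn, norm_inv, Real.norm_of_nonneg hr.le, inv_mul_cancel₀ hr.ne']
    · rw [map_smul, map_add, hJab, hJe, add_zero, smul_eq_mul, inv_mul_cancel₀ hr.ne']
  have he0 : e = 0 := by
    have h5 : a - b + e = r • u := by
      rw [← hc, smul_smul, mul_inv_cancel₀ hr.ne', one_smul]
    rw [hd] at h5
    simpa using h5
  have h6 : g (f a + f b) = a + b := by
    rw [he] at he0
    exact (sub_eq_zero.mp he0).symm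
  have hsum : ‖f a + f b‖ = 1 := by rw [h.norm_add ho ha hb, hab]
  rw [← h6, h.right _ hsum]

/-- exposed points dense ⇒ (H). -/
theorem SI.H_of_dense_expo (h : SI f g)
    (ho : ∀ x, ‖x‖ = 1 → f (-x) = -f x)
    (hE : ∀ v : X, ‖v‖ = 1 → ∀ δ : ℝ, 0 < δ → ∃ u : X, ‖u‖ = 1 ∧ ‖u - v‖ < δ ∧ Expo u) :
    HProp f := by
  intro a b ha hb hab
  have hne : a - b ≠ 0 := by
    intro h0
    have h1 : a = b := sub_eq_zero.mp h0
    rw [← h1, ← two_smul ℝ, norm_smul, ha] at hab
    norm_num at hab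
  have hv : ‖‖a - b‖⁻¹ • (a - b)‖ = 1 := by
    rw [norm_smul, norm_inv, norm_norm, inv_mul_cancel₀ (norm_ne_zero_iff.mpr hne)]
  rw [← sub_eq_zero, ← norm_le_zero_iff]
  refine le_of_forall_pos_lt_add (fun ε hε => ?_)
  rw [zero_add]
  obtain ⟨δ, hδ, hcr⟩ := crossStatement X a b ha hb hab (ε / 8) (by positivity)
  obtain ⟨u, hu, huv, hue⟩ := hE _ hv δ hδ
  obtain ⟨a', b', ha', hb', hab', haa, hbb, r, hr, hd⟩ := hcr u hu huv
  have hH := h.H_of_expo ho ha' hb' hab' hu hr hd hue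
  have e1 : f (a + b) - (f a + f b) =
      (f (a + b) - f (a' + b')) + (f a' - f a) + (f b' - f b) := by
    rw [hH]; abel
  rw [e1]
  have n1 : ‖f (a + b) - f (a' + b')‖ ≤ ‖a' - a‖ + ‖b' - b‖ := by
    rw [h.dist _ _ hab hab']
    have : a + b - (a' + b') = -((a' - a) + (b' - b)) := by abel
    rw [this, norm_neg]
    exact norm_add_le _ _
  have n2 : ‖f a' - f a‖ = ‖a' - a‖ := h.dist _ _ ha' ha
  have n3 : ‖f b' - f b‖ = ‖b' - b‖ := h.dist _ _ hb' hb
  have n4 : ‖f (a + b) - f (a' + b') + (f a' - f a) + (f b' - f b)‖ ≤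
      ‖f (a + b) - f (a' + b')‖ + ‖f a' - f a‖ + ‖f b' - f b‖ := by
    refine (norm_add_le _ _).trans ?_
    gcongr
    exact norm_add_le _ _
  linarith

end HExpo

section Assembly

variable {X : Type u} {Y : Type v} [NormedAddCommGroup X] [NormedSpace ℝ X] [CompleteSpace X]
    [NormedAddCommGroup Y] [NormedSpace ℝ Y] [CompleteSpace Y]

/-- the separable case from the modules -/
theorem separable_case (hLTA : LTAStatement.{u, v})
    (hB : CaseBStatement.{u, v}) (hC : CaseCStatement.{u, v})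
    [Nontrivial X]
    [TopologicalSpace.SeparableSpace X] [TopologicalSpace.SeparableSpace Y]
    {f : X → Y} {g : Y → X} (h : SI f g) : Ext f := by
  by_cases hfd : FiniteDimensional ℝ X
  · exact tingley_findim h
  have ho : ∀ x, ‖x‖ = 1 → f (-x) = -f x := fun x hx => h.odd hx
  obtain ⟨ε, hε, hgen⟩ := hLTA X Y f g h ho hfd
  by_cases hO : ∃ p : X, ‖p‖ = 1 ∧ p ∉ closure (GoodSet f ε)
  · by_cases hGi : ∃ y : X, ‖y‖ = 1 ∧ ∃ r : ℝ, 0 < r ∧
      ∀ s : X, ‖s‖ = 1 → ‖s - y‖ < r → s ∈ closure (GoodSet f ε)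
    · exact hC X Y f g h ho hfd ε hε hgen hGi hO
    · -- case (A): exposed points are dense
      have hH : HProp f := by
        apply h.H_of_dense_expo ho
        intro v hv δ hδ
        push Not at hGi
        obtain ⟨s, hs, hsv, hsG⟩ := hGi v hv δ hδ
        -- `s` is in the open complement of the closure of the good set
        have hopen : IsOpen ((closure (GoodSet f ε))ᶜ ∩ ball v δ) :=
          isClosed_closure.isOpen_compl.inter isOpen_ball
        have : CompleteSpace (sphere (0 : X) 1) := isClosed_sphere.completeSpace_coe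
        have hdense := dense_of_mem_residual hgen
        let U : Set (sphere (0 : X) 1) := {x | (x : X) ∈ (closure (GoodSet f ε))ᶜ ∩ ball v δ}
        have hU : IsOpen U := hopen.preimage continuous_subtype_val
        have hUne : U.Nonempty := by
          refine ⟨⟨s, by simpa using hs⟩, hsG, ?_⟩
          simpa [dist_eq_norm] using hsv
        obtain ⟨u, huU, hu⟩ := hdense.inter_open_nonempty U hU hUne
        have hu1 : ‖(u : X)‖ = 1 := by simpa using u.2
        refine ⟨u, hu1, ?_, ?_⟩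
        · have := huU.2
          simpa [dist_eq_norm] using this
        · rcases hu.2.2 with h1 | h1
          · exact h1
          · exact absurd (subset_closure (show (u : X) ∈ GoodSet f ε from ⟨hu1, hu.1, hu.2.1, h1⟩))
              huU.1
      exact Far.hlin h hH hfd
  · -- case (B)
    push Not at hO
    refine hB X Y f g h ho hfd ε hε (fun p hp => hO p (by simpa using hp))

theorem ext_of_subsingleton [Subsingleton X] {f : X → Y} {g : Y → X} (h : SI f g) : Ext f := by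
  have hY : Subsingleton Y := by
    by_contra hcon
    rw [not_subsingleton_iff_nontrivial] at hcon
    have := h.symm.nontrivial
    exact not_subsingleton X ‹_›
  refine ⟨{ toFun := fun _ => 0, invFun := fun _ => 0, map_add' := by simp, map_smul' := by simp,
            left_inv := fun x => Subsingleton.elim _ _,
            right_inv := fun y => Subsingleton.elim _ _,
            norm_map' := fun x => ?_ }, ?_⟩
  · rw [Subsingleton.elim x 0, norm_zero]; exact norm_zero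
  · intro x hx
    exact Subsingleton.elim _ _

/-- the general SI theorem -/
theorem si_ext (hLTA : LTAStatement.{u, v})
    (hB : CaseBStatement.{u, v}) (hC : CaseCStatement.{u, v})
    (hsep : SepRedStatement.{u, v}) {f : X → Y} {g : Y → X} (h : SI f g) : Ext f := by
  refine hsep ?_ X Y f g h
  intro X Y _ _ _ _ _ _ _ _ f g h
  rcases subsingleton_or_nontrivial X with hX | hX
  · exact ext_of_subsingleton h
  · exact separable_case hLTA hB hC h

/-- from the sphere map of the statement to `SI` -/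
theorem exists_SI [Nontrivial X] (f : sphere (0 : X) 1 → sphere (0 : Y) 1) (hf₁ : Isometry f)
    (hf₂ : Function.Surjective f) :
    ∃ (F : X → Y) (G : Y → X), SI F G ∧ ∀ x : sphere (0 : X) 1, F x = f x := by
  classical
  have hinj := hf₁.injective
  let e : sphere (0 : X) 1 ≃ sphere (0 : Y) 1 := Equiv.ofBijective f ⟨hinj, hf₂⟩
  let F : X → Y := fun x => if hx : x ∈ sphere (0 : X) 1 then (f ⟨x, hx⟩ : Y) else 0
  let G : Y → X := fun y => if hy : y ∈ sphere (0 : Y) 1 then (e.symm ⟨y, hy⟩ : X) else 0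
  have hF : ∀ x (hx : x ∈ sphere (0 : X) 1), F x = f ⟨x, hx⟩ := fun x hx => dif_pos hx
  have hG : ∀ y (hy : y ∈ sphere (0 : Y) 1), G y = e.symm ⟨y, hy⟩ := fun y hy => dif_pos hy
  have mX : ∀ x : X, ‖x‖ = 1 → x ∈ sphere (0 : X) 1 := fun x hx => by simpa using hx
  have mY : ∀ y : Y, ‖y‖ = 1 → y ∈ sphere (0 : Y) 1 := fun y hy => by simpa using hy
  refine ⟨F, G, ⟨?_, ?_, ?_, ?_, ?_⟩, fun x => hF x x.2⟩
  · intro x hx
    rw [hF x (mX x hx)]
    simpa using (f ⟨x, mX x hx⟩).2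
  · intro y hy
    rw [hG y (mY y hy)]
    simpa using (e.symm ⟨y, mY y hy⟩).2
  · intro x hx
    rw [hF x (mX x hx), hG _ (f ⟨x, mX x hx⟩).2]
    have : e.symm (f ⟨x, mX x hx⟩) = ⟨x, mX x hx⟩ := e.symm_apply_apply _
    simp [this]
  · intro y hy
    rw [hG y (mY y hy), hF _ (e.symm ⟨y, mY y hy⟩).2]
    have : f (e.symm ⟨y, mY y hy⟩) = ⟨y, mY y hy⟩ := e.apply_symm_apply _
    simp [this]
  · intro x x' hx hx'
    rw [hF x (mX x hx), hF x' (mX x' hx')]
    have := hf₁.dist_eq ⟨x, mX x hx⟩ ⟨x', mX x' hx'⟩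
    rw [Subtype.dist_eq, Subtype.dist_eq, dist_eq_norm, dist_eq_norm] at this
    exact this

/-- the final statement from the modules -/
theorem assembly (hLTA : LTAStatement.{u, v})
    (hB : CaseBStatement.{u, v}) (hC : CaseCStatement.{u, v})
    (hsep : SepRedStatement.{u, v}) [Nontrivial X] [Nontrivial Y]
    (f : sphere (0 : X) 1 → sphere (0 : Y) 1) (hf₁ : Isometry f)
    (hf₂ : Function.Surjective f) :
    ∃ T : X ≃ₗᵢ[ℝ] Y, (∀ x : sphere (0 : X) 1, T x = f x) ∧
      ∀ T' : X →ₗ[ℝ] Y, (∀ x : sphere (0 : X) 1, T' x = f x) → ∀ x : X, T' x = T x := by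
  obtain ⟨F, G, hSI, hF⟩ := exists_SI f hf₁ hf₂
  obtain ⟨T, hT⟩ := si_ext hLTA hB hC hsep hSI
  have hT' : ∀ x : sphere (0 : X) 1, T x = f x := by
    intro x
    rw [hT x (by simpa using x.2), hF x]
  refine ⟨T, hT', ?_⟩
  intro T' hT'' x
  rcases eq_or_ne x 0 with rfl | hx
  · rw [map_zero, map_zero]
  · have hx1 : ‖‖x‖⁻¹ • x‖ = 1 := by
      rw [norm_smul, norm_inv, norm_norm, inv_mul_cancel₀ (norm_ne_zero_iff.mpr hx)]
    have h1 : T' (‖x‖⁻¹ • x) = T (‖x‖⁻¹ • x) := by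
      have a1 := hT'' ⟨‖x‖⁻¹ • x, by simpa using hx1⟩
      have a2 := hT' ⟨‖x‖⁻¹ • x, by simpa using hx1⟩
      exact a1.trans a2.symm
    rw [map_smul, map_smul] at h1
    exact smul_right_injective Y (inv_ne_zero (norm_ne_zero_iff.mpr hx)) h1

end Assembly

end Crest.Agent.R074
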