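import Mathlib

/-!
Row 74 (S0099), base library, part 1: definitions, Gateaux smooth points of the norm,
the support functional `J x`.
-/

set_option autoImplicit false

namespace Crest.Agent.R074

open Metric Set Filter Topology

/-- `f` and `g` are mutually inverse isometries between the unit spheres
(as functions on the ambient spaces; only the values at norm-one vectors matter). -/
structure SI {X Y : Type*} [NormedAddCommGroup X] [NormedAddCommGroup Y]
    (f : X → Y) (g : Y → X) : Prop where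
  map : ∀ x, ‖x‖ = 1 → ‖f x‖ = 1
  imap : ∀ y, ‖y‖ = 1 → ‖g y‖ = 1
  left : ∀ x, ‖x‖ = 1 → g (f x) = x
  right : ∀ y, ‖y‖ = 1 → f (g y) = y
  dist : ∀ x x', ‖x‖ = 1 → ‖x'‖ = 1 → ‖f x - f x'‖ = ‖x - x'‖

section SIbasic

variable {X Y : Type*} [NormedAddCommGroup X] [NormedAddCommGroup Y] {f : X → Y} {g : Y → X}

theorem SI.symm (h : SI f g) : SI g f where
  map := h.imap
  imap := h.map
  left := h.right
  right := h.left
  dist := fun y y' hy hy' => by
    have := h.dist (g y) (g y') (h.imap y hy) (h.imap y' hy')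
    rw [h.right y hy, h.right y' hy'] at this
    exact this.symm

theorem SI.inj (h : SI f g) {x x' : X} (hx : ‖x‖ = 1) (hx' : ‖x'‖ = 1) (hf : f x = f x') :
    x = x' := by
  rw [← h.left x hx, ← h.left x' hx', hf]

/-- conjugate by `-1`: `x ↦ -f (-x)`. -/
theorem SI.neg (h : SI f g) : SI (fun x => -f (-x)) (fun y => -g (-y)) where
  map := fun x hx => by
    show ‖-f (-x)‖ = 1
    rw [norm_neg]; exact h.map _ (by rw [norm_neg]; exact hx)
  imap := fun x hx => by
    show ‖-g (-x)‖ = 1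
    rw [norm_neg]; exact h.imap _ (by rw [norm_neg]; exact hx)
  left := fun x hx => by
    show -g (-(-f (-x))) = x
    rw [neg_neg, h.left _ (by rw [norm_neg]; exact hx), neg_neg]
  right := fun x hx => by
    show -f (-(-g (-x))) = x
    rw [neg_neg, h.right _ (by rw [norm_neg]; exact hx), neg_neg]
  dist := fun x x' hx hx' => by
    show ‖-f (-x) - -f (-x')‖ = ‖x - x'‖
    have h1 := h.dist (-x) (-x') (by rw [norm_neg]; exact hx) (by rw [norm_neg]; exact hx')
    have e1 : -f (-x) - -f (-x') = -(f (-x) - f (-x')) := by abel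
    have e2 : x - x' = -(-x - -x') := by abel
    rw [e1, e2, norm_neg, norm_neg, h1]

theorem SI.comp {Z : Type*} [NormedAddCommGroup Z] {f' : Y → Z} {g' : Z → Y}
    (h : SI f g) (h' : SI f' g') : SI (fun x => f' (f x)) (fun z => g (g' z)) where
  map := fun x hx => h'.map _ (h.map _ hx)
  imap := fun x hx => h.imap _ (h'.imap _ hx)
  left := fun x hx => by
    show g (g' (f' (f x))) = x
    rw [h'.left _ (h.map _ hx), h.left _ hx]
  right := fun x hx => by
    show f' (f (g (g' x))) = x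
    rw [h.right _ (h'.imap _ hx), h'.right _ hx]
  dist := fun x x' hx hx' => by
    show ‖f' (f x) - f' (f x')‖ = ‖x - x'‖
    rw [h'.dist _ _ (h.map _ hx) (h.map _ hx'), h.dist _ _ hx hx']

end SIbasic

section Smoothness

variable {X : Type*} [NormedAddCommGroup X] [NormedSpace ℝ X]

/-- Gateaux smooth point of the norm, elementary form. -/
def Smooth (x : X) : Prop :=
  ∀ v : X, ∀ ε : ℝ, 0 < ε → ∃ δ : ℝ, 0 < δ ∧ ‖x + δ • v‖ + ‖x - δ • v‖ - 2 * ‖x‖ < ε * δ

/-- norming functional: `‖p‖ ≤ 1` and `p x = ‖x‖`. -/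
def Norming (p : X →L[ℝ] ℝ) (x : X) : Prop := ‖p‖ ≤ 1 ∧ p x = ‖x‖

theorem Norming.le {p : X →L[ℝ] ℝ} {x : X} (h : Norming p x) (y : X) : p y ≤ ‖y‖ := by
  have h1 : p y ≤ ‖p y‖ := Real.le_norm_self _
  have h2 : ‖p y‖ ≤ ‖p‖ * ‖y‖ := p.le_opNorm y
  have h3 : ‖p‖ * ‖y‖ ≤ 1 * ‖y‖ := mul_le_mul_of_nonneg_right h.1 (norm_nonneg _)
  linarith

theorem Norming.abs_le {p : X →L[ℝ] ℝ} {x : X} (h : Norming p x) (y : X) : |p y| ≤ ‖y‖ := by
  rw [_root_.abs_le]
  constructor
  · have := h.le (-y)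
    rw [map_neg, norm_neg] at this
    linarith
  · exact h.le y

theorem exists_norming (x : X) : ∃ p : X →L[ℝ] ℝ, Norming p x := by
  by_cases hx : x = 0
  · exact ⟨0, by simp, by simp [hx]⟩
  · obtain ⟨p, hp1, hp2⟩ := exists_dual_vector ℝ x (norm_ne_zero_iff.mpr hx)
    exact ⟨p, hp1.le, by simpa using hp2⟩

/-- a chosen norming functional -/
noncomputable def J (x : X) : X →L[ℝ] ℝ := Classical.choose (exists_norming x)

theorem J_norming (x : X) : Norming (J x) x := Classical.choose_spec (exists_norming x)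

theorem J_le (x y : X) : J x y ≤ ‖y‖ := (J_norming x).le y

theorem J_abs_le (x y : X) : |J x y| ≤ ‖y‖ := (J_norming x).abs_le y

theorem J_self (x : X) : J x x = ‖x‖ := (J_norming x).2

theorem J_norm_le (x : X) : ‖J x‖ ≤ 1 := (J_norming x).1

/-- a norming functional of a nonzero vector has norm exactly one -/
theorem Norming.norm_eq {p : X →L[ℝ] ℝ} {x : X} (h : Norming p x) (hx : x ≠ 0) : ‖p‖ = 1 := by
  apply le_antisymm h.1
  have h1 : ‖p x‖ ≤ ‖p‖ * ‖x‖ := p.le_opNorm x
  rw [h.2, norm_norm] at h1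
  have h2 : 0 < ‖x‖ := norm_pos_iff.mpr hx
  by_contra h3
  push Not at h3
  nlinarith

/-- uniqueness of the norming functional at a smooth point -/
theorem Smooth.unique {x : X} (hx : Smooth x) {p q : X →L[ℝ] ℝ} (hp : Norming p x)
    (hq : Norming q x) : p = q := by
  have key : ∀ {p q : X →L[ℝ] ℝ}, Norming p x → Norming q x → ∀ v, p v ≤ q v := by
    intro p q hp hq v
    by_contra hcon
    push Not at hcon
    obtain ⟨δ, hδ, hlt⟩ := hx v (p v - q v) (by linarith)
    have h1 := hp.le (x + δ • v)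
    have h2 := hq.le (x - δ • v)
    rw [map_add, map_smul, hp.2, smul_eq_mul] at h1
    rw [map_sub, map_smul, hq.2, smul_eq_mul] at h2
    nlinarith
  ext v
  exact le_antisymm (key hp hq v) (key hq hp v)

theorem Smooth.eq_J {x : X} (hx : Smooth x) {p : X →L[ℝ] ℝ} (hp : Norming p x) : p = J x :=
  hx.unique hp (J_norming x)

/-- quantitative differentiability of the norm at a smooth point -/
theorem Smooth.deriv {x : X} (hx : Smooth x) (v : X) {ε : ℝ} (hε : 0 < ε) :
    ∃ δ : ℝ, 0 < δ ∧ ∀ t : ℝ, |t| ≤ δ → ‖x + t • v‖ ≤ ‖x‖ + t * J x v + ε * |t| := by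
  obtain ⟨δ, hδ, hlt⟩ := hx v ε hε
  refine ⟨δ, hδ, ?_⟩
  -- the estimate at `± δ`
  have hbd : ∀ s : ℝ, |s| = δ → ‖x + s • v‖ ≤ ‖x‖ + s * J x v + ε * δ := by
    intro s hs
    have h2 := J_le x (x - s • v)
    rw [map_sub, map_smul, J_self, smul_eq_mul] at h2
    rcases (abs_eq hδ.le).mp hs with h | h
    · rw [h] at h2 ⊢
      linarith
    · rw [h] at h2 ⊢
      have e1 : x + (-δ) • v = x - δ • v := by rw [neg_smul]; abel
      have e2 : x - (-δ) • v = x + δ • v := by rw [neg_smul]; abel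
      rw [e2] at h2
      rw [e1]
      linarith
  intro t ht
  rcases eq_or_ne t 0 with rfl | ht0
  · simp
  have htpos : 0 < |t| := abs_pos.mpr ht0
  -- write t = (|t|/δ) * s with |s| = δ
  set lam : ℝ := |t| / δ with hlam
  have hlam0 : 0 < lam := div_pos htpos hδ
  have hlam1 : lam ≤ 1 := (div_le_one hδ).mpr ht
  set s : ℝ := t / lam with hs
  have hsabs : |s| = δ := by
    rw [hs, abs_div, abs_of_pos hlam0, hlam]
    field_simp
  have hts : t = lam * s := by
    rw [hs]; field_simp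
  have hconv : ‖x + t • v‖ ≤ (1 - lam) * ‖x‖ + lam * ‖x + s • v‖ := by
    have e : x + t • v = (1 - lam) • x + lam • (x + s • v) := by
      rw [hts, sub_smul, one_smul, smul_add, smul_smul]; abel
    rw [e]
    refine (norm_add_le _ _).trans ?_
    rw [norm_smul, norm_smul, Real.norm_of_nonneg (by linarith), Real.norm_of_nonneg hlam0.le]
  have h3 := hbd s hsabs
  have h4 : lam * ‖x + s • v‖ ≤ lam * (‖x‖ + s * J x v + ε * δ) :=
    mul_le_mul_of_nonneg_left h3 hlam0.le
  have h5 : lam * δ = |t| := by rw [hlam]; field_simp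
  have h6 : lam * (‖x‖ + s * J x v + ε * δ) = lam * ‖x‖ + t * J x v + ε * |t| := by
    rw [← h5]; conv_rhs => rw [hts]
    ring
  linarith

/-- lower bound (trivial) -/
theorem norm_add_smul_ge (x v : X) (t : ℝ) : ‖x‖ + t * J x v ≤ ‖x + t • v‖ := by
  have h := J_le x (x + t • v)
  rw [map_add, map_smul, J_self, smul_eq_mul] at h
  exact h


/-- ultralimits of functionals in the dual unit ball -/
theorem exists_ultra_limit {ι : Type*} (U : Ultrafilter ι) (p : ι → X →L[ℝ] ℝ)
    (hp : ∀ i, ‖p i‖ ≤ 1) :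
    ∃ q : X →L[ℝ] ℝ, ‖q‖ ≤ 1 ∧ ∀ v, Tendsto (fun i => p i v) U (𝓝 (q v)) := by
  have hb : ∀ i v, |p i v| ≤ ‖v‖ := by
    intro i v
    have h2 : ‖p i v‖ ≤ ‖p i‖ * ‖v‖ := (p i).le_opNorm v
    have h3 : ‖p i‖ * ‖v‖ ≤ 1 * ‖v‖ := mul_le_mul_of_nonneg_right (hp i) (norm_nonneg _)
    rw [Real.norm_eq_abs] at h2
    linarith
  have hlim : ∀ v : X, ∃ a : ℝ, |a| ≤ ‖v‖ ∧ Tendsto (fun i => p i v) U (𝓝 a) := by
    intro v
    have hc : IsCompact (Set.Icc (-‖v‖) ‖v‖) := isCompact_Icc
    have hmem : (U.map (fun i => p i v) : Filter ℝ) ≤ 𝓟 (Set.Icc (-‖v‖) ‖v‖) := by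
      rw [le_principal_iff, Ultrafilter.coe_map, mem_map]
      apply Filter.univ_mem'
      intro i
      exact _root_.abs_le.mp (hb i v)
    obtain ⟨a, ha, hle⟩ := hc.ultrafilter_le_nhds _ hmem
    exact ⟨a, _root_.abs_le.mpr ha, hle⟩
  choose q hq1 hq2 using hlim
  let L : X →ₗ[ℝ] ℝ :=
    { toFun := q
      map_add' := by
        intro v w
        refine tendsto_nhds_unique (hq2 (v + w)) ?_
        have := (hq2 v).add (hq2 w)
        simpa using this
      map_smul' := by
        intro c v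
        refine tendsto_nhds_unique (hq2 (c • v)) ?_
        have := (hq2 v).const_mul c
        simpa using this }
  refine ⟨L.mkContinuous 1 ?_, ?_, ?_⟩
  · intro v
    rw [one_mul]; exact hq1 v
  · exact L.mkContinuous_norm_le zero_le_one _
  · intro v; exact hq2 v

/-- limits of norming functionals are norming -/
theorem Norming.limit {ι : Type*} {U : Filter ι} [U.NeBot] {p : ι → X →L[ℝ] ℝ} {x : ι → X}
    {q : X →L[ℝ] ℝ} {x₀ : X} (hp : ∀ i, Norming (p i) (x i)) (hq : ‖q‖ ≤ 1)
    (hlim : ∀ v, Tendsto (fun i => p i v) U (𝓝 (q v))) (hx : Tendsto x U (𝓝 x₀)) :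
    Norming q x₀ := by
  refine ⟨hq, ?_⟩
  have h1 : Tendsto (fun i => p i (x i)) U (𝓝 (q x₀)) := by
    have h2 : Tendsto (fun i => p i (x i) - p i x₀) U (𝓝 0) := by
      have h3 : Tendsto (fun i => ‖x i - x₀‖) U (𝓝 0) := by
        rw [← tendsto_iff_norm_sub_tendsto_zero]; exact hx
      refine squeeze_zero_norm (fun i => ?_) h3
      rw [← map_sub, Real.norm_eq_abs]
      exact (hp i).abs_le _
    have h4 := h2.add (hlim x₀)
    simpa using h4
  have h5 : Tendsto (fun i => p i (x i)) U (𝓝 ‖x₀‖) := by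
    have : (fun i => p i (x i)) = fun i => ‖x i‖ := by
      ext i; exact (hp i).2
    rw [this]; exact hx.norm
  exact tendsto_nhds_unique h1 h5

/-- if the norm has a unique norming functional at `x`, then `x` is smooth -/
theorem smooth_of_unique {x : X} (h : ∀ p q : X →L[ℝ] ℝ, Norming p x → Norming q x → p = q) :
    Smooth x := by
  intro v ε hε
  by_contra hcon
  push Not at hcon
  -- for each sign direction w = ±v there is a norming functional p with
  -- p w ≥ liminf of the difference quotients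
  have key : ∀ w : X, ∃ p : X →L[ℝ] ℝ, Norming p x ∧
      ∀ c : ℝ, (∀ δ : ℝ, 0 < δ → c ≤ (‖x + δ • w‖ - ‖x‖) / δ) → c ≤ p w := by
    intro w
    set t : ℕ → ℝ := fun n => 1 / ((n : ℝ) + 1) with ht
    have htpos : ∀ n, 0 < t n := fun n => by positivity
    have htend : Tendsto t atTop (𝓝 0) := tendsto_one_div_add_atTop_nhds_zero_nat
    obtain ⟨q, hq1, hq2⟩ := exists_ultra_limit (hyperfilter ℕ) (fun n => J (x + t n • w))
      (fun n => J_norm_le _)
    have hU : (hyperfilter ℕ : Filter ℕ) ≤ atTop := by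
      rw [← Nat.cofinite_eq_atTop]; exact hyperfilter_le_cofinite
    have hx : Tendsto (fun n => x + t n • w) (hyperfilter ℕ) (𝓝 x) := by
      have h1 : Tendsto (fun n => x + t n • w) atTop (𝓝 (x + (0 : ℝ) • w)) :=
        tendsto_const_nhds.add (htend.smul_const w)
      rw [zero_smul, add_zero] at h1
      exact h1.mono_left hU
    refine ⟨q, Norming.limit (fun n => J_norming _) hq1 hq2 hx, ?_⟩
    intro c hc
    refine ge_of_tendsto (hq2 w) (Filter.Eventually.of_forall fun n => ?_)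
    refine (hc (t n) (htpos n)).trans ?_
    rw [div_le_iff₀ (htpos n)]
    have h1 := J_le (x + t n • w) x
    have h2 := J_self (x + t n • w)
    rw [map_add, map_smul, smul_eq_mul] at h2
    linarith
  obtain ⟨p, hp, hp2⟩ := key v
  obtain ⟨q, hq, hq2⟩ := key (-v)
  -- infimum of difference quotients
  have hmono : ∀ w : X, ∀ a b : ℝ, 0 < a → 0 < b → a ≤ b →
      (‖x + a • w‖ - ‖x‖) / a ≤ (‖x + b • w‖ - ‖x‖) / b := by
    intro w a b ha hb hab
    rw [div_le_div_iff₀ ha hb]
    have e : x + a • w = (1 - a / b) • x + (a / b) • (x + b • w) := by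
      rw [sub_smul, one_smul, smul_add, smul_smul, div_mul_cancel₀ a hb.ne']; abel
    have h1 : ‖x + a • w‖ ≤ (1 - a / b) * ‖x‖ + (a / b) * ‖x + b • w‖ := by
      have h0 : a / b ≤ 1 := (div_le_one hb).mpr hab
      have h00 : 0 ≤ a / b := by positivity
      conv_lhs => rw [e]
      refine (norm_add_le _ _).trans ?_
      rw [norm_smul, norm_smul, Real.norm_of_nonneg (by linarith), Real.norm_of_nonneg h00]
    have h2 : (a / b) * b = a := div_mul_cancel₀ a hb.ne'
    have h3 := mul_le_mul_of_nonneg_right h1 hb.le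
    have h4 : ((1 - a / b) * ‖x‖ + (a / b) * ‖x + b • w‖) * b
        = (b - (a / b * b)) * ‖x‖ + (a / b * b) * ‖x + b • w‖ := by ring
    rw [h4, h2] at h3
    linarith
  -- p v + q (-v) ≥ ε
  have h1 : ε ≤ p v + q (-v) := by
    -- for all δ, η: quotient(v,δ) + quotient(-v,η) ≥ ε
    have h2 : ∀ δ η : ℝ, 0 < δ → 0 < η →
        ε ≤ (‖x + δ • v‖ - ‖x‖) / δ + (‖x + η • (-v)‖ - ‖x‖) / η := by
      intro δ η hδ hη
      have hm : 0 < min δ η := lt_min hδ hη
      have h3 := hmono v _ _ hm hδ (min_le_left _ _)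
      have h4 := hmono (-v) _ _ hm hη (min_le_right _ _)
      have h5 := hcon (min δ η) hm
      have h6 : ε ≤ (‖x + min δ η • v‖ - ‖x‖) / min δ η
          + (‖x + min δ η • (-v)‖ - ‖x‖) / min δ η := by
        rw [← add_div, le_div_iff₀ hm]
        have e : x + min δ η • (-v) = x - min δ η • v := by rw [smul_neg]; abel
        rw [e]
        linarith
      linarith
    have h3 : ∀ δ : ℝ, 0 < δ → ε - q (-v) ≤ (‖x + δ • v‖ - ‖x‖) / δ := by
      intro δ hδ
      have h4 : ε - (‖x + δ • v‖ - ‖x‖) / δ ≤ q (-v) := by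
        apply hq2
        intro η hη
        have := h2 δ η hδ hη
        linarith
      linarith
    have h4 := hp2 _ h3
    linarith
  have h2 := h p q hp hq
  rw [h2, map_neg] at h1
  linarith

theorem Smooth.smul {x : X} (hx : Smooth x) {c : ℝ} (hc : 0 < c) : Smooth (c • x) := by
  intro v ε hε
  obtain ⟨δ, hδ, hlt⟩ := hx v ε hε
  refine ⟨c * δ, mul_pos hc hδ, ?_⟩
  have e1 : c • x + (c * δ) • v = c • (x + δ • v) := by rw [smul_add, smul_smul]
  have e2 : c • x - (c * δ) • v = c • (x - δ • v) := by rw [smul_sub, smul_smul]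
  rw [e1, e2, norm_smul, norm_smul, norm_smul, Real.norm_of_nonneg hc.le]
  nlinarith

theorem Smooth.neg {x : X} (hx : Smooth x) : Smooth (-x) := by
  intro v ε hε
  obtain ⟨δ, hδ, hlt⟩ := hx v ε hε
  refine ⟨δ, hδ, ?_⟩
  have e1 : -x + δ • v = -(x - δ • v) := by abel
  have e2 : -x - δ • v = -(x + δ • v) := by abel
  rw [e1, e2, norm_neg, norm_neg, norm_neg]
  linarith

theorem Smooth.J_smul {x : X} (hx : Smooth x) {c : ℝ} (hc : 0 < c) : J (c • x) = J x := by
  symm
  apply (hx.smul hc).eq_J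
  refine ⟨J_norm_le x, ?_⟩
  rw [map_smul, J_self, norm_smul, Real.norm_of_nonneg hc.le, smul_eq_mul]

theorem Smooth.J_neg {x : X} (hx : Smooth x) : J (-x) = -J x := by
  symm
  apply hx.neg.eq_J
  refine ⟨by rw [norm_neg]; exact J_norm_le x, ?_⟩
  rw [_root_.neg_apply, map_neg, J_self, norm_neg, neg_neg]

end Smoothness

end Crest.Agent.R074
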