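import Mathlib
import Crest.Agent.R074.Base
import Crest.Agent.R074.Odd
import Crest.Agent.Lib.BorsukUlam

-- ▼ part R074/FDArea
section

/-!
Row 74 (S0099), finite-dimensional case, part 1: area formula for Lipschitz maps.
-/

set_option autoImplicit false

namespace Crest.Agent.R074

open MeasureTheory MeasureTheory.Measure Metric Set Module
open scoped NNReal ENNReal Topology

section Area

variable {E : Type*} [NormedAddCommGroup E] [NormedSpace ℝ E] [FiniteDimensional ℝ E]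
  [MeasurableSpace E] [BorelSpace E]

/-- Lipschitz images of Haar-null sets are Haar-null. -/
theorem lipschitz_image_null (μ : Measure E) [IsAddHaarMeasure μ] {K : ℝ≥0} {h : E → E}
    (hh : LipschitzWith K h) {N : Set E} (hN : μ N = 0) : μ (h '' N) = 0 := by
  set ν : Measure E := μH[finrank ℝ E] with hν
  have h1 : ν ≪ μ := absolutelyContinuous_isAddHaarMeasure ν μ
  have h2 : μ ≪ ν := absolutelyContinuous_isAddHaarMeasure μ ν
  apply h2
  have h3 : ν N = 0 := h1 hN
  have h4 := hh.hausdorffMeasure_image_le (d := finrank ℝ E) (by positivity) N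
  rw [← hν, h3, mul_zero] at h4
  exact le_antisymm h4 (by positivity)

theorem area_aux (μ : Measure E) [IsAddHaarMeasure μ] {K : ℝ≥0} {h : E → E}
    (hh : LipschitzWith K h) {s : Set E} (hs : MeasurableSet s) :
    ∃ t : Set E, MeasurableSet t ∧ t ⊆ s ∧ t =ᵐ[μ] s ∧ μ (h '' s) = μ (h '' t) ∧
      ∀ x ∈ t, HasFDerivWithinAt h (fderiv ℝ h x) t x := by
  refine ⟨s ∩ {x | DifferentiableAt ℝ h x}, hs.inter (measurableSet_of_differentiableAt ℝ h),
    inter_subset_left, ?_, ?_, ?_⟩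
  · have : ∀ᵐ x ∂μ, DifferentiableAt ℝ h x := hh.ae_differentiableAt
    filter_upwards [this] with x hx
    simp only [eq_iff_iff]
    constructor
    · intro h1; exact h1.1
    · intro h1; exact ⟨h1, hx⟩
  · have hnull : μ (s \ {x | DifferentiableAt ℝ h x}) = 0 := by
      have : ∀ᵐ x ∂μ, DifferentiableAt ℝ h x := hh.ae_differentiableAt
      refine measure_mono_null ?_ (ae_iff.mp this)
      intro x hx
      exact hx.2
    apply le_antisymm
    · have hsub : h '' s ⊆ h '' (s ∩ {x | DifferentiableAt ℝ h x}) ∪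
          h '' (s \ {x | DifferentiableAt ℝ h x}) := by
        rw [← image_union, inter_union_sdiff]
      calc μ (h '' s) ≤ _ := measure_mono hsub
        _ ≤ _ := measure_union_le _ _
        _ = _ := by rw [lipschitz_image_null μ hh hnull, add_zero]
    · exact measure_mono (image_mono inter_subset_left)
  · intro x hx
    exact (DifferentiableAt.hasFDerivAt hx.2).hasFDerivWithinAt

/-- area inequality -/
theorem area_le (μ : Measure E) [IsAddHaarMeasure μ] {K : ℝ≥0} {h : E → E}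
    (hh : LipschitzWith K h) {s : Set E} (hs : MeasurableSet s) :
    μ (h '' s) ≤ ∫⁻ x in s, ENNReal.ofReal |(fderiv ℝ h x).det| ∂μ := by
  obtain ⟨t, ht, hts, hae, him, hd⟩ := area_aux μ hh hs
  rw [him]
  refine (addHaar_image_le_lintegral_abs_det_fderiv μ ht hd).trans ?_
  exact lintegral_mono_set hts

/-- area formula for injective Lipschitz maps -/
theorem area_eq (μ : Measure E) [IsAddHaarMeasure μ] {K : ℝ≥0} {h : E → E}
    (hh : LipschitzWith K h) {s : Set E} (hs : MeasurableSet s) (hinj : InjOn h s) :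
    ∫⁻ x in s, ENNReal.ofReal |(fderiv ℝ h x).det| ∂μ = μ (h '' s) := by
  obtain ⟨t, ht, hts, hae, him, hd⟩ := area_aux μ hh hs
  rw [him, ← lintegral_abs_det_fderiv_eq_addHaar_image μ ht hd (hinj.mono hts)]
  rw [Measure.restrict_congr_set hae]

end Area

end Crest.Agent.R074
end

-- ▼ part R074/FDRetract
section

/-!
Row 74 (S0099), finite-dimensional case, part 2: no Lipschitz retraction of the unit ball
onto the unit sphere (Milnor-Rogers).
-/

set_option autoImplicit false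

namespace Crest.Agent.R074

open MeasureTheory MeasureTheory.Measure Metric Set Module Filter
open scoped NNReal ENNReal Topology

section Poly

/-- `t ↦ det (1 + t A)` is a polynomial of degree `≤ finrank`. -/
theorem exists_poly_det {X : Type*} [NormedAddCommGroup X] [NormedSpace ℝ X]
    [FiniteDimensional ℝ X] (A : X →L[ℝ] X) :
    ∃ p : Polynomial ℝ, p.natDegree ≤ finrank ℝ X ∧
      ∀ t : ℝ, p.eval t = (ContinuousLinearMap.id ℝ X + t • A).det := by
  classical
  let b := finBasis ℝ X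
  let M : Matrix (Fin (finrank ℝ X)) (Fin (finrank ℝ X)) ℝ :=
    LinearMap.toMatrix b b (A : X →ₗ[ℝ] X)
  refine ⟨Matrix.det ((Polynomial.X : Polynomial ℝ) • M.map Polynomial.C +
    (1 : Matrix _ _ ℝ).map Polynomial.C), ?_, ?_⟩
  · simpa using Polynomial.natDegree_det_X_add_C_le M 1
  · intro t
    rw [← Polynomial.coe_evalRingHom, RingHom.map_det, ContinuousLinearMap.det,
      ← LinearMap.det_toMatrix b]
    congr 1
    ext i j
    simp [M, Matrix.add_apply, Matrix.smul_apply, Matrix.map_apply, LinearMap.toMatrix_apply,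
      Matrix.one_apply]
    by_cases hij : i = j
    · subst hij; simp; ring
    · simp [hij]; ring

/-- Interpolation weights: for every `τ > 0` there are nodes in `(0, τ)` and weights with sum one
expressing `det (1 + A)` through `det (1 + t_j A)`. -/
theorem exists_nodes (n : ℕ) {τ : ℝ} (hτ : 0 < τ) :
    ∃ (v : Fin (n + 1) → ℝ) (w : Fin (n + 1) → ℝ), (∀ j, 0 < v j ∧ v j < τ) ∧ ∑ j, w j = 1 ∧
      ∀ p : Polynomial ℝ, p.natDegree ≤ n → p.eval 1 = ∑ j, w j * p.eval (v j) := by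
  classical
  let v : Fin (n + 1) → ℝ := fun j => τ * ((j : ℕ) + 1) / (n + 2)
  have hv : Set.InjOn v (Finset.univ : Finset (Fin (n + 1))) := by
    intro i _ j _ hij
    have h1 : τ * ((i : ℕ) + 1) / (n + 2) = τ * ((j : ℕ) + 1) / (n + 2) := hij
    have h2 : (0 : ℝ) < n + 2 := by positivity
    rw [div_left_inj' h2.ne'] at h1
    have h3 := mul_left_cancel₀ hτ.ne' h1
    have h4 : ((i : ℕ) : ℝ) = ((j : ℕ) : ℝ) := by linarith
    exact Fin.ext (by exact_mod_cast h4)
  refine ⟨v, fun j => (Lagrange.basis Finset.univ v j).eval 1, ?_, ?_, ?_⟩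
  · intro j
    have hj : ((j : ℕ) : ℝ) ≤ n := by exact_mod_cast Nat.lt_succ_iff.mp j.2
    constructor
    · show 0 < τ * ((j : ℕ) + 1) / (n + 2)
      positivity
    · show τ * ((j : ℕ) + 1) / (n + 2) < τ
      rw [div_lt_iff₀ (by positivity)]
      nlinarith
  · rw [← Polynomial.eval_finsetSum, Lagrange.sum_basis hv Finset.univ_nonempty]
    simp
  · intro p hp
    have hdeg : p.degree < (Finset.univ : Finset (Fin (n + 1))).card := by
      refine lt_of_le_of_lt Polynomial.degree_le_natDegree ?_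
      simp only [Finset.card_univ, Fintype.card_fin]
      exact_mod_cast Nat.lt_succ_of_le hp
    have h1 := Lagrange.eq_interpolate_of_eval_eq (fun j => p.eval (v j)) hv hdeg (fun i _ => rfl)
    conv_lhs => rw [h1]
    rw [Lagrange.interpolate_apply, Polynomial.eval_finsetSum]
    refine Finset.sum_congr rfl (fun j _ => ?_)
    simp [mul_comm]

end Poly

section Retract

variable {X : Type*} [NormedAddCommGroup X] [NormedSpace ℝ X]

theorem lipschitz_glue {K : ℝ≥0} {ψ : X → X} (h1 : LipschitzOnWith K ψ (closedBall 0 1))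
    (h0 : ∀ x, 1 ≤ ‖x‖ → ψ x = 0) : LipschitzWith K ψ := by
  have key : ∀ x y : X, ‖x‖ ≤ 1 → 1 ≤ ‖y‖ → dist (ψ x) (ψ y) ≤ K * dist x y := by
    intro x y hx hy
    have hcont : ContinuousOn (fun s : ℝ => ‖x + s • (y - x)‖) (Icc 0 1) := by fun_prop
    have hivt := intermediate_value_Icc (zero_le_one (α := ℝ)) hcont
    have hmem : (1 : ℝ) ∈ Icc (‖x + (0 : ℝ) • (y - x)‖) (‖x + (1 : ℝ) • (y - x)‖) := by
      constructor
      · simpa using hx
      · simpa using hy
    obtain ⟨s, hs, hs1⟩ := hivt hmem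
    have hs1' : ‖x + s • (y - x)‖ = 1 := hs1
    have e1 : ψ y = ψ (x + s • (y - x)) := by
      rw [h0 y hy, h0 _ hs1'.ge]
    rw [e1]
    refine (h1.dist_le_mul x (by simpa using hx) _ (by simpa using hs1'.le)).trans ?_
    refine mul_le_mul_of_nonneg_left ?_ K.2
    rw [dist_eq_norm, dist_eq_norm]
    have e2 : x - (x + s • (y - x)) = s • (x - y) := by
      simp only [smul_sub]; abel
    rw [e2, norm_smul, Real.norm_of_nonneg hs.1]
    have := norm_nonneg (x - y)
    nlinarith [hs.2]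
  refine LipschitzWith.of_dist_le_mul (fun x y => ?_)
  rcases le_total ‖x‖ 1 with hx | hx <;> rcases le_total ‖y‖ 1 with hy | hy
  · exact h1.dist_le_mul x (by simpa using hx) y (by simpa using hy)
  · exact key x y hx hy
  · rw [dist_comm, dist_comm x]; exact key y x hy hx
  · rw [h0 x hx, h0 y hy, dist_self]; positivity

theorem det_pos_of_small [FiniteDimensional ℝ X] {A : X →L[ℝ] X} {t : ℝ} (ht : 0 ≤ t)
    (hA : t * ‖A‖ < 1) : 0 < (ContinuousLinearMap.id ℝ X + t • A).det := by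
  have hne : ∀ s ∈ Icc (0 : ℝ) t, (ContinuousLinearMap.id ℝ X + s • A).det ≠ 0 := by
    intro s hs h0
    have hinj : Function.Injective (ContinuousLinearMap.id ℝ X + s • A) := by
      rw [injective_iff_map_eq_zero]
      intro x hx
      have h1 : x = -(s • A x) := by
        have : x + s • A x = 0 := by simpa using hx
        exact eq_neg_of_add_eq_zero_left this
      have h2 : ‖x‖ = s * ‖A x‖ := by
        conv_lhs => rw [h1]
        rw [norm_neg, norm_smul, Real.norm_of_nonneg hs.1]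
      have h3 := A.le_opNorm x
      have h4 : s * ‖A‖ ≤ t * ‖A‖ := mul_le_mul_of_nonneg_right hs.2 (norm_nonneg _)
      by_contra hx0
      have h5 : 0 < ‖x‖ := norm_pos_iff.mpr hx0
      have h6 : s * ‖A x‖ ≤ s * (‖A‖ * ‖x‖) := mul_le_mul_of_nonneg_left h3 hs.1
      nlinarith
    have hu : IsUnit (LinearMap.det ((ContinuousLinearMap.id ℝ X + s • A : X →L[ℝ] X) : X →ₗ[ℝ] X)) := by
      rw [← LinearMap.isUnit_iff_isUnit_det, LinearMap.isUnit_iff_ker_eq_bot]
      exact LinearMap.ker_eq_bot.mpr hinj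
    exact hu.ne_zero h0
  by_contra hcon
  push Not at hcon
  have hcont : ContinuousOn (fun s : ℝ => (ContinuousLinearMap.id ℝ X + s • A).det) (Icc 0 t) :=
    (ContinuousLinearMap.continuous_det.comp (by fun_prop)).continuousOn
  have hivt := intermediate_value_Icc' ht hcont
  have hmem : (0 : ℝ) ∈ Icc ((ContinuousLinearMap.id ℝ X + t • A).det)
      ((ContinuousLinearMap.id ℝ X + (0 : ℝ) • A).det) := by
    refine ⟨hcon, ?_⟩
    simp [ContinuousLinearMap.det]
  obtain ⟨s, hs, hs0⟩ := hivt hmem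
  exact hne s hs hs0

/-- the small perturbations of the identity -/
theorem perturb_bijective [FiniteDimensional ℝ X] {L : ℝ≥0} {ψ : X → X} (hψ : LipschitzWith L ψ)
    {t : ℝ} (ht : 0 ≤ t) (htL : t * L < 1) :
    Function.Bijective (fun x => x + t • ψ x) := by
  have hap : ApproximatesLinearOn (fun x => x + t • ψ x)
      ((ContinuousLinearEquiv.refl ℝ X : X ≃L[ℝ] X) : X →L[ℝ] X) univ (⟨t, ht⟩ * L) := by
    intro x _ y _
    have e1 : x + t • ψ x - (y + t • ψ y) -
        ((ContinuousLinearEquiv.refl ℝ X : X ≃L[ℝ] X) : X →L[ℝ] X) (x - y) =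
        t • (ψ x - ψ y) := by
      simp [smul_sub]; abel
    rw [e1, norm_smul, Real.norm_of_nonneg ht]
    have := hψ.dist_le_mul x y
    rw [dist_eq_norm, dist_eq_norm] at this
    have h3 : ((⟨t, ht⟩ * L : ℝ≥0) : ℝ) = t * L := rfl
    rw [h3]
    nlinarith
  have hc : Subsingleton X ∨ (⟨t, ht⟩ * L : ℝ≥0) <
      ‖((ContinuousLinearEquiv.refl ℝ X).symm : X →L[ℝ] X)‖₊⁻¹ := by
    rcases subsingleton_or_nontrivial X with h | h
    · exact Or.inl h
    · right
      have h1 : ‖((ContinuousLinearEquiv.refl ℝ X).symm : X →L[ℝ] X)‖₊ = 1 := by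
        have : ((ContinuousLinearEquiv.refl ℝ X).symm : X →L[ℝ] X) =
          ContinuousLinearMap.id ℝ X := rfl
        rw [this]
        exact ContinuousLinearMap.nnnorm_id
      rw [h1, inv_one]
      exact htL
  exact (hap.toHomeomorph _ hc).bijective

theorem no_lipschitz_retraction [FiniteDimensional ℝ X] [Nontrivial X] {K : ℝ≥0} (r : X → X)
    (hr : LipschitzOnWith K r (closedBall 0 1)) (hid : ∀ x, ‖x‖ = 1 → r x = x)
    (hs : ∀ x, ‖x‖ ≤ 1 → ‖r x‖ = 1) : False := by
  classical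
  borelize X
  let μ : Measure X := μH[finrank ℝ X]
  let B : Set X := closedBall 0 1
  have hBm : MeasurableSet B := isClosed_closedBall.measurableSet
  have hBfin : μ B ≠ ∞ := measure_closedBall_lt_top.ne
  have hBpos : 0 < μ B := measure_closedBall_pos μ 0 one_pos
  let ψ : X → X := fun x => if ‖x‖ ≤ 1 then r x - x else 0
  have hψin : ∀ x, ‖x‖ ≤ 1 → ψ x = r x - x := fun x hx => by simp [ψ, hx]
  have hψout : ∀ x, 1 ≤ ‖x‖ → ψ x = 0 := by
    intro x hx
    rcases hx.eq_or_lt with h | h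
    · rw [hψin x h.ge, hid x h.symm, sub_self]
    · simp [ψ, not_le.mpr h]
  have hψL : LipschitzWith (K + 1) ψ := by
    refine lipschitz_glue ?_ hψout
    refine LipschitzOnWith.of_dist_le_mul (fun x hx y hy => ?_)
    rw [hψin x (by simpa using hx), hψin y (by simpa using hy)]
    have h1 := hr.dist_le_mul x hx y hy
    rw [dist_eq_norm] at h1 ⊢
    have e1 : r x - x - (r y - y) = (r x - r y) - (x - y) := by abel
    rw [e1]
    refine (norm_sub_le _ _).trans ?_
    rw [← dist_eq_norm x y]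
    push_cast
    linarith
  set L : ℝ≥0 := K + 1 with hL
  have hLpos : (0 : ℝ) < L := by rw [hL]; push_cast; positivity
  let A : X → X →L[ℝ] X := fun x => fderiv ℝ ψ x
  have hAn : ∀ x, ‖A x‖ ≤ L := fun x => norm_fderiv_le_of_lipschitz ℝ hψL
  let D : ℝ → X → ℝ := fun t x => (ContinuousLinearMap.id ℝ X + t • A x).det
  have hDm : ∀ t, Measurable (D t) := by
    intro t
    have h1 : Measurable A := measurable_fderiv ℝ ψ
    have h2 : Continuous (fun T : X →L[ℝ] X => (ContinuousLinearMap.id ℝ X + t • T).det) :=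
      ContinuousLinearMap.continuous_det.comp (by fun_prop)
    exact h2.measurable.comp h1
  -- small parameters
  have hsmall : ∀ t : ℝ, 0 < t → t < 1 / (L + 1) → ∫ x in B, D t x ∂μ = μ.real B := by
    intro t ht htL
    have htL' : t * L < 1 := by
      rw [lt_div_iff₀ (by positivity)] at htL
      nlinarith
    have ht1 : t ≤ 1 := by
      rw [lt_div_iff₀ (by positivity)] at htL
      nlinarith
    let h : X → X := fun x => x + t • ψ x
    have hbij : Function.Bijective h := perturb_bijective hψL ht.le htL'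
    have himg : h '' B = B := by
      apply Subset.antisymm
      · rintro _ ⟨x, hx, rfl⟩
        have hx1 : ‖x‖ ≤ 1 := by simpa [B] using hx
        have h2 := hs x hx1
        show x + t • ψ x ∈ B
        rw [hψin x hx1]
        have e1 : x + t • (r x - x) = (1 - t) • x + t • r x := by
          rw [smul_sub, sub_smul, one_smul]; abel
        rw [e1]
        have h3 : ‖(1 - t) • x + t • r x‖ ≤ (1 - t) * ‖x‖ + t * ‖r x‖ := by
          refine (norm_add_le _ _).trans ?_
          rw [norm_smul, norm_smul, Real.norm_of_nonneg ht.le,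
            Real.norm_of_nonneg (by linarith : (0:ℝ) ≤ 1 - t)]
        have h4 : ‖(1 - t) • x + t • r x‖ ≤ 1 := by
          rw [h2] at h3; nlinarith
        simpa [B] using h4
      · intro y hy
        obtain ⟨x, hx⟩ := hbij.2 y
        refine ⟨x, ?_, hx⟩
        by_contra hxB
        have hx1 : 1 < ‖x‖ := by simpa [B] using hxB
        have h1 : h x = x := by
          show x + t • ψ x = x
          rw [hψout x hx1.le, smul_zero, add_zero]
        rw [h1] at hx
        rw [← hx] at hy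
        exact hxB hy
    have hhL : LipschitzWith (1 + ⟨t, ht.le⟩ * L) h := by
      have h1 : LipschitzWith (⟨t, ht.le⟩ * L) (fun x => t • ψ x) := by
        refine LipschitzWith.of_dist_le_mul (fun x y => ?_)
        rw [dist_eq_norm, ← smul_sub, norm_smul, Real.norm_of_nonneg ht.le, ← dist_eq_norm]
        have := hψL.dist_le_mul x y
        have h3 : ((⟨t, ht.le⟩ * L : ℝ≥0) : ℝ) = t * L := rfl
        rw [h3, mul_assoc]
        exact mul_le_mul_of_nonneg_left this ht.le
      exact LipschitzWith.id.add h1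
    have hder : ∀ᵐ x ∂μ, ENNReal.ofReal |(fderiv ℝ h x).det| = ENNReal.ofReal (D t x) := by
      have : ∀ᵐ x ∂μ, DifferentiableAt ℝ ψ x := hψL.ae_differentiableAt
      filter_upwards [this] with x hx
      have h1 : HasFDerivAt h (ContinuousLinearMap.id ℝ X + t • A x) x :=
        (hasFDerivAt_id x).add (hx.hasFDerivAt.const_smul t)
      rw [h1.fderiv]
      have h2 : 0 < D t x := by
        apply det_pos_of_small ht.le
        have := mul_le_mul_of_nonneg_left (hAn x) ht.le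
        linarith
      show ENNReal.ofReal |D t x| = _
      rw [abs_of_pos h2]
    have harea := area_eq μ hhL hBm hbij.1.injOn
    rw [himg, lintegral_congr_ae (ae_restrict_of_ae hder)] at harea
    rw [integral_eq_lintegral_of_nonneg_ae, harea]
    · rfl
    · refine Eventually.of_forall (fun x => ?_)
      apply le_of_lt
      apply det_pos_of_small ht.le
      have := mul_le_mul_of_nonneg_left (hAn x) ht.le
      linarith
    · exact (hDm t).aestronglyMeasurable
  -- interpolation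
  obtain ⟨v, w, hv, hw, hp⟩ := exists_nodes (finrank ℝ X) (τ := 1 / (L + 1)) (by positivity)
  have hinterp : ∀ x, D 1 x = ∑ j, w j * D (v j) x := by
    intro x
    obtain ⟨p, hpd, hpe⟩ := exists_poly_det (A x)
    have := hp p hpd
    simp only [hpe] at this
    exact this
  have hint : ∀ j, IntegrableOn (D (v j)) B μ := by
    intro j
    by_contra hcon
    have h1 := hsmall (v j) (hv j).1 (hv j).2
    rw [integral_undef hcon] at h1
    have h2 : 0 < μ.real B := ENNReal.toReal_pos hBpos.ne' hBfin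
    linarith
  have h1 : ∫ x in B, D 1 x ∂μ = μ.real B := by
    have e1 : ∫ x in B, D 1 x ∂μ = ∫ x in B, ∑ j, w j * D (v j) x ∂μ := by
      apply integral_congr_ae
      exact Eventually.of_forall hinterp
    rw [e1, integral_finsetSum]
    · simp_rw [integral_const_mul]
      rw [Finset.sum_congr rfl (fun j _ => by rw [hsmall (v j) (hv j).1 (hv j).2]),
        ← Finset.sum_mul, hw, one_mul]
    · intro j _
      exact (hint j).const_mul _
  -- the derivative of `r` is singular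
  have h0 : ∫ x in B, D 1 x ∂μ = 0 := by
    have hnull : ∀ᵐ x ∂μ, x ∈ B → D 1 x = 0 := by
      have h2 : ∀ᵐ x ∂μ, DifferentiableAt ℝ ψ x := hψL.ae_differentiableAt
      have h3 : ∀ᵐ x ∂μ, x ∉ sphere (0 : X) 1 := by
        rw [ae_iff]; simp only [not_not, ofPred_mem_eq]
        exact addHaar_sphere μ 0 1
      filter_upwards [h2, h3] with x hx hxs hxB
      have hx1 : ‖x‖ < 1 := by
        have h4 : ‖x‖ ≤ 1 := by simpa [B] using hxB
        have h5 : ‖x‖ ≠ 1 := by simpa using hxs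
        exact lt_of_le_of_ne h4 h5
      by_contra hdet
      have hd : HasFDerivAt (fun y => y + ψ y) (ContinuousLinearMap.id ℝ X + A x) x :=
        (hasFDerivAt_id x).add hx.hasFDerivAt
      have hdet' : (ContinuousLinearMap.id ℝ X + A x).det ≠ 0 := by
        simpa [D] using hdet
      have hsurj : Function.Surjective (ContinuousLinearMap.id ℝ X + A x) := by
        have hu : IsUnit (LinearMap.det ((ContinuousLinearMap.id ℝ X + A x : X →L[ℝ] X) : X →ₗ[ℝ] X)) :=
          isUnit_iff_ne_zero.mpr hdet'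
        rw [← LinearMap.isUnit_iff_isUnit_det, LinearMap.isUnit_iff_range_eq_top] at hu
        exact LinearMap.range_eq_top.mp hu
      obtain ⟨u, hu⟩ := hsurj (x + ψ x)
      have hR : ∀ y, ‖y‖ ≤ 1 → ‖y + ψ y‖ = 1 := by
        intro y hy
        rw [hψin y hy]
        have : y + (r y - y) = r y := by abel
        rw [this]; exact hs y hy
      -- directional derivative along u
      have hline : HasDerivAt (fun t : ℝ => (x + t • u) + ψ (x + t • u)) (x + ψ x) 0 := by
        have hg : HasDerivAt (fun t : ℝ => x + t • u) u 0 := by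
          simpa using ((hasDerivAt_id (0 : ℝ)).smul_const u).const_add x
        have hd' : HasFDerivAt (fun y => y + ψ y) (ContinuousLinearMap.id ℝ X + A x)
            (x + (0 : ℝ) • u) := by simpa using hd
        have := hd'.comp_hasDerivAt (0 : ℝ) hg
        rw [hu] at this
        exact this
      rw [hasDerivAt_iff_isLittleO_nhds_zero] at hline
      have hb := hline.def (c := 1 / 2) (by norm_num)
      have hnear : ∀ᶠ t : ℝ in 𝓝 0, ‖x + t • u‖ < 1 := by
        have hc : ContinuousAt (fun t : ℝ => ‖x + t • u‖) 0 := by fun_prop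
        have : (fun t : ℝ => ‖x + t • u‖) 0 < 1 := by simpa using hx1
        exact hc.eventually_lt continuousAt_const this
      obtain ⟨δ, hδ, hball⟩ := Metric.eventually_nhds_iff.mp (hb.and hnear)
      have hpos : 0 < δ / 2 := by linarith
      obtain ⟨h6, h7⟩ := @hball (δ / 2) (by rw [Real.dist_eq, sub_zero, abs_of_pos hpos]; linarith)
      simp only [zero_add, zero_smul, add_zero] at h6
      have h8 := hR _ h7.le
      have h9 := hR x hx1.le
      have e2 : (x + (δ / 2) • u) + ψ (x + (δ / 2) • u) =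
          (1 + δ / 2) • (x + ψ x) + ((x + (δ / 2) • u) + ψ (x + (δ / 2) • u) - (x + ψ x) -
            (δ / 2) • (x + ψ x)) := by
        rw [add_smul, one_smul]; abel
      have h10 : ‖(1 + δ / 2) • (x + ψ x)‖ = 1 + δ / 2 := by
        rw [norm_smul, h9, mul_one, Real.norm_of_nonneg (by linarith)]
      have h11 : ‖(1 + δ / 2) • (x + ψ x)‖ ≤ ‖(x + (δ / 2) • u) + ψ (x + (δ / 2) • u)‖ +
          ‖((x + (δ / 2) • u) + ψ (x + (δ / 2) • u) - (x + ψ x) - (δ / 2) • (x + ψ x))‖ := by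
        have e3 : (1 + δ / 2) • (x + ψ x) = ((x + (δ / 2) • u) + ψ (x + (δ / 2) • u)) -
          ((x + (δ / 2) • u) + ψ (x + (δ / 2) • u) - (x + ψ x) -
            (δ / 2) • (x + ψ x)) := by
          rw [add_smul, one_smul]; abel
        conv_lhs => rw [e3]
        exact norm_sub_le _ _
      rw [h8, h10] at h11
      have h12 : ‖δ / 2‖ = δ / 2 := Real.norm_of_nonneg hpos.le
      rw [h12] at h6
      linarith
    have : ∀ᵐ x ∂(μ.restrict B), D 1 x = 0 := (ae_restrict_iff' hBm).mpr hnull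
    rw [integral_congr_ae this]
    simp
  rw [h0] at h1
  have h2 : 0 < μ.real B := ENNReal.toReal_pos hBpos.ne' hBfin
  linarith

end Retract

end Crest.Agent.R074
end

-- ▼ part R074/FDCover
section

/-!
Row 74 (S0099), finite-dimensional case, part 3: every Lipschitz extension to the unit ball of a
sphere isometry covers the unit ball; equality of dimensions.
-/

set_option autoImplicit false

namespace Crest.Agent.R074

open MeasureTheory MeasureTheory.Measure Metric Set Module Filter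
open scoped NNReal ENNReal Topology

section Cover

variable {X Y : Type*} [NormedAddCommGroup X] [NormedSpace ℝ X] [NormedAddCommGroup Y]
  [NormedSpace ℝ Y]

omit [NormedSpace ℝ Y] in
theorem SI.nontrivial {f : X → Y} {g : Y → X} (h : SI f g) [Nontrivial X] : Nontrivial Y := by
  obtain ⟨x, hx⟩ := exists_norm_eq X (zero_le_one (α := ℝ))
  have h1 := h.map x hx
  refine ⟨f x, 0, ?_⟩
  intro h0
  rw [h0, norm_zero] at h1
  exact zero_ne_one h1

/-- radial projection from an interior point -/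
theorem exists_radial (y0 : Y) (hy0 : ‖y0‖ < 1) {δ : ℝ} (hδ : 0 < δ) :
    ∃ (π : Y → Y) (K : ℝ≥0), (∀ y, ‖y‖ = 1 → π y = y) ∧ (∀ y, y ≠ y0 → ‖π y‖ = 1) ∧
      LipschitzOnWith K π {y | δ ≤ ‖y - y0‖} := by
  classical
  let s : Set Y := ball (-y0) 1
  have hsc : Convex ℝ s := convex_ball _ _
  have hs0 : s ∈ 𝓝 (0 : Y) := by
    apply isOpen_ball.mem_nhds
    simpa [s] using hy0
  have hsub : s ⊆ closedBall 0 2 := by
    intro w hw
    have h1 : ‖w + y0‖ < 1 := by simpa [s, dist_eq_norm] using hw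
    have h2 : ‖w‖ ≤ ‖w + y0‖ + ‖y0‖ := by
      have : w = (w + y0) - y0 := by abel
      conv_lhs => rw [this]
      exact norm_sub_le _ _
    simpa using by linarith
  obtain ⟨C, hC⟩ := hsc.lipschitz_gauge hs0
  have hfr : frontier s = sphere (-y0) 1 := frontier_ball (-y0) one_ne_zero
  have hlow : ∀ w : Y, ‖w‖ / 2 ≤ gauge s w := fun w =>
    le_gauge_of_subset_closedBall (absorbent_nhds_zero hs0) (by norm_num) hsub
  let π : Y → Y := fun y => y0 + (gauge s (y - y0))⁻¹ • (y - y0)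
  have hK : ∃ K : ℝ≥0, (K : ℝ) = (2 / δ) * (1 + 2 * C) := by
    refine ⟨⟨(2 / δ) * (1 + 2 * C), by positivity⟩, rfl⟩
  obtain ⟨K, hK⟩ := hK
  refine ⟨π, K, ?_, ?_, ?_⟩
  · intro y hy
    have h1 : gauge s (y - y0) = 1 := by
      rw [gauge_eq_one_iff_mem_frontier hsc hs0, hfr, mem_sphere_iff_norm]
      simpa using hy
    simp [π, h1]
  · intro y hy
    have h0 : 0 < gauge s (y - y0) := by
      have h1 := hlow (y - y0)
      have h2 : 0 < ‖y - y0‖ := norm_pos_iff.mpr (sub_ne_zero.mpr hy)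
      linarith
    have h1 : gauge s ((gauge s (y - y0))⁻¹ • (y - y0)) = 1 := by
      rw [gauge_smul_of_nonneg (inv_nonneg.mpr h0.le), smul_eq_mul, inv_mul_cancel₀ h0.ne']
    rw [gauge_eq_one_iff_mem_frontier hsc hs0, hfr, mem_sphere_iff_norm] at h1
    have h2 : (gauge s (y - y0))⁻¹ • (y - y0) - -y0 = π y := by
      simp [π]; abel
    rw [h2] at h1
    exact h1
  · refine LipschitzOnWith.of_dist_le_mul (fun y hy y' hy' => ?_)
    set v := y - y0 with hv
    set v' := y' - y0 with hv'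
    have hvd : δ ≤ ‖v‖ := hy
    have hvd' : δ ≤ ‖v'‖ := hy'
    have g1 := hlow v
    have g2 := hlow v'
    set γ := gauge s v with hγ
    set γ' := gauge s v' with hγ'
    have γpos : 0 < γ := by linarith
    have γpos' : 0 < γ' := by linarith
    have hlip : |γ - γ'| ≤ C * ‖v - v'‖ := by
      have := hC.dist_le_mul v v'
      rwa [Real.dist_eq, dist_eq_norm] at this
    have e1 : π y - π y' = γ⁻¹ • (v - v') + (γ⁻¹ - γ'⁻¹) • v' := by
      show (y0 + γ⁻¹ • v) - (y0 + γ'⁻¹ • v') = _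
      rw [smul_sub γ⁻¹ v v', sub_smul γ⁻¹ γ'⁻¹ v']; abel
    have hvv : v - v' = y - y' := by rw [hv, hv']; abel
    rw [dist_eq_norm, e1, dist_eq_norm, hK, ← hvv]
    refine (norm_add_le _ _).trans ?_
    rw [norm_smul, norm_smul, Real.norm_of_nonneg (inv_nonneg.mpr γpos.le), Real.norm_eq_abs]
    have b1 : γ⁻¹ ≤ 2 / δ := by
      rw [inv_eq_one_div, div_le_div_iff₀ γpos hδ]
      linarith
    have b2 : |γ⁻¹ - γ'⁻¹| * ‖v'‖ ≤ (2 / δ) * (2 * C) * ‖v - v'‖ := by
      have e2 : γ⁻¹ - γ'⁻¹ = (γ' - γ) * γ⁻¹ * γ'⁻¹ := by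
        field_simp
      rw [e2, abs_mul, abs_mul, abs_of_pos (inv_pos.mpr γpos), abs_of_pos (inv_pos.mpr γpos'),
        abs_sub_comm]
      have b3 : γ'⁻¹ * ‖v'‖ ≤ 2 := by
        rw [inv_mul_le_iff₀ γpos']; linarith
      have b3' : 0 ≤ γ'⁻¹ * ‖v'‖ := by positivity
      have b4 : |γ - γ'| * γ⁻¹ ≤ (C * ‖v - v'‖) * (2 / δ) :=
        mul_le_mul hlip b1 (inv_nonneg.mpr γpos.le) (by positivity)
      calc |γ - γ'| * γ⁻¹ * γ'⁻¹ * ‖v'‖ = (|γ - γ'| * γ⁻¹) * (γ'⁻¹ * ‖v'‖) := by ring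
        _ ≤ ((C * ‖v - v'‖) * (2 / δ)) * 2 := mul_le_mul b4 b3 b3' (by positivity)
        _ = _ := by ring
    have b5 : γ⁻¹ * ‖v - v'‖ ≤ (2 / δ) * ‖v - v'‖ :=
      mul_le_mul_of_nonneg_right b1 (norm_nonneg _)
    calc γ⁻¹ * ‖v - v'‖ + |γ⁻¹ - γ'⁻¹| * ‖v'‖ ≤
        (2 / δ) * ‖v - v'‖ + (2 / δ) * (2 * C) * ‖v - v'‖ := add_le_add b5 b2
      _ = _ := by ring

theorem cover [FiniteDimensional ℝ X] [Nontrivial X] {f : X → Y} {g : Y → X} (h : SI f g)
    {K : ℝ≥0} {G : X → Y} (hG : LipschitzOnWith K G (closedBall 0 1))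
    (hGf : ∀ x, ‖x‖ = 1 → G x = f x) :
    closedBall (0 : Y) 1 ⊆ G '' closedBall 0 1 := by
  intro y0 hy0
  by_contra hcon
  have hy1 : ‖y0‖ ≤ 1 := by simpa using hy0
  have hy1' : ‖y0‖ < 1 := by
    rcases hy1.eq_or_lt with h1 | h1
    · exfalso
      apply hcon
      refine ⟨g y0, ?_, ?_⟩
      · simpa using (h.imap y0 h1).le
      · rw [hGf _ (h.imap y0 h1), h.right y0 h1]
    · exact h1
  have hcomp : IsCompact (G '' closedBall (0 : X) 1) :=
    (isCompact_closedBall 0 1).image_of_continuousOn hG.continuousOn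
  have hopen : (G '' closedBall (0 : X) 1)ᶜ ∈ 𝓝 y0 :=
    hcomp.isClosed.isOpen_compl.mem_nhds hcon
  obtain ⟨δ, hδ, hball⟩ := Metric.mem_nhds_iff.mp hopen
  have hfar : ∀ x, ‖x‖ ≤ 1 → δ ≤ ‖G x - y0‖ := by
    intro x hx
    by_contra hlt
    push Not at hlt
    have : G x ∈ ball y0 δ := by rw [mem_ball, dist_eq_norm]; exact hlt
    exact hball this ⟨x, by simpa using hx, rfl⟩
  obtain ⟨π, K', hπ1, hπ2, hπL⟩ := exists_radial y0 hy1' hδ
  have hne : ∀ x, ‖x‖ ≤ 1 → G x ≠ y0 := by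
    intro x hx h0
    have := hfar x hx
    rw [h0, sub_self, norm_zero] at this
    linarith
  refine no_lipschitz_retraction (K := K' * K) (fun x => g (π (G x))) ?_ ?_ ?_
  · refine LipschitzOnWith.of_dist_le_mul (fun x hx x' hx' => ?_)
    have hx1 : ‖x‖ ≤ 1 := by simpa using hx
    have hx1' : ‖x'‖ ≤ 1 := by simpa using hx'
    rw [dist_eq_norm, h.symm.dist _ _ (hπ2 _ (hne x hx1)) (hπ2 _ (hne x' hx1')),
      ← dist_eq_norm]
    refine (hπL.dist_le_mul _ (hfar x hx1) _ (hfar x' hx1')).trans ?_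
    push_cast
    rw [mul_assoc]
    exact mul_le_mul_of_nonneg_left (hG.dist_le_mul x hx x' hx') K'.2
  · intro x hx
    show g (π (G x)) = x
    rw [hGf x hx, hπ1 _ (h.map x hx), h.left x hx]
  · intro x hx
    exact h.imap _ (hπ2 _ (hne x hx))

theorem SI.finiteDimensional [FiniteDimensional ℝ X] [Nontrivial X] {f : X → Y} {g : Y → X}
    (h : SI f g) : FiniteDimensional ℝ Y := by
  have hcont : ContinuousOn f (sphere (0 : X) 1) := by
    have : LipschitzOnWith 1 f (sphere (0 : X) 1) := by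
      refine LipschitzOnWith.of_dist_le_mul (fun x hx y hy => ?_)
      rw [dist_eq_norm, dist_eq_norm, h.dist x y (by simpa using hx) (by simpa using hy)]
      simp
    exact this.continuousOn
  have hS : IsCompact (sphere (0 : Y) 1) := by
    have h1 : sphere (0 : Y) 1 = f '' sphere (0 : X) 1 := by
      ext y
      constructor
      · intro hy
        have hy1 : ‖y‖ = 1 := by simpa using hy
        exact ⟨g y, by simpa using h.imap y hy1, h.right y hy1⟩
      · rintro ⟨x, hx, rfl⟩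
        simpa using h.map x (by simpa using hx)
    rw [h1]
    exact (isCompact_sphere 0 1).image_of_continuousOn hcont
  have hB : IsCompact (closedBall (0 : Y) 1) := by
    have h2 : closedBall (0 : Y) 1 ⊆ (fun p : ℝ × Y => p.1 • p.2) '' (Icc 0 1 ×ˢ sphere (0 : Y) 1) := by
      intro y hy
      have hy1 : ‖y‖ ≤ 1 := by simpa using hy
      rcases eq_or_ne y 0 with rfl | hy0
      · have := h.nontrivial
        obtain ⟨z, hz⟩ := exists_norm_eq Y (zero_le_one (α := ℝ))
        exact ⟨(0, z), ⟨⟨le_refl _, zero_le_one⟩, by simpa using hz⟩, by simp⟩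
      · refine ⟨(‖y‖, ‖y‖⁻¹ • y), ⟨⟨norm_nonneg _, hy1⟩, ?_⟩, ?_⟩
        · simp [norm_smul, hy0]
        · simp [smul_smul, hy0]
    refine IsCompact.of_isClosed_subset ?_ isClosed_closedBall h2
    exact (isCompact_Icc.prod hS).image (by fun_prop)
  exact FiniteDimensional.of_isCompact_closedBall₀ ℝ one_pos hB

theorem SI.finrank_le [FiniteDimensional ℝ X] [Nontrivial X] {f : X → Y} {g : Y → X}
    (h : SI f g) : finrank ℝ Y ≤ finrank ℝ X := by
  have := h.finiteDimensional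
  have hL : LipschitzOnWith 1 f (sphere (0 : X) 1) := by
    refine LipschitzOnWith.of_dist_le_mul (fun x hx y hy => ?_)
    rw [dist_eq_norm, dist_eq_norm, h.dist x y (by simpa using hx) (by simpa using hy)]
    simp
  obtain ⟨G, hG, hGf⟩ := hL.extend_finite_dimension
  have hc := cover h hG.lipschitzOnWith (fun x hx => (hGf (by simpa using hx)).symm)
  have h1 : dimH (closedBall (0 : Y) 1) = finrank ℝ Y := by
    apply Real.dimH_of_mem_nhds
    exact closedBall_mem_nhds 0 one_pos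
  have h2 : dimH (closedBall (0 : X) 1) = finrank ℝ X := by
    apply Real.dimH_of_mem_nhds
    exact closedBall_mem_nhds 0 one_pos
  have h3 : dimH (closedBall (0 : Y) 1) ≤ dimH (closedBall (0 : X) 1) :=
    (dimH_mono hc).trans (hG.dimH_image_le _)
  rw [h1, h2] at h3
  exact_mod_cast h3

theorem SI.finrank_eq [FiniteDimensional ℝ X] [Nontrivial X] {f : X → Y} {g : Y → X}
    (h : SI f g) : finrank ℝ X = finrank ℝ Y := by
  have := h.finiteDimensional
  have := h.nontrivial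
  exact le_antisymm h.symm.finrank_le h.finrank_le

end Cover

end Crest.Agent.R074
end

-- ▼ part R074/FDJohn
section

/-!
Row 74 (S0099), finite-dimensional case, part 4: D-optimal (John) inner product.
-/

set_option autoImplicit false

namespace Crest.Agent.R074

open Metric Set Module Filter
open scoped NNReal ENNReal Topology Matrix MatrixOrder

section Hull

/-- In finite dimension the convex hull of a compact set is compact. -/
theorem isCompact_convexHull_fd {V : Type*} [AddCommGroup V] [Module ℝ V] [TopologicalSpace V]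
    [ContinuousAdd V] [ContinuousSMul ℝ V] [FiniteDimensional ℝ V] {s : Set V}
    (hs : IsCompact s) : IsCompact (convexHull ℝ s) := by
  classical
  rcases s.eq_empty_or_nonempty with rfl | ⟨s0, hs0⟩
  · simp
  let d := finrank ℝ V
  let K : Set ((Fin (d + 1) → ℝ) × (Fin (d + 1) → V)) :=
    stdSimplex ℝ (Fin (d + 1)) ×ˢ (Set.univ.pi fun _ => s)
  have hK : IsCompact K := (isCompact_stdSimplex ℝ _).prod (isCompact_univ_pi fun _ => hs)
  let Φ : ((Fin (d + 1) → ℝ) × (Fin (d + 1) → V)) → V := fun p => ∑ i, p.1 i • p.2 i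
  have hΦ : Continuous Φ := by
    show Continuous (fun p : (Fin (d + 1) → ℝ) × (Fin (d + 1) → V) => ∑ i, p.1 i • p.2 i)
    fun_prop
  have himg : convexHull ℝ s = Φ '' K := by
    apply Subset.antisymm
    · intro x hx
      obtain ⟨ι, hι, z, w, hz, haff, hw, hw1, hx'⟩ := eq_pos_convex_span_of_mem_convexHull hx
      have hcard : Fintype.card ι ≤ d + 1 := by
        refine haff.card_le_finrank_succ.trans ?_
        have := Submodule.finrank_le (vectorSpan ℝ (Set.range z))
        omega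
      obtain ⟨e⟩ : Nonempty (ι ↪ Fin (d + 1)) := by
        apply Function.Embedding.nonempty_of_card_le
        simpa using hcard
      refine ⟨(Function.extend e w 0, Function.extend e z (fun _ => s0)), ⟨⟨?_, ?_⟩, ?_⟩, ?_⟩
      · intro j
        show 0 ≤ Function.extend e w 0 j
        by_cases hj : ∃ i, e i = j
        · obtain ⟨i, rfl⟩ := hj
          rw [e.injective.extend_apply]
          exact (hw i).le
        · rw [Function.extend_apply' _ _ _ hj]
          simp
      · rw [← hw1]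
        symm
        apply Fintype.sum_of_injective e e.injective
        · intro j hj
          show Function.extend e w 0 j = 0
          rw [Function.extend_apply' _ _ _ hj]
          simp
        · intro i
          show w i = Function.extend e w 0 (e i)
          rw [e.injective.extend_apply]
      · intro j _
        show Function.extend e z (fun _ => s0) j ∈ s
        by_cases hj : ∃ i, e i = j
        · obtain ⟨i, rfl⟩ := hj
          rw [e.injective.extend_apply]
          exact hz ⟨i, rfl⟩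
        · rw [Function.extend_apply' _ _ _ hj]
          exact hs0
      · rw [← hx']
        symm
        apply Fintype.sum_of_injective e e.injective
        · intro j hj
          show Function.extend e w 0 j • _ = _
          rw [Function.extend_apply' _ _ _ hj]
          simp
        · intro i
          show _ = Function.extend e w 0 (e i) • Function.extend e z (fun _ => s0) (e i)
          rw [e.injective.extend_apply, e.injective.extend_apply]
    · rintro _ ⟨⟨w, z⟩, ⟨⟨hw0, hw1⟩, hz⟩, rfl⟩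
      exact (convex_convexHull ℝ s).sum_mem (fun i _ => hw0 i) hw1
        (fun i _ => subset_convexHull ℝ s (hz i (mem_univ i)))
  rw [himg]
  exact hK.image hΦ

end Hull

section PSD

/-- AM-GM for PSD matrices with the equality case. -/
theorem psd_det_le {n : ℕ} {P : Matrix (Fin n) (Fin n) ℝ} (hP : P.PosSemidef)
    (htr : P.trace ≤ n) : P.det ≤ 1 ∧ (P.det = 1 → P = 1) := by
  classical
  have hH := hP.1
  set lam := hH.eigenvalues with hlam
  have hlam0 : ∀ i, 0 ≤ lam i := hP.eigenvalues_nonneg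
  have hdet : P.det = ∏ i, lam i := by simpa using hH.det_eq_prod_eigenvalues
  have htrace : P.trace = ∑ i, lam i := by simpa using hH.trace_eq_sum_eigenvalues
  by_cases h0 : ∃ i, lam i = 0
  · obtain ⟨i, hi⟩ := h0
    have : P.det = 0 := by
      rw [hdet]
      exact Finset.prod_eq_zero (Finset.mem_univ i) hi
    rw [this]
    exact ⟨zero_le_one, fun h => absurd h zero_ne_one⟩
  · push Not at h0
    have hpos : ∀ i, 0 < lam i := fun i => lt_of_le_of_ne (hlam0 i) (Ne.symm (h0 i))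
    have hdpos : 0 < P.det := by
      rw [hdet]; exact Finset.prod_pos (fun i _ => hpos i)
    have hlog : Real.log P.det = ∑ i, Real.log (lam i) := by
      rw [hdet, Real.log_prod (fun i _ => (hpos i).ne')]
    have hle : ∀ i, Real.log (lam i) ≤ lam i - 1 := fun i => Real.log_le_sub_one_of_pos (hpos i)
    have hsum : ∑ i, (lam i - 1) ≤ 0 := by
      rw [Finset.sum_sub_distrib, ← htrace]
      simp
      linarith
    have hsum' : ∑ i, Real.log (lam i) ≤ ∑ i, (lam i - 1) := Finset.sum_le_sum (fun i _ => hle i)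
    constructor
    · have h1 : Real.log P.det ≤ 0 := by rw [hlog]; linarith
      exact (Real.log_nonpos_iff hdpos.le).mp h1
    · intro hd1
      have h2 : ∑ i, Real.log (lam i) = 0 := by rw [← hlog, hd1, Real.log_one]
      have h3 : ∑ i, (lam i - 1) = ∑ i, Real.log (lam i) := by linarith
      have h4 : ∀ i ∈ Finset.univ, Real.log (lam i) = lam i - 1 := by
        refine (Finset.sum_eq_sum_iff_of_le (fun i _ => hle i)).mp h3.symm
      have h5 : ∀ i, lam i = 1 := by
        intro i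
        by_contra hne
        have := Real.log_lt_sub_one_of_pos (hpos i) hne
        rw [h4 i (Finset.mem_univ i)] at this
        exact lt_irrefl _ this
      have h6 := hH.spectral_theorem
      rw [h6]
      have h7 : (RCLike.ofReal ∘ hH.eigenvalues : Fin n → ℝ) = fun _ => 1 := by
        ext i
        simp only [Function.comp_apply]
        rw [← hlam, h5 i]
        simp
      rw [h7]
      simp

end PSD

section John

variable {X : Type*} [NormedAddCommGroup X] [NormedSpace ℝ X] [FiniteDimensional ℝ X]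

/-- D-optimal designs give an inner product (John position) on a finite-dimensional space:
`⟪φ x, φ y⟫ = ∑ cᵢ kᵢ(x) kᵢ(y)` with `‖kᵢ‖ ≤ 1`, `∑ cᵢ = 1`, and every functional of norm at
most one has Euclidean norm at most `√n`. -/
theorem john {n : ℕ} (hn : finrank ℝ X = n) (hn0 : 0 < n) :
    ∃ (φ : X ≃L[ℝ] EuclideanSpace ℝ (Fin n)) (ι : Type) (_ : Fintype ι) (c : ι → ℝ)
      (k : ι → X →L[ℝ] ℝ),
      (∀ i, 0 ≤ c i) ∧ ∑ i, c i = 1 ∧ (∀ i, ‖k i‖ ≤ 1) ∧
      (∀ x y, inner ℝ (φ x) (φ y) = ∑ i, c i * (k i x * k i y)) ∧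
      (∀ w : X →L[ℝ] ℝ, ‖w‖ ≤ 1 →
        ∑ j, (w (φ.symm (EuclideanSpace.single j 1))) ^ 2 ≤ n) := by
  classical
  let e : X ≃L[ℝ] EuclideanSpace ℝ (Fin n) := ContinuousLinearEquiv.ofFinrankEq (by simp [hn])
  let v : (X →L[ℝ] ℝ) → (Fin n → ℝ) := fun p j => p (e.symm (EuclideanSpace.single j 1))
  have hvc : Continuous v := by
    apply continuous_pi
    intro j
    show Continuous (fun p : X →L[ℝ] ℝ => p (e.symm (EuclideanSpace.single j 1)))
    fun_prop
  have hvx : ∀ (p : X →L[ℝ] ℝ) (x : X), p x = ∑ j, e x j * v p j := by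
    intro p x
    have h1 : x = ∑ j, e x j • e.symm (EuclideanSpace.single j 1) := by
      apply e.injective
      rw [map_sum]
      simp only [map_smul, ContinuousLinearEquiv.apply_symm_apply]
      ext i
      simp [Pi.single_apply, Finset.sum_apply]
    conv_lhs => rw [h1]
    rw [map_sum]
    simp only [map_smul, smul_eq_mul]
    rfl
  let R : Set (Matrix (Fin n) (Fin n) ℝ) :=
    (fun p : X →L[ℝ] ℝ => Matrix.vecMulVec (v p) (v p)) '' closedBall 0 1
  have hR : IsCompact R := by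
    have : ProperSpace (X →L[ℝ] ℝ) := FiniteDimensional.proper ℝ _
    refine (isCompact_closedBall 0 1).image ?_
    exact hvc.matrix_vecMulVec hvc
  have hQ : IsCompact (convexHull ℝ R) := isCompact_convexHull_fd hR
  have hQne : (convexHull ℝ R).Nonempty := by
    refine Set.Nonempty.convexHull ?_
    exact ⟨_, 0, by simp, rfl⟩
  obtain ⟨M, hMQ, hMmax⟩ := hQ.exists_isMaxOn hQne
    (f := fun M => M.det) (continuous_id.matrix_det).continuousOn
  have hMmax' : ∀ N ∈ convexHull ℝ R, N.det ≤ M.det := fun N hN => hMmax hN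
  -- the maximum is positive
  have hMpos : 0 < M.det := by
    let p : Fin n → (X →L[ℝ] ℝ) := fun j => (EuclideanSpace.proj j).comp (e : X →L[ℝ] _)
    let C : ℝ := ∑ j, ‖p j‖ + 1
    have hC : 0 < C := by positivity
    have hpC : ∀ j, ‖C⁻¹ • p j‖ ≤ 1 := by
      intro j
      rw [norm_smul, Real.norm_of_nonneg (inv_nonneg.mpr hC.le), inv_mul_le_iff₀ hC, mul_one]
      have := Finset.single_le_sum (f := fun j => ‖p j‖) (fun i _ => norm_nonneg _)
        (Finset.mem_univ j)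
      linarith
    have hvp : ∀ j, v (C⁻¹ • p j) = C⁻¹ • Pi.single j 1 := by
      intro j
      ext i
      simp [v, p, Pi.single_apply, eq_comm]
    have hmem : ∑ j : Fin n, (1 / (n : ℝ)) • Matrix.vecMulVec (v (C⁻¹ • p j)) (v (C⁻¹ • p j)) ∈
        convexHull ℝ R := by
      refine (convex_convexHull ℝ R).sum_mem (fun j _ => by positivity) ?_ ?_
      · simp
        field_simp
      · intro j _
        exact subset_convexHull ℝ R ⟨_, by simpa using hpC j, rfl⟩
    have hval : ∑ j : Fin n, (1 / (n : ℝ)) • Matrix.vecMulVec (v (C⁻¹ • p j)) (v (C⁻¹ • p j)) =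
        ((1 / (n : ℝ)) * (C⁻¹ * C⁻¹)) • (1 : Matrix (Fin n) (Fin n) ℝ) := by
      ext i l
      rw [Matrix.sum_apply]
      simp only [hvp, Matrix.smul_apply, Matrix.vecMulVec_apply, Pi.smul_apply, smul_eq_mul,
        Pi.single_apply, Matrix.one_apply]
      by_cases hil : i = l
      · subst hil
        rw [Finset.sum_eq_single i]
        · simp; 
        · intro b _ hb
          simp [hb.symm]
        · simp
      · rw [Finset.sum_eq_zero]
        · simp [hil]
        · intro b _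
          by_cases hb : i = b
          · subst hb
            have : ¬ l = i := fun h => hil h.symm
            simp [this]
          · simp [hb]
    rw [hval] at hmem
    have h1 := hMmax' _ hmem
    rw [Matrix.det_smul, Matrix.det_one, mul_one] at h1
    refine lt_of_lt_of_le ?_ h1
    positivity
  obtain ⟨ι, hι, c, z, hc0, hc1, hz, hzM⟩ := mem_convexHull_iff_exists_fintype.mp hMQ
  have hz' : ∀ i, ∃ p : X →L[ℝ] ℝ, ‖p‖ ≤ 1 ∧ Matrix.vecMulVec (v p) (v p) = z i := by
    intro i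
    obtain ⟨p, hp, hp2⟩ := hz i
    exact ⟨p, by simpa using hp, hp2⟩
  choose k hk1 hk2 using hz'
  have hMsum : M = ∑ i, c i • Matrix.vecMulVec (v (k i)) (v (k i)) := by
    rw [← hzM]
    exact Finset.sum_congr rfl (fun i _ => by rw [hk2 i])
  have hPSD : M.PosSemidef := by
    rw [hMsum]
    refine Matrix.posSemidef_sum _ (fun i _ => ?_)
    have h1 := Matrix.posSemidef_vecMulVec_self_star (v (k i))
    rw [star_trivial] at h1
    exact h1.smul (hc0 i)
  obtain ⟨B, hB⟩ := CStarAlgebra.nonneg_iff_eq_star_mul_self.mp hPSD.nonneg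
  have hBt : M = Bᵀ * B := by
    rw [hB, Matrix.star_eq_conjTranspose, Matrix.conjTranspose_eq_transpose_of_trivial]
  have hdetB : B.det ≠ 0 := by
    intro h0
    rw [hBt, Matrix.det_mul, h0, mul_zero] at hMpos
    exact lt_irrefl _ hMpos
  -- the Euclidean coordinates
  let T : EuclideanSpace ℝ (Fin n) →ₗ[ℝ] EuclideanSpace ℝ (Fin n) := Matrix.toEuclideanLin B
  have hTapp : ∀ a i, T a i = (B *ᵥ a.ofLp) i := fun a i => by
    simp [T, Matrix.toEuclideanLin]
  have hTinj : Function.Injective T := by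
    rw [injective_iff_map_eq_zero]
    intro a ha
    have h1 : B *ᵥ a.ofLp = 0 := by
      ext i
      rw [← hTapp, ha]; rfl
    have h2 := Matrix.eq_zero_of_mulVec_eq_zero hdetB h1
    ext i
    rw [h2]; rfl
  let Te : EuclideanSpace ℝ (Fin n) ≃ₗ[ℝ] EuclideanSpace ℝ (Fin n) :=
    LinearEquiv.ofInjectiveEndo T hTinj
  have hTe : ∀ a, Te a = T a := fun a => rfl
  let φ : X ≃L[ℝ] EuclideanSpace ℝ (Fin n) := e.trans Te.toContinuousLinearEquiv
  have hφ : ∀ x i, φ x i = (B *ᵥ (e x).ofLp) i := by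
    intro x i
    show Te (e x) i = _
    rw [hTe, hTapp]
  refine ⟨φ, ι, hι, c, k, hc0, hc1, hk1, ?_, ?_⟩
  · intro x y
    have h1 : inner ℝ (φ x) (φ y) = ((e x).ofLp) ⬝ᵥ (M *ᵥ (e y).ofLp) := by
      rw [hBt, ← Matrix.mulVec_mulVec, Matrix.dotProduct_mulVec, Matrix.vecMul_transpose]
      simp only [PiLp.inner_apply, dotProduct, hφ]
      refine Finset.sum_congr rfl (fun i _ => ?_)
      simp [mul_comm]
    rw [h1, hMsum, Matrix.sum_mulVec, dotProduct_sum]
    refine Finset.sum_congr rfl (fun i _ => ?_)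
    rw [Matrix.smul_mulVec, dotProduct_smul, smul_eq_mul, Matrix.vecMulVec_mulVec,
      hvx (k i) x, hvx (k i) y]
    congr 1
    simp only [dotProduct, op_smul_eq_smul, Pi.smul_apply, smul_eq_mul]
    rw [Finset.sum_mul]
    refine Finset.sum_congr rfl (fun j _ => ?_)
    rw [Finset.sum_congr rfl (fun l _ => mul_comm (v (k i) l) ((e y) l))]
    ring
  · intro w hw
    let z : Fin n → ℝ := fun j => w (φ.symm (EuclideanSpace.single j 1))
    have hzv : v w = Bᵀ *ᵥ z := by
      ext j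
      have h1 : e.symm (EuclideanSpace.single j 1) =
          ∑ i, B i j • φ.symm (EuclideanSpace.single i 1) := by
        apply φ.injective
        rw [map_sum]
        simp only [map_smul, ContinuousLinearEquiv.apply_symm_apply]
        ext i
        rw [hφ]
        simp [Pi.single_apply, Finset.sum_apply, Matrix.mulVec, dotProduct]
      show w (e.symm (EuclideanSpace.single j 1)) = _
      rw [h1, map_sum]
      simp only [map_smul, smul_eq_mul, Matrix.mulVec, dotProduct, Matrix.transpose_apply]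
      rfl
    set S : ℝ := ∑ j, (z j) ^ 2 with hS
    have key : ∀ t : ℝ, 0 < t → t < 1 → (1 - t) ^ n * (1 + t / (1 - t) * S) ≤ 1 := by
      intro t ht ht1
      have h1t : 0 < 1 - t := by linarith
      have hmem : (1 - t) • M + t • Matrix.vecMulVec (v w) (v w) ∈ convexHull ℝ R := by
        refine (convex_convexHull ℝ R) hMQ ?_ h1t.le ht.le (by ring)
        exact subset_convexHull ℝ R ⟨w, by simpa using hw, rfl⟩
      have h1 := hMmax' _ hmem
      have h2 : (1 - t) • M + t • Matrix.vecMulVec (v w) (v w) =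
          Bᵀ * ((1 - t) • (1 + Matrix.replicateCol Unit ((t / (1 - t)) • z) *
            Matrix.replicateRow Unit z)) * B := by
        rw [hzv, hBt]
        have h3 : Matrix.vecMulVec (Bᵀ *ᵥ z) (Bᵀ *ᵥ z) = Bᵀ * Matrix.vecMulVec z z * B := by
          rw [Matrix.mul_vecMulVec, Matrix.vecMulVec_mul, Matrix.mulVec_transpose]
        have h4 : Matrix.replicateCol Unit ((t / (1 - t)) • z) * Matrix.replicateRow Unit z =
            (t / (1 - t)) • Matrix.vecMulVec z z := by
          rw [← Matrix.vecMulVec_eq, Matrix.smul_vecMulVec]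
        rw [h3, h4, smul_add, smul_smul, mul_div_cancel₀ _ h1t.ne']
        rw [Matrix.mul_add, Matrix.add_mul]
        simp [Matrix.mul_assoc]
      rw [h2, Matrix.det_mul, Matrix.det_mul, Matrix.det_transpose, Matrix.det_smul,
        Matrix.det_one_add_replicateCol_mul_replicateRow, Fintype.card_fin, dotProduct_smul,
        smul_eq_mul] at h1
      have h5 : z ⬝ᵥ z = S := by
        simp only [dotProduct, hS, sq]
      have h6 : M.det = B.det * B.det := by
        rw [hBt, Matrix.det_mul, Matrix.det_transpose]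
      rw [h5, h6] at h1
      have h7 : 0 < B.det * B.det := by rw [← h6]; exact hMpos
      have h8 : B.det * ((1 - t) ^ n * (1 + t / (1 - t) * S)) * B.det =
          (B.det * B.det) * ((1 - t) ^ n * (1 + t / (1 - t) * S)) := by ring
      rw [h8] at h1
      exact le_of_mul_le_mul_left (by rw [mul_one]; exact h1) h7
    by_contra hcon
    push Not at hcon
    obtain ⟨m, rfl⟩ : ∃ m, n = m + 1 := ⟨n - 1, by omega⟩
    push_cast at hcon
    have hm0 : (0 : ℝ) ≤ m := by positivity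
    set t : ℝ := (S - 1 - m) / (2 * (m + 1) * (S - 1)) with ht
    have hS1 : 0 < S - 1 := by linarith
    have hSm : 0 < S - 1 - m := by linarith
    have ht0 : 0 < t := by positivity
    have ht1 : t ≤ 1 / 2 := by
      rw [ht, div_le_div_iff₀ (by positivity) (by norm_num)]
      nlinarith
    have hkey := key t ht0 (by linarith)
    have h1t : 0 < 1 - t := by linarith
    have e1 : (1 - t) ^ (m + 1) * (1 + t / (1 - t) * S) = (1 - t) ^ m * ((1 - t) + t * S) := by
      field_simp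
      ring
    rw [e1] at hkey
    have hbern : 1 - m * t ≤ (1 - t) ^ m := by
      have := one_add_mul_le_pow (a := -t) (by linarith) m
      calc 1 - m * t = 1 + m * (-t) := by ring
        _ ≤ (1 + -t) ^ m := this
        _ = _ := by ring
    have hpos : 0 < (1 - t) + t * S := by nlinarith
    have h9 : (1 - m * t) * ((1 - t) + t * S) ≤ 1 :=
      (mul_le_mul_of_nonneg_right hbern hpos.le).trans hkey
    have h10 : t * (S - 1 - m) ≤ t * (m * t * (S - 1)) := by nlinarith
    have h11 : S - 1 - m ≤ m * t * (S - 1) := le_of_mul_le_mul_left h10 ht0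
    have h12 : m * t * (S - 1) = m * (S - 1 - m) / (2 * (m + 1)) := by
      rw [ht]; field_simp
    rw [h12, le_div_iff₀ (by positivity)] at h11
    nlinarith

end John

end Crest.Agent.R074
end

-- ▼ part R074/FDLip
section

/-!
Row 74 (S0099), finite-dimensional case, part 5: Lipschitz constants from a.e. derivative bounds,
and the linear algebra of the AM-GM inequality.
-/

set_option autoImplicit false

namespace Crest.Agent.R074

open MeasureTheory MeasureTheory.Measure Metric Set Module Filter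
open scoped NNReal ENNReal Topology Matrix MatrixOrder

section Lip

variable {E F : Type*} [NormedAddCommGroup E] [NormedSpace ℝ E] [FiniteDimensional ℝ E]
  [MeasurableSpace E] [BorelSpace E] [NormedAddCommGroup F] [NormedSpace ℝ F]


theorem norm_sub_le_of_ae_fderiv (μ : Measure E) [IsAddHaarMeasure μ] {K : ℝ≥0} {G : E → F}
    (hG : LipschitzWith K G) {U : Set E} (hU : IsOpen U) (hUc : Convex ℝ U)
    (hae : ∀ᵐ z ∂μ, z ∈ U → DifferentiableAt ℝ G z ∧ ‖fderiv ℝ G z‖ ≤ 1)
    {x y : E} (hx : x ∈ U) (hy : y ∈ U) : ‖G y - G x‖ ≤ ‖y - x‖ := by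
  obtain ⟨ℓ, hℓ1, hℓ2⟩ := exists_dual_vector'' ℝ (G y - G x)
  simp only [RCLike.ofReal_real_eq_id, id_eq] at hℓ2
  set v := y - x with hv
  -- bad set
  let N : Set E := {z | ¬ (z ∈ U → DifferentiableAt ℝ G z ∧ ‖fderiv ℝ G z‖ ≤ 1)}
  have hN : μ N = 0 := ae_iff.mp hae
  let N' := toMeasurable μ N
  have hN'm : MeasurableSet N' := measurableSet_toMeasurable μ N
  have hN' : μ N' = 0 := by rw [measure_toMeasurable]; exact hN
  have hNN' : N ⊆ N' := subset_toMeasurable μ N
  have h1 : ∀ᵐ h ∂μ, ∀ᵐ t ∂(volume : Measure ℝ), x + h + t • v ∉ N' := by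
    rw [Measure.ae_ae_comm]
    · refine Eventually.of_forall (fun t => ?_)
      have : μ ((fun h => h + (x + t • v)) ⁻¹' N') = 0 := by
        rw [measure_preimage_add_right]; exact hN'
      rw [ae_iff]
      convert! this using 2
      ext h
      have e1 : x + h + t • v = h + (x + t • v) := by abel
      show (¬ x + h + t • v ∉ N') ↔ h + (x + t • v) ∈ N'
      rw [not_not, e1]
    · have hmeas : Measurable (fun p : E × ℝ => x + p.1 + p.2 • v) := by
        apply Continuous.measurable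
        fun_prop
      exact (hmeas hN'm).compl
  have h2 : ∀ᵐ h ∂μ, x + h ∈ U → y + h ∈ U → ℓ (G (y + h)) - ℓ (G (x + h)) ≤ ‖v‖ := by
    filter_upwards [h1] with h hh hxU hyU
    let φ : ℝ → ℝ := fun t => ℓ (G (x + h + t • v))
    have hφL : LipschitzWith (‖ℓ‖₊ * (K * ‖v‖₊)) φ := by
      refine ℓ.lipschitz.comp (hG.comp ?_)
      refine LipschitzWith.of_dist_le_mul (fun s t => ?_)
      rw [dist_eq_norm, dist_eq_norm]
      have e1 : x + h + s • v - (x + h + t • v) = (s - t) • v := by rw [sub_smul]; abel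
      rw [e1, norm_smul, mul_comm]
      rfl
    have hac : AbsolutelyContinuousOnInterval φ 0 1 :=
      hφL.lipschitzOnWith.absolutelyContinuousOnInterval
    have hftc := hac.integral_deriv_eq_sub
    have hbound : ∀ᵐ t, t ∈ uIoc (0 : ℝ) 1 → ‖deriv φ t‖ ≤ ‖v‖ := by
      filter_upwards [hh] with t ht htI
      have ht01 : t ∈ Icc (0 : ℝ) 1 := by
        rw [uIoc_of_le zero_le_one] at htI
        exact ⟨htI.1.le, htI.2⟩
      have hzU : x + h + t • v ∈ U := by
        have := hUc hxU hyU (by linarith [ht01.2] : (0 : ℝ) ≤ 1 - t) ht01.1 (by ring)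
        convert! this using 1
        rw [hv, smul_add, smul_add, smul_sub, sub_smul, sub_smul, one_smul, one_smul]
        abel
      have hz := ht
      have hz' : x + h + t • v ∉ N := fun hc => hz (hNN' hc)
      have hz'' : DifferentiableAt ℝ G (x + h + t • v) ∧ ‖fderiv ℝ G (x + h + t • v)‖ ≤ 1 := by
        by_contra hcon
        exact hz' (fun hi => hcon (hi hzU))
      obtain ⟨hd, hn⟩ := hz''
      have hline : HasDerivAt (fun t : ℝ => x + h + t • v) v t := by
        simpa using ((hasDerivAt_id t).smul_const v).const_add (x + h)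
      have hder : HasDerivAt φ (ℓ (fderiv ℝ G (x + h + t • v) v)) t :=
        (ℓ.hasFDerivAt.comp_hasDerivAt t (hd.hasFDerivAt.comp_hasDerivAt t hline))
      rw [hder.deriv]
      calc ‖ℓ (fderiv ℝ G (x + h + t • v) v)‖ ≤ ‖ℓ‖ * ‖fderiv ℝ G (x + h + t • v) v‖ := ℓ.le_opNorm _
        _ ≤ 1 * ‖fderiv ℝ G (x + h + t • v) v‖ := mul_le_mul_of_nonneg_right hℓ1 (norm_nonneg _)
        _ ≤ 1 * (‖fderiv ℝ G (x + h + t • v)‖ * ‖v‖) := by
            gcongr; exact ContinuousLinearMap.le_opNorm _ _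
        _ ≤ 1 * (1 * ‖v‖) := by gcongr
        _ = ‖v‖ := by ring
    have h3 := intervalIntegral.norm_integral_le_of_norm_le_const_ae hbound
    rw [hftc] at h3
    have e2 : φ 1 = ℓ (G (y + h)) := by
      show ℓ (G (x + h + (1 : ℝ) • v)) = _
      congr 2
      rw [hv, one_smul]; abel
    have e3 : φ 0 = ℓ (G (x + h)) := by
      show ℓ (G (x + h + (0 : ℝ) • v)) = _
      congr 2
      rw [zero_smul, add_zero]
    rw [e2, e3] at h3
    simp only [sub_zero, abs_one, mul_one] at h3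
    exact (Real.le_norm_self _).trans h3
  -- density
  have hdense := Measure.dense_of_ae h2
  let W : Set E := {h | x + h ∈ U ∧ y + h ∈ U}
  have hW : IsOpen W := by
    have a1 : IsOpen ((fun h => x + h) ⁻¹' U) := hU.preimage (by fun_prop)
    have a2 : IsOpen ((fun h => y + h) ⁻¹' U) := hU.preimage (by fun_prop)
    exact a1.inter a2
  have h0W : (0 : E) ∈ W := by
    constructor
    · simpa using hx
    · simpa using hy
  have hcl : IsClosed {h : E | ℓ (G (y + h)) - ℓ (G (x + h)) ≤ ‖v‖} := by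
    have hGc := hG.continuous
    apply isClosed_le
    · fun_prop
    · fun_prop
  have hsub : W ⊆ {h : E | ℓ (G (y + h)) - ℓ (G (x + h)) ≤ ‖v‖} := by
    refine (hdense.open_subset_closure_inter hW).trans ?_
    apply closure_minimal _ hcl
    rintro h ⟨hW1, hW2⟩
    exact hW2 hW1.1 hW1.2
  have h4 := hsub h0W
  have h4' : ℓ (G (y + 0)) - ℓ (G (x + 0)) ≤ ‖v‖ := h4
  rw [add_zero, add_zero, ← map_sub, hℓ2] at h4'
  exact h4'

end Lip

section LA

theorem hs_det {n : ℕ} (A : EuclideanSpace ℝ (Fin n) →L[ℝ] EuclideanSpace ℝ (Fin n))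
    (h : ∑ j, ‖A (EuclideanSpace.single j 1)‖ ^ 2 ≤ n) :
    |A.det| ≤ 1 ∧ (|A.det| = 1 → ∀ v, ‖A v‖ = ‖v‖) := by
  classical
  let M : Matrix (Fin n) (Fin n) ℝ := Matrix.of fun i j => A (EuclideanSpace.single j 1) i
  have hMv : ∀ v i, A v i = (M *ᵥ v.ofLp) i := by
    intro v i
    have h1 : v = ∑ j, v j • EuclideanSpace.single j (1 : ℝ) := by
      ext i
      simp [Pi.single_apply, Finset.sum_apply]
    conv_lhs => rw [h1]
    rw [_root_.map_sum]
    simp only [map_smul]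
    simp [M, Matrix.mulVec, dotProduct, Finset.sum_apply, mul_comm]
  have hdet : A.det = M.det := by
    have h1 : (A : EuclideanSpace ℝ (Fin n) →ₗ[ℝ] EuclideanSpace ℝ (Fin n)) = Matrix.toEuclideanLin M := by
      ext v i
      simp [hMv, Matrix.toEuclideanLin]
    rw [ContinuousLinearMap.det, h1, Matrix.toEuclideanLin_eq_toLin_orthonormal, LinearMap.det_toLin]
  have hPSD : (Mᵀ * M).PosSemidef := by
    have := Matrix.posSemidef_conjTranspose_mul_self M
    rwa [Matrix.conjTranspose_eq_transpose_of_trivial] at this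
  have htr : (Mᵀ * M).trace = ∑ j, ‖A (EuclideanSpace.single j 1)‖ ^ 2 := by
    rw [Matrix.trace]
    refine Finset.sum_congr rfl (fun j _ => ?_)
    rw [EuclideanSpace.norm_sq_eq, Matrix.diag_apply, Matrix.mul_apply]
    refine Finset.sum_congr rfl (fun i _ => ?_)
    rw [Matrix.transpose_apply, Real.norm_eq_abs, sq_abs, sq]
    rfl
  obtain ⟨h1, h2⟩ := psd_det_le hPSD (by rw [htr]; exact h)
  have hdd : (Mᵀ * M).det = A.det ^ 2 := by
    rw [Matrix.det_mul, Matrix.det_transpose, hdet]; ring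
  rw [hdd] at h1 h2
  constructor
  · exact abs_le_one_iff_mul_self_le_one.mpr (by nlinarith)
  · intro habs v
    have h3 : A.det ^ 2 = 1 := by rw [← sq_abs, habs, one_pow]
    have h4 := h2 h3
    have h5 : ‖A v‖ ^ 2 = ‖v‖ ^ 2 := by
      rw [EuclideanSpace.norm_sq_eq, EuclideanSpace.norm_sq_eq]
      have e1 : ∑ i, ‖A v i‖ ^ 2 = (M *ᵥ v.ofLp) ⬝ᵥ (M *ᵥ v.ofLp) := by
        simp only [dotProduct]
        refine Finset.sum_congr rfl (fun i _ => ?_)
        rw [hMv, Real.norm_eq_abs, sq_abs, sq]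
      have e2 : ∑ i, ‖v i‖ ^ 2 = v.ofLp ⬝ᵥ v.ofLp := by
        simp only [dotProduct]
        refine Finset.sum_congr rfl (fun i _ => ?_)
        rw [Real.norm_eq_abs, sq_abs, sq]
      rw [e1, e2]
      rw [Matrix.dotProduct_mulVec, ← Matrix.mulVec_transpose, Matrix.mulVec_mulVec, h4,
        Matrix.one_mulVec]
    exact (sq_eq_sq₀ (norm_nonneg _) (norm_nonneg _)).mp h5

end LA

end Crest.Agent.R074
end

-- ▼ part R074/FDMain
section

/-!
Row 74 (S0099), finite-dimensional case, part 6: Tingley's problem in finite dimension.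
-/

set_option autoImplicit false

namespace Crest.Agent.R074

open MeasureTheory MeasureTheory.Measure Metric Set Module Filter
open scoped NNReal ENNReal Topology

section Main

variable {X Y : Type*} [NormedAddCommGroup X] [NormedSpace ℝ X] [NormedAddCommGroup Y]
  [NormedSpace ℝ Y]

/-- the data produced by `john` -/
structure JohnData (X : Type*) [NormedAddCommGroup X] [NormedSpace ℝ X] (n : ℕ) where
  φ : X ≃L[ℝ] EuclideanSpace ℝ (Fin n)
  ι : Type
  fin : Fintype ι
  c : ι → ℝ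
  k : ι → X →L[ℝ] ℝ
  c_nonneg : ∀ i, 0 ≤ c i
  c_sum : ∑ i, c i = 1
  k_norm : ∀ i, ‖k i‖ ≤ 1
  inner_eq : ∀ x y, inner ℝ (φ x) (φ y) = ∑ i, c i * (k i x * k i y)
  dual_le : ∀ w : X →L[ℝ] ℝ, ‖w‖ ≤ 1 →
        ∑ j, (w (φ.symm (EuclideanSpace.single j 1))) ^ 2 ≤ n

attribute [instance] JohnData.fin

theorem nonempty_johnData [FiniteDimensional ℝ X] {n : ℕ} (hn : finrank ℝ X = n) (hn0 : 0 < n) :
    Nonempty (JohnData X n) := by
  obtain ⟨φ, ι, hι, c, k, h1, h2, h3, h4, h5⟩ := john (X := X) hn hn0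
  exact ⟨⟨φ, ι, hι, c, k, h1, h2, h3, h4, h5⟩⟩

/-- McShane extension in John coordinates. -/
theorem exists_G [FiniteDimensional ℝ X] {n : ℕ} {f : X → Y} {g : Y → X} (h : SI f g)
    (a : JohnData X n) (b : JohnData Y n) :
    ∃ (K : ℝ≥0) (G : EuclideanSpace ℝ (Fin n) → EuclideanSpace ℝ (Fin n)), LipschitzWith K G ∧
      (∀ x, ‖x‖ = 1 → G (a.φ x) = b.φ (f x)) ∧
      (∀ᵐ z ∂(volume : Measure (EuclideanSpace ℝ (Fin n))),
        DifferentiableAt ℝ G z ∧ ∑ j, ‖fderiv ℝ G z (EuclideanSpace.single j 1)‖ ^ 2 ≤ n) := by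
  classical
  -- real-valued extensions
  have hF : ∀ i : b.ι, ∃ F : X → ℝ, LipschitzWith 1 F ∧
      EqOn (fun x => b.k i (f x)) F (sphere 0 1) := by
    intro i
    apply LipschitzOnWith.extend_real
    refine LipschitzOnWith.of_dist_le_mul (fun x hx y hy => ?_)
    rw [dist_eq_norm, ← map_sub, dist_eq_norm]
    have h1 := (b.k i).le_opNorm (f x - f y)
    rw [h.dist x y (by simpa using hx) (by simpa using hy)] at h1
    have h2 := mul_le_mul_of_nonneg_right (b.k_norm i) (norm_nonneg (x - y))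
    simp only [NNReal.coe_one]
    linarith
  choose F hFL hFf using hF
  -- Riesz vectors
  let r : b.ι → EuclideanSpace ℝ (Fin n) := fun i =>
    (InnerProductSpace.toDual ℝ (EuclideanSpace ℝ (Fin n))).symm
      ((b.k i).comp (b.φ.symm : EuclideanSpace ℝ (Fin n) →L[ℝ] Y))
  have hr : ∀ i y, inner ℝ (r i) (b.φ y) = b.k i y := by
    intro i y
    show inner ℝ ((InnerProductSpace.toDual ℝ (EuclideanSpace ℝ (Fin n))).symm
      ((b.k i).comp (b.φ.symm : EuclideanSpace ℝ (Fin n) →L[ℝ] Y))) (b.φ y) = _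
    rw [InnerProductSpace.toDual_symm_apply]
    simp
  let L : (b.ι → ℝ) →L[ℝ] EuclideanSpace ℝ (Fin n) :=
    ∑ i, (ContinuousLinearMap.proj (R := ℝ) (φ := fun _ : b.ι => ℝ) i).smulRight (b.c i • r i)
  have hL : ∀ u, L u = ∑ i, (b.c i * u i) • r i := by
    intro u
    simp only [L, _root_.sum_apply, ContinuousLinearMap.smulRight_apply,
      ContinuousLinearMap.proj_apply, smul_smul]
    exact Finset.sum_congr rfl (fun i _ => by rw [mul_comm])
  let P : EuclideanSpace ℝ (Fin n) → (b.ι → ℝ) := fun z i => F i (a.φ.symm z)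
  have hPL : LipschitzWith ‖(a.φ.symm : EuclideanSpace ℝ (Fin n) →L[ℝ] X)‖₊ P := by
    refine LipschitzWith.of_dist_le_mul (fun z z' => ?_)
    rw [dist_pi_le_iff (by positivity)]
    intro i
    have h1 := (hFL i).dist_le_mul (a.φ.symm z) (a.φ.symm z')
    have h2 := (a.φ.symm : EuclideanSpace ℝ (Fin n) →L[ℝ] X).lipschitz.dist_le_mul z z'
    simp only [NNReal.coe_one, one_mul] at h1
    exact h1.trans h2
  let G : EuclideanSpace ℝ (Fin n) → EuclideanSpace ℝ (Fin n) := fun z => L (P z)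
  have hGL := L.lipschitz.comp hPL
  refine ⟨_, G, hGL, ?_, ?_⟩
  · intro x hx
    have h1 : ∀ i, P (a.φ x) i = b.k i (f x) := by
      intro i
      show F i (a.φ.symm (a.φ x)) = _
      rw [a.φ.symm_apply_apply]
      exact (hFf i (by simpa using hx)).symm
    show L (P (a.φ x)) = _
    rw [hL]
    have h2 : ∀ y, inner ℝ (∑ i, (b.c i * P (a.φ x) i) • r i) (b.φ y) =
        inner ℝ (b.φ (f x)) (b.φ y) := by
      intro y
      rw [sum_inner, b.inner_eq]
      refine Finset.sum_congr rfl (fun i _ => ?_)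
      rw [real_inner_smul_left, hr, h1]
      ring
    refine ext_inner_right ℝ (fun v => ?_)
    have h3 := h2 (b.φ.symm v)
    rwa [b.φ.apply_symm_apply] at h3
  · have hae : ∀ᵐ z ∂(volume : Measure (EuclideanSpace ℝ (Fin n))), DifferentiableAt ℝ P z :=
      hPL.ae_differentiableAt
    filter_upwards [hae] with z hz
    have hGd : HasFDerivAt G (L.comp (fderiv ℝ P z)) z := L.hasFDerivAt.comp z hz.hasFDerivAt
    refine ⟨hGd.differentiableAt, ?_⟩
    rw [hGd.fderiv]
    -- derivatives of the pieces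
    let w : b.ι → X →L[ℝ] ℝ := fun i =>
      ((ContinuousLinearMap.proj (R := ℝ) (φ := fun _ : b.ι => ℝ) i).comp (fderiv ℝ P z)).comp
        (a.φ : X →L[ℝ] EuclideanSpace ℝ (Fin n))
    have hw : ∀ i, ‖w i‖ ≤ 1 := by
      intro i
      have h1 : HasFDerivAt (F i) (w i) (a.φ.symm z) := by
        have h2 : HasFDerivAt (fun z => P z i)
            ((ContinuousLinearMap.proj (R := ℝ) (φ := fun _ : b.ι => ℝ) i).comp (fderiv ℝ P z)) z :=
          (ContinuousLinearMap.proj (R := ℝ) (φ := fun _ : b.ι => ℝ) i).hasFDerivAt.comp z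
            hz.hasFDerivAt
        have h3 : HasFDerivAt (fun x => P (a.φ x) i) (w i) (a.φ.symm z) := by
          have h4 : HasFDerivAt (fun z => P z i)
            ((ContinuousLinearMap.proj (R := ℝ) (φ := fun _ : b.ι => ℝ) i).comp (fderiv ℝ P z))
              (a.φ (a.φ.symm z)) := by rwa [a.φ.apply_symm_apply]
          exact h4.comp (a.φ.symm z) a.φ.hasFDerivAt
        have h5 : (fun x => P (a.φ x) i) = F i := by
          funext x
          show F i (a.φ.symm (a.φ x)) = _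
          rw [a.φ.symm_apply_apply]
        rwa [h5] at h3
      have h6 := h1.le_of_lipschitz (hFL i)
      simpa using h6
    have hwD : ∀ i v, fderiv ℝ P z v i = w i (a.φ.symm v) := by
      intro i v
      simp [w]
    have hpt : ∀ v, ‖L (fderiv ℝ P z v)‖ ^ 2 ≤ ∑ i, b.c i * (w i (a.φ.symm v)) ^ 2 := by
      intro v
      set u := b.φ.symm (L (fderiv ℝ P z v)) with hu
      have hu' : b.φ u = L (fderiv ℝ P z v) := by rw [hu, b.φ.apply_symm_apply]
      have e1 : ‖L (fderiv ℝ P z v)‖ ^ 2 = ∑ i, b.c i * (w i (a.φ.symm v) * b.k i u) := by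
        rw [← real_inner_self_eq_norm_sq]
        conv_lhs => rw [← hu']
        rw [hu', hL, ← hL, ← hu']
        conv_lhs => enter [2]; rw [hu', hL]
        rw [sum_inner]
        refine Finset.sum_congr rfl (fun i _ => ?_)
        rw [real_inner_smul_left, hr, hwD]
        ring
      have e2 : ‖L (fderiv ℝ P z v)‖ ^ 2 = ∑ i, b.c i * (b.k i u * b.k i u) := by
        rw [← real_inner_self_eq_norm_sq, ← hu', b.inner_eq]
      have e3 : ∑ i, b.c i * (w i (a.φ.symm v) * b.k i u) ≤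
          ∑ i, (b.c i * (w i (a.φ.symm v)) ^ 2 / 2 + b.c i * (b.k i u * b.k i u) / 2) := by
        refine Finset.sum_le_sum (fun i _ => ?_)
        have := b.c_nonneg i
        nlinarith [sq_nonneg (w i (a.φ.symm v) - b.k i u),
          mul_nonneg this (sq_nonneg (w i (a.φ.symm v) - b.k i u))]
      rw [Finset.sum_add_distrib, ← Finset.sum_div, ← Finset.sum_div, ← e2, ← e1] at e3
      linarith
    calc ∑ j, ‖(L.comp (fderiv ℝ P z)) (EuclideanSpace.single j 1)‖ ^ 2
        ≤ ∑ j, ∑ i, b.c i * (w i (a.φ.symm (EuclideanSpace.single j 1))) ^ 2 :=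
          Finset.sum_le_sum (fun j _ => hpt _)
      _ = ∑ i, b.c i * ∑ j, (w i (a.φ.symm (EuclideanSpace.single j 1))) ^ 2 := by
          rw [Finset.sum_comm]
          simp_rw [Finset.mul_sum]
      _ ≤ ∑ i, b.c i * n :=
          Finset.sum_le_sum (fun i _ => mul_le_mul_of_nonneg_left (a.dual_le _ (hw i)) (b.c_nonneg i))
      _ = n := by rw [← Finset.sum_mul, b.c_sum, one_mul]

theorem volume_le [FiniteDimensional ℝ X] [Nontrivial X] {n : ℕ} {f : X → Y} {g : Y → X}
    (h : SI f g) (a : JohnData X n) (b : JohnData Y n) {K : ℝ≥0}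
    {G : EuclideanSpace ℝ (Fin n) → EuclideanSpace ℝ (Fin n)} (hG : LipschitzWith K G)
    (hGf : ∀ x, ‖x‖ = 1 → G (a.φ x) = b.φ (f x)) :
    (volume : Measure (EuclideanSpace ℝ (Fin n))) (b.φ '' closedBall 0 1) ≤
      ∫⁻ z in a.φ '' closedBall 0 1, ENNReal.ofReal |(fderiv ℝ G z).det| := by
  have hmeas : MeasurableSet (a.φ '' closedBall (0 : X) 1) :=
    ((isCompact_closedBall (0 : X) 1).image a.φ.continuous).isClosed.measurableSet
  refine le_trans (measure_mono ?_) (area_le volume hG hmeas)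
  have hL : LipschitzWith (‖(b.φ.symm : EuclideanSpace ℝ (Fin n) →L[ℝ] Y)‖₊ *
      (K * ‖(a.φ : X →L[ℝ] EuclideanSpace ℝ (Fin n))‖₊)) (fun x => b.φ.symm (G (a.φ x))) :=
    (b.φ.symm : EuclideanSpace ℝ (Fin n) →L[ℝ] Y).lipschitz.comp
      (hG.comp (a.φ : X →L[ℝ] EuclideanSpace ℝ (Fin n)).lipschitz)
  have hc := cover h (G := fun x => b.φ.symm (G (a.φ x))) hL.lipschitzOnWith
    (fun x hx => by simp only [hGf x hx, ContinuousLinearEquiv.symm_apply_apply])
  rintro _ ⟨y, hy, rfl⟩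
  obtain ⟨x, hx, hxy⟩ := hc hy
  refine ⟨a.φ x, ⟨x, hx, rfl⟩, ?_⟩
  rw [← hxy]
  simp

theorem volume_le' [FiniteDimensional ℝ X] [Nontrivial X] {n : ℕ} {f : X → Y} {g : Y → X}
    (h : SI f g) (a : JohnData X n) (b : JohnData Y n) :
    (volume : Measure (EuclideanSpace ℝ (Fin n))) (b.φ '' closedBall 0 1) ≤
      (volume : Measure (EuclideanSpace ℝ (Fin n))) (a.φ '' closedBall 0 1) := by
  obtain ⟨K, G, hG, hGf, hae⟩ := exists_G h a b
  refine (volume_le h a b hG hGf).trans ?_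
  have h1 : ∫⁻ z in a.φ '' closedBall 0 1, ENNReal.ofReal |(fderiv ℝ G z).det| ≤
      ∫⁻ z in a.φ '' closedBall (0 : X) 1, 1 := by
    apply lintegral_mono_ae
    filter_upwards [ae_restrict_of_ae hae] with z hz
    rw [← ENNReal.ofReal_one]
    exact ENNReal.ofReal_le_ofReal (hs_det _ hz.2).1
  refine h1.trans ?_
  simp

theorem euclid_le [FiniteDimensional ℝ X] [Nontrivial X] {n : ℕ} {f : X → Y} {g : Y → X}
    (h : SI f g) (a : JohnData X n) (b : JohnData Y n) {x x' : X} (hx : ‖x‖ = 1) (hx' : ‖x'‖ = 1) :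
    ‖b.φ (f x) - b.φ (f x')‖ ≤ ‖a.φ x - a.φ x'‖ := by
  have := h.finiteDimensional
  have := h.nontrivial
  obtain ⟨K, G, hG, hGf, hae⟩ := exists_G h a b
  have hcompact : IsCompact (a.φ '' closedBall (0 : X) 1) :=
    (isCompact_closedBall (0 : X) 1).image a.φ.continuous
  have hmeas : MeasurableSet (a.φ '' closedBall (0 : X) 1) := hcompact.isClosed.measurableSet
  have hvol : (volume : Measure (EuclideanSpace ℝ (Fin n))) (a.φ '' closedBall 0 1) ≤
      ∫⁻ z in a.φ '' closedBall 0 1, ENNReal.ofReal |(fderiv ℝ G z).det| :=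
    (volume_le' h.symm b a).trans (volume_le h a b hG hGf)
  have hone : ∀ᵐ z ∂((volume : Measure (EuclideanSpace ℝ (Fin n))).restrict
      (a.φ '' closedBall 0 1)), ENNReal.ofReal |(fderiv ℝ G z).det| ≤ 1 := by
    filter_upwards [ae_restrict_of_ae hae] with z hz
    rw [← ENNReal.ofReal_one]
    exact ENNReal.ofReal_le_ofReal (hs_det _ hz.2).1
  have heq : (fun z => ENNReal.ofReal |(fderiv ℝ G z).det|)
      =ᵐ[(volume : Measure (EuclideanSpace ℝ (Fin n))).restrict (a.φ '' closedBall 0 1)]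
      (fun _ => (1 : ℝ≥0∞)) := by
    refine ae_eq_of_ae_le_of_lintegral_le hone ?_ aemeasurable_const ?_
    · have h1 : ∫⁻ z in a.φ '' closedBall 0 1, ENNReal.ofReal |(fderiv ℝ G z).det| ≤
          ∫⁻ z in a.φ '' closedBall (0 : X) 1, 1 := lintegral_mono_ae hone
      refine ne_top_of_le_ne_top ?_ h1
      simp only [lintegral_const, MeasurableSet.univ, Measure.restrict_apply, univ_inter, one_mul]
      exact hcompact.measure_ne_top
    · simpa using hvol
  have hiso : ∀ᵐ z ∂(volume : Measure (EuclideanSpace ℝ (Fin n))), z ∈ a.φ '' ball (0 : X) 1 →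
      DifferentiableAt ℝ G z ∧ ‖fderiv ℝ G z‖ ≤ 1 := by
    rw [Filter.EventuallyEq, ae_restrict_iff' hmeas] at heq
    filter_upwards [heq, hae] with z hz1 hz2 hzU
    refine ⟨hz2.1, ?_⟩
    have hzB : z ∈ a.φ '' closedBall (0 : X) 1 := image_mono ball_subset_closedBall hzU
    have h1 := hz1 hzB
    rw [ENNReal.ofReal_eq_one] at h1
    have h2 := (hs_det _ hz2.2).2 h1
    refine ContinuousLinearMap.opNorm_le_bound _ zero_le_one (fun v => ?_)
    rw [h2 v, one_mul]
  have hopen : IsOpen (a.φ '' ball (0 : X) 1) :=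
    a.φ.toHomeomorph.isOpenMap _ isOpen_ball
  have hconv : Convex ℝ (a.φ '' ball (0 : X) 1) :=
    (convex_ball (0 : X) 1).linear_image (a.φ : X →ₗ[ℝ] EuclideanSpace ℝ (Fin n))
  have hin : ∀ u u' : X, ‖u‖ < 1 → ‖u'‖ < 1 → ‖G (a.φ u) - G (a.φ u')‖ ≤ ‖a.φ u - a.φ u'‖ := by
    intro u u' hu hu'
    exact norm_sub_le_of_ae_fderiv volume hG hopen hconv hiso ⟨u', by simpa using hu', rfl⟩
      ⟨u, by simpa using hu, rfl⟩
  rw [← hGf x hx, ← hGf x' hx']
  -- limit from the inside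
  have ht : Tendsto (fun m : ℕ => (1 - 1 / ((m : ℝ) + 1))) atTop (𝓝 1) := by
    have := (tendsto_one_div_add_atTop_nhds_zero_nat (𝕜 := ℝ)).const_sub 1
    simpa using this
  have hGc := hG.continuous
  have hφc := a.φ.continuous
  have l1 : Tendsto (fun m : ℕ => ‖G (a.φ ((1 - 1 / ((m : ℝ) + 1)) • x)) -
      G (a.φ ((1 - 1 / ((m : ℝ) + 1)) • x'))‖) atTop (𝓝 ‖G (a.φ x) - G (a.φ x')‖) := by
    have hc : Continuous (fun t : ℝ => ‖G (a.φ (t • x)) - G (a.φ (t • x'))‖) := by fun_prop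
    have := (hc.tendsto 1).comp ht
    simp only [one_smul] at this
    exact this
  have l2 : Tendsto (fun m : ℕ => ‖a.φ ((1 - 1 / ((m : ℝ) + 1)) • x) -
      a.φ ((1 - 1 / ((m : ℝ) + 1)) • x')‖) atTop (𝓝 ‖a.φ x - a.φ x'‖) := by
    have hc : Continuous (fun t : ℝ => ‖a.φ (t • x) - a.φ (t • x')‖) := by fun_prop
    have := (hc.tendsto 1).comp ht
    simp only [one_smul] at this
    exact this
  refine le_of_tendsto_of_tendsto' l1 l2 (fun m => ?_)
  have hm : ∀ z : X, ‖z‖ = 1 → ‖(1 - 1 / ((m : ℝ) + 1)) • z‖ < 1 := by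
    intro z hz
    have h1 : (0 : ℝ) < 1 / ((m : ℝ) + 1) := by positivity
    have h2 : 1 / ((m : ℝ) + 1) ≤ 1 := by
      rw [div_le_one (by positivity)]
      have : (0 : ℝ) ≤ m := by positivity
      linarith
    rw [norm_smul, hz, mul_one, Real.norm_of_nonneg (by linarith)]
    linarith
  exact hin _ _ (hm x hx) (hm x' hx')

/-- **Tingley's problem in finite dimension.** -/
theorem tingley_findim [FiniteDimensional ℝ X] [Nontrivial X] {f : X → Y} {g : Y → X}
    (h : SI f g) : ∃ T : X ≃ₗᵢ[ℝ] Y, ∀ x, ‖x‖ = 1 → T x = f x := by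
  have hfY := h.finiteDimensional
  have hnY := h.nontrivial
  have hsX : TopologicalSpace.SeparableSpace X := inferInstance
  have hsY : TopologicalSpace.SeparableSpace Y := inferInstance
  have hcX : CompleteSpace X := FiniteDimensional.complete ℝ X
  have hn0 : 0 < finrank ℝ X := finrank_pos
  obtain ⟨a⟩ := nonempty_johnData (X := X) rfl hn0
  obtain ⟨b⟩ := nonempty_johnData (X := Y) h.finrank_eq.symm hn0
  have hodd : ∀ x, ‖x‖ = 1 → f (-x) = -f x := fun x hx => h.odd hx
  have hdist : ∀ x x', ‖x‖ = 1 → ‖x'‖ = 1 → ‖b.φ (f x) - b.φ (f x')‖ = ‖a.φ x - a.φ x'‖ := by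
    intro x x' hx hx'
    refine le_antisymm (euclid_le h a b hx hx') ?_
    have h1 := euclid_le h.symm b a (h.map x hx) (h.map x' hx')
    rwa [h.left x hx, h.left x' hx'] at h1
  have hinner1 : ∀ x x', ‖x‖ = 1 → ‖x'‖ = 1 →
      inner ℝ (b.φ (f x)) (b.φ (f x')) = inner ℝ (a.φ x) (a.φ x') := by
    intro x x' hx hx'
    have h1 := hdist x x' hx hx'
    have h2 := hdist x (-x') hx (by rw [norm_neg]; exact hx')
    rw [hodd x' hx', map_neg, map_neg, sub_neg_eq_add, sub_neg_eq_add] at h2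
    have p1 := real_inner_eq_norm_add_mul_self_sub_norm_mul_self_sub_norm_mul_self_div_two
      (b.φ (f x)) (b.φ (f x'))
    have p2 := real_inner_eq_norm_mul_self_add_norm_mul_self_sub_norm_sub_mul_self_div_two
      (b.φ (f x)) (b.φ (f x'))
    have q1 := real_inner_eq_norm_add_mul_self_sub_norm_mul_self_sub_norm_mul_self_div_two
      (a.φ x) (a.φ x')
    have q2 := real_inner_eq_norm_mul_self_add_norm_mul_self_sub_norm_sub_mul_self_div_two
      (a.φ x) (a.φ x')
    rw [h2] at p1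
    rw [h1] at p2
    linarith
  -- homogeneous extension
  let F : X → Y := fun x => ‖x‖ • f (‖x‖⁻¹ • x)
  have hF0 : F 0 = 0 := by simp [F]
  have hunit : ∀ x : X, x ≠ 0 → ‖‖x‖⁻¹ • x‖ = 1 := by
    intro x hx
    rw [norm_smul, norm_inv, norm_norm, inv_mul_cancel₀ (norm_ne_zero_iff.mpr hx)]
  have hunitY : ∀ x : Y, x ≠ 0 → ‖‖x‖⁻¹ • x‖ = 1 := by
    intro x hx
    rw [norm_smul, norm_inv, norm_norm, inv_mul_cancel₀ (norm_ne_zero_iff.mpr hx)]
  have hinner : ∀ x x', inner ℝ (b.φ (F x)) (b.φ (F x')) = inner ℝ (a.φ x) (a.φ x') := by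
    intro x x'
    rcases eq_or_ne x 0 with rfl | hx
    · rw [hF0]; simp
    rcases eq_or_ne x' 0 with rfl | hx'
    · rw [hF0]; simp
    show inner ℝ (b.φ (‖x‖ • f (‖x‖⁻¹ • x))) (b.φ (‖x'‖ • f (‖x'‖⁻¹ • x'))) = _
    rw [map_smul, map_smul, real_inner_smul_left, real_inner_smul_right,
      hinner1 _ _ (hunit x hx) (hunit x' hx'), map_smul, map_smul, real_inner_smul_left,
      real_inner_smul_right]
    have h1 : ‖x‖ ≠ 0 := norm_ne_zero_iff.mpr hx
    have h2 : ‖x'‖ ≠ 0 := norm_ne_zero_iff.mpr hx'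
    field_simp
  have hzero : ∀ y : Y, inner ℝ (b.φ y) (b.φ y) = (0 : ℝ) → y = 0 := by
    intro y hy
    have := inner_self_eq_zero.mp hy
    exact b.φ.map_eq_zero_iff.mp this
  have hadd : ∀ x x', F (x + x') = F x + F x' := by
    intro x x'
    have h1 : F (x + x') - F x - F x' = 0 := by
      apply hzero
      simp only [map_sub, inner_sub_left, inner_sub_right, hinner, map_add, inner_add_left,
        inner_add_right]
      ring
    have h2 : F (x + x') = F x + F x' := by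
      rw [sub_sub, sub_eq_zero] at h1
      exact h1
    exact h2
  have hsmul : ∀ (t : ℝ) x, F (t • x) = t • F x := by
    intro t x
    have h1 : F (t • x) - t • F x = 0 := by
      apply hzero
      simp only [map_sub, map_smul, inner_sub_left, inner_sub_right, real_inner_smul_left,
        real_inner_smul_right, hinner]
      ring
    rwa [sub_eq_zero] at h1
  have hFs : ∀ x, ‖x‖ = 1 → F x = f x := by
    intro x hx
    simp [F, hx]
  have hFn : ∀ x, ‖F x‖ = ‖x‖ := by
    intro x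
    rcases eq_or_ne x 0 with rfl | hx
    · rw [hF0, norm_zero, norm_zero]
    · show ‖‖x‖ • f (‖x‖⁻¹ • x)‖ = _
      rw [norm_smul, norm_norm, h.map _ (hunit x hx), mul_one]
  let Fl : X →ₗ[ℝ] Y := { toFun := F, map_add' := hadd, map_smul' := hsmul }
  let Fi : X →ₗᵢ[ℝ] Y := { Fl with norm_map' := hFn }
  have hsurj : Function.Surjective Fi := by
    intro y
    rcases eq_or_ne y 0 with rfl | hy
    · exact ⟨0, map_zero Fi⟩
    · refine ⟨‖y‖ • g (‖y‖⁻¹ • y), ?_⟩
      rw [map_smul]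
      have h1 : Fi (g (‖y‖⁻¹ • y)) = f (g (‖y‖⁻¹ • y)) := hFs _ (h.imap _ (hunitY y hy))
      rw [h1, h.right _ (hunitY y hy), smul_smul, mul_inv_cancel₀ (norm_ne_zero_iff.mpr hy),
        one_smul]
  refine ⟨LinearIsometryEquiv.ofSurjective Fi hsurj, ?_⟩
  intro x hx
  rw [LinearIsometryEquiv.coe_ofSurjective]
  exact hFs x hx

end Main

end Crest.Agent.R074
end

-- ▼ part R074/FarA
section

/-!
Row 74 (S0099): normalisation, exactification of approximate unit sums (Lemma AH), and the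
approximate version of (H).
-/

set_option autoImplicit false

namespace Crest.Agent.R074

open Metric Set Filter Topology

namespace Far

section Norm

variable {X : Type*} [NormedAddCommGroup X] [NormedSpace ℝ X]

/-- radial projection on the unit sphere -/
noncomputable def nu (x : X) : X := ‖x‖⁻¹ • x

theorem norm_nu {x : X} (hx : x ≠ 0) : ‖nu x‖ = 1 := by
  unfold nu
  rw [norm_smul, norm_inv, norm_norm, inv_mul_cancel₀ (norm_ne_zero_iff.mpr hx)]

theorem norm_sub_nu {x : X} (hx : x ≠ 0) : ‖x - nu x‖ = |‖x‖ - 1| := by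
  have hn : 0 < ‖x‖ := norm_pos_iff.mpr hx
  have e : x - nu x = (1 - ‖x‖⁻¹) • x := by unfold nu; rw [sub_smul, one_smul]
  rw [e, norm_smul, Real.norm_eq_abs]
  have e2 : ‖x‖ - 1 = (1 - ‖x‖⁻¹) * ‖x‖ := by
    rw [sub_mul, one_mul, inv_mul_cancel₀ hn.ne']
  rw [e2, abs_mul, abs_norm]

theorem nu_of_norm {x : X} (hx : ‖x‖ = 1) : nu x = x := by
  unfold nu; rw [hx]; simp

theorem continuousOn_nu : ContinuousOn (nu : X → X) {x | x ≠ 0} := by
  unfold nu
  exact (continuousOn_id.norm.inv₀ fun x hx => norm_ne_zero_iff.mpr hx).smul continuousOn_id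

theorem norm_comb_le {x y : X} {α β η : ℝ} (hx : ‖x‖ = 1) (hy : ‖y‖ = 1)
    (hxy : ‖x + y‖ ≤ 1 + η) (hα : 0 ≤ α) (hβ : 0 ≤ β) (hη : 0 ≤ η)
    (h1 : α * (1 + η) ≤ 1) (h2 : β * (1 + η) ≤ 1) : ‖α • x + β • y‖ ≤ 1 := by
  rcases le_total β α with h | h
  · have e : α • x + β • y = β • (x + y) + (α - β) • x := by module
    rw [e]
    refine (norm_add_le _ _).trans ?_
    rw [norm_smul, norm_smul, Real.norm_of_nonneg hβ, Real.norm_of_nonneg (sub_nonneg.mpr h), hx]
    nlinarith [mul_le_mul_of_nonneg_left hxy hβ, mul_le_mul_of_nonneg_right h hη]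
  · have e : α • x + β • y = α • (x + y) + (β - α) • y := by module
    rw [e]
    refine (norm_add_le _ _).trans ?_
    rw [norm_smul, norm_smul, Real.norm_of_nonneg hα, Real.norm_of_nonneg (sub_nonneg.mpr h), hy]
    nlinarith [mul_le_mul_of_nonneg_left hxy hα, mul_le_mul_of_nonneg_right h hη]

theorem le_norm_comb {x y : X} {α β η : ℝ} (hx : ‖x‖ = 1) (hy : ‖y‖ = 1)
    (hxy : 1 - η ≤ ‖x + y‖) (hα : 0 ≤ α) (hβ : 0 ≤ β)
    (h1 : 1 ≤ β - α * η) (h2 : 1 ≤ α - β * η) : 1 ≤ ‖α • x + β • y‖ := by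
  rcases le_total β α with h | h
  · have e : α • (x + y) = (α • x + β • y) + (α - β) • y := by module
    have h3 := norm_add_le (α • x + β • y) ((α - β) • y)
    rw [← e, norm_smul, norm_smul, Real.norm_of_nonneg hα,
      Real.norm_of_nonneg (sub_nonneg.mpr h), hy] at h3
    nlinarith [mul_le_mul_of_nonneg_left hxy hα]
  · have e : β • (x + y) = (α • x + β • y) + (β - α) • x := by module
    have h3 := norm_add_le (α • x + β • y) ((β - α) • x)
    rw [← e, norm_smul, norm_smul, Real.norm_of_nonneg hβ,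
      Real.norm_of_nonneg (sub_nonneg.mpr h), hx] at h3
    nlinarith [mul_le_mul_of_nonneg_left hxy hβ]

/-- common continuity part of the exactification -/
theorem exactify_aux {x y : X} (hx : ‖x‖ = 1) (hy : ‖y‖ = 1) {c s : ℝ} (hc : |c| ≤ 1)
    (hs1 : s < 1) :
    ContinuousOn (fun t : ℝ => ‖nu (x + (c * t) • y) + nu (y + (c * t) • x)‖) (Icc 0 s) := by
  have key : ∀ {a b : X}, ‖a‖ = 1 → ‖b‖ = 1 →
      ContinuousOn (fun t : ℝ => nu (a + (c * t) • b)) (Icc 0 s) := by
    intro a b ha hb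
    refine continuousOn_nu.comp (by fun_prop) ?_
    intro t ht h0'
    have h0 : a + (c * t) • b = 0 := h0'
    have h1 : ‖a‖ ≤ ‖a + (c * t) • b‖ + ‖(c * t) • b‖ := by
      have := norm_sub_le (a + (c * t) • b) ((c * t) • b)
      rwa [add_sub_cancel_right] at this
    rw [h0, norm_zero, norm_smul, hb, ha, Real.norm_eq_abs, abs_mul, abs_of_nonneg ht.1] at h1
    nlinarith [ht.2, mul_le_mul_of_nonneg_right hc ht.1]
  exact ((key hx hy).add (key hy hx)).norm

theorem norm_sub_nu_le {x y : X} (hx : ‖x‖ = 1) (hy : ‖y‖ = 1) {c : ℝ} (hc : |c| < 1) :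
    ‖x - nu (x + c • y)‖ ≤ 2 * |c| := by
  have hn : ‖c • y‖ = |c| := by rw [norm_smul, hy, mul_one, Real.norm_eq_abs]
  have h1 : |‖x + c • y‖ - 1| ≤ |c| := by
    rw [← hx, ← hn]
    have := abs_norm_sub_norm_le (x + c • y) x
    rwa [add_sub_cancel_left] at this
  have h0 : x + c • y ≠ 0 := by
    intro h0
    rw [h0, norm_zero] at h1
    norm_num at h1
    linarith
  have h2 : x - nu (x + c • y) = (x + c • y - nu (x + c • y)) - c • y := by abel
  rw [h2]
  refine (norm_sub_le _ _).trans ?_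
  rw [norm_sub_nu h0, hn]
  linarith

theorem real_aux1 {κ : ℝ} (hκ0 : 0 ≤ κ) (hκ8 : κ ≤ 1 / 8) {m m' : ℝ} (hm : 0 < m)
    (hm' : 0 < m') (h1 : 1 - 2 * κ * κ ≤ m) (h2 : m ≤ 1 + 2 * κ)
    (h3 : 1 - 2 * κ * κ ≤ m') (h4 : m' ≤ 1 + 2 * κ) :
    0 ≤ m⁻¹ + m'⁻¹ * -(2 * κ) ∧ (m⁻¹ + m'⁻¹ * -(2 * κ)) * (1 + κ) ≤ 1 := by
  have p1 : 0 < 1 + 2 * κ := by linarith
  have p2 : 0 < 1 - 2 * κ * κ := by nlinarith
  have e1 : (1 + 2 * κ)⁻¹ ≤ m⁻¹ := inv_anti₀ hm h2
  have e2 : m⁻¹ ≤ (1 - 2 * κ * κ)⁻¹ := inv_anti₀ p2 h1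
  have e3 : (1 + 2 * κ)⁻¹ ≤ m'⁻¹ := inv_anti₀ hm' h4
  have e4 : m'⁻¹ ≤ (1 - 2 * κ * κ)⁻¹ := inv_anti₀ p2 h3
  constructor
  · have e5 : (1 - 2 * κ * κ)⁻¹ * (2 * κ) ≤ (1 + 2 * κ)⁻¹ := by
      rw [inv_mul_le_iff₀ p2, ← div_eq_mul_inv, le_div_iff₀ p1]
      nlinarith
    nlinarith [mul_le_mul_of_nonneg_right e4 (by linarith : (0:ℝ) ≤ 2 * κ)]
  · have e6 : m⁻¹ + m'⁻¹ * -(2 * κ) ≤ (1 - 2 * κ * κ)⁻¹ - (1 + 2 * κ)⁻¹ * (2 * κ) := by
      nlinarith [mul_le_mul_of_nonneg_right e3 (by linarith : (0:ℝ) ≤ 2 * κ)]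
    have e7 : ((1 - 2 * κ * κ)⁻¹ - (1 + 2 * κ)⁻¹ * (2 * κ)) * (1 + κ) ≤ 1 := by
      have e8 : (1 - 2 * κ * κ)⁻¹ - (1 + 2 * κ)⁻¹ * (2 * κ) =
          (1 + 4 * κ ^ 3) / ((1 - 2 * κ * κ) * (1 + 2 * κ)) := by
        have q1 := p1.ne'
        have q2 := p2.ne'
        rw [eq_div_iff (mul_pos p2 p1).ne', sub_mul]
        have r1 : (1 - 2 * κ * κ)⁻¹ * ((1 - 2 * κ * κ) * (1 + 2 * κ)) = 1 + 2 * κ := by
          rw [← mul_assoc, inv_mul_cancel₀ q2, one_mul]
        have r2 : (1 + 2 * κ)⁻¹ * (2 * κ) * ((1 - 2 * κ * κ) * (1 + 2 * κ)) =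
            (2 * κ) * (1 - 2 * κ * κ) := by
          calc _ = ((1 + 2 * κ)⁻¹ * (1 + 2 * κ)) * ((2 * κ) * (1 - 2 * κ * κ)) := by ring
            _ = _ := by rw [inv_mul_cancel₀ q1, one_mul]
        rw [r1, r2]
        ring
      rw [e8, div_mul_eq_mul_div, div_le_one (mul_pos p2 p1)]
      nlinarith [mul_nonneg hκ0 hκ0, mul_nonneg (mul_nonneg hκ0 hκ0) hκ0,
        mul_nonneg (mul_nonneg hκ0 hκ0) (mul_nonneg hκ0 hκ0),
        mul_nonneg hκ0 (by linarith : (0:ℝ) ≤ 1 / 8 - κ),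
        mul_nonneg (mul_nonneg hκ0 hκ0) (by linarith : (0:ℝ) ≤ 1 / 8 - κ),
        mul_nonneg (mul_nonneg (mul_nonneg hκ0 hκ0) hκ0) (by linarith : (0:ℝ) ≤ 1 / 8 - κ)]
    exact (mul_le_mul_of_nonneg_right e6 (by linarith)).trans e7

theorem real_aux3 {κ : ℝ} (hκ0 : 0 ≤ κ) (hκ8 : κ ≤ 1 / 8) {m m' : ℝ} (hm : 0 < m)
    (hm' : 0 < m') (h2 : m ≤ 1) (h3 : 1 - 2 * κ ≤ m')
    (h1 : 1 - 2 * κ ≤ m) (h4 : m' ≤ 1) :
    1 ≤ (m⁻¹ + m'⁻¹ * (2 * κ)) - (m'⁻¹ + m⁻¹ * (2 * κ)) * κ := by
  have p2 : 0 < 1 - 2 * κ := by linarith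
  have e1 : 1 ≤ m⁻¹ := (one_le_inv₀ hm).mpr h2
  have e3 : 1 ≤ m'⁻¹ := (one_le_inv₀ hm').mpr h4
  have e : (m⁻¹ + m'⁻¹ * (2 * κ)) - (m'⁻¹ + m⁻¹ * (2 * κ)) * κ =
      m⁻¹ * (1 - 2 * κ * κ) + m'⁻¹ * κ := by ring
  rw [e]
  have e5 : 1 * (1 - 2 * κ * κ) ≤ m⁻¹ * (1 - 2 * κ * κ) :=
    mul_le_mul_of_nonneg_right e1 (by nlinarith)
  have e6 : 1 * κ ≤ m'⁻¹ * κ := mul_le_mul_of_nonneg_right e3 hκ0
  nlinarith

/-- **Lemma AH** (exactification) -/
theorem exactify {x y : X} {η : ℝ} (hx : ‖x‖ = 1) (hy : ‖y‖ = 1) (h : |‖x + y‖ - 1| ≤ η)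
    (hη : η ≤ 1 / 8) : ∃ x' y' : X, ‖x'‖ = 1 ∧ ‖y'‖ = 1 ∧ ‖x' + y'‖ = 1 ∧
      ‖x - x'‖ ≤ 4 * η ∧ ‖y - y'‖ ≤ 4 * η := by
  have hne : ∀ {a b : X} {c : ℝ}, ‖a‖ = 1 → ‖b‖ = 1 → |c| < 1 → a + c • b ≠ 0 := by
    intro a b c ha hb hc h0
    have h1 : ‖a‖ = ‖c • b‖ := by
      rw [← norm_neg (c • b)]
      congr 1
      exact eq_neg_of_add_eq_zero_left h0
    rw [ha, norm_smul, hb, mul_one, Real.norm_eq_abs] at h1
    linarith
  rw [abs_le] at h
  have hη0 : 0 ≤ η := by linarith [h.1, h.2]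
  -- the common end of the argument
  have fin : ∀ (c : ℝ) (κ : ℝ), |c| = 1 → 0 ≤ κ → κ ≤ η →
      (1 : ℝ) ∈ uIcc ‖nu (x + (c * 0) • y) + nu (y + (c * 0) • x)‖
        ‖nu (x + (c * (2 * κ)) • y) + nu (y + (c * (2 * κ)) • x)‖ →
      ∃ x' y' : X, ‖x'‖ = 1 ∧ ‖y'‖ = 1 ∧ ‖x' + y'‖ = 1 ∧
      ‖x - x'‖ ≤ 4 * η ∧ ‖y - y'‖ ≤ 4 * η := by
    intro c κ hc hκ0 hκ hmem
    have hcont := exactify_aux (c := c) hx hy hc.le (s := 2 * κ) (by linarith)
    have hivt := intermediate_value_uIcc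
      (f := fun t : ℝ => ‖nu (x + (c * t) • y) + nu (y + (c * t) • x)‖)
      (a := 0) (b := 2 * κ) (by rw [uIcc_of_le (by linarith)]; exact hcont)
    obtain ⟨t, ht, hval⟩ := hivt hmem
    rw [uIcc_of_le (by linarith)] at ht
    have hct : |c * t| ≤ 2 * η := by
      rw [abs_mul, hc, one_mul, abs_of_nonneg ht.1]; linarith [ht.2]
    have hct1 : |c * t| < 1 := by linarith
    refine ⟨_, _, norm_nu (hne hx hy hct1), norm_nu (hne hy hx hct1), hval, ?_, ?_⟩
    · exact (norm_sub_nu_le hx hy hct1).trans (by linarith)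
    · exact (norm_sub_nu_le hy hx hct1).trans (by linarith)
  have hnu : ∀ {a b : X} {c : ℝ}, nu (a + c • b) = (‖a + c • b‖)⁻¹ • (a + c • b) := fun {_ _ _} => rfl
  have hcomb : ∀ c : ℝ, nu (x + c • y) + nu (y + c • x) =
      (‖x + c • y‖⁻¹ + ‖y + c • x‖⁻¹ * c) • x + (‖y + c • x‖⁻¹ + ‖x + c • y‖⁻¹ * c) • y := by
    intro c
    unfold nu
    module
  rcases le_total 1 ‖x + y‖ with h1 | h1
  · -- the sum is too long: move apart
    set κ := ‖x + y‖ - 1 with hκ
    have hκ0 : 0 ≤ κ := by linarith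
    have hκη : κ ≤ η := h.2
    have hκ8 : κ ≤ 1 / 8 := by linarith
    refine fin (-1) κ (by norm_num) hκ0 hκη ?_
    rw [mem_uIcc]
    right
    constructor
    · -- value at `2κ` is at most one
      have hs : (-1 : ℝ) * (2 * κ) = -(2 * κ) := by ring
      rw [hs, hcomb]
      have hm : ∀ {a b : X}, ‖a‖ = 1 → ‖b‖ = 1 → ‖a + b‖ = 1 + κ →
          1 - 2 * κ * κ ≤ ‖a + (-(2 * κ)) • b‖ ∧ ‖a + (-(2 * κ)) • b‖ ≤ 1 + 2 * κ := by
        intro a b ha hb hab
        constructor
        · have e : (1 + 2 * κ) • a = (a + (-(2 * κ)) • b) + (2 * κ) • (a + b) := by module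
          have := norm_add_le (a + (-(2 * κ)) • b) ((2 * κ) • (a + b))
          rw [← e, norm_smul, norm_smul, Real.norm_of_nonneg (by linarith : (0:ℝ) ≤ 1 + 2 * κ),
            Real.norm_of_nonneg (by linarith : (0:ℝ) ≤ 2 * κ), ha, hab] at this
          nlinarith
        · refine (norm_add_le _ _).trans ?_
          rw [norm_smul, ha, hb, norm_neg, Real.norm_of_nonneg (by linarith : (0:ℝ) ≤ 2 * κ)]
          linarith
      obtain ⟨m1l, m1u⟩ := hm hx hy (by rw [hκ]; ring)
      obtain ⟨m2l, m2u⟩ := hm hy hx (by rw [add_comm y x, hκ]; ring)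
      set m1 := ‖x + (-(2 * κ)) • y‖
      set m2 := ‖y + (-(2 * κ)) • x‖
      have hm1 : 0 < m1 := by nlinarith
      have hm2 : 0 < m2 := by nlinarith
      have a1 := real_aux1 hκ0 hκ8 hm1 hm2 m1l m1u m2l m2u
      have a2 := real_aux1 hκ0 hκ8 hm2 hm1 m2l m2u m1l m1u
      exact norm_comb_le hx hy (η := κ) (by rw [hκ]; linarith) a1.1 a2.1 hκ0 a1.2 a2.2
    · rw [mul_zero, zero_smul, zero_smul, add_zero, add_zero, nu_of_norm hx, nu_of_norm hy]
      exact h1
  · -- the sum is too short: move together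
    set κ := 1 - ‖x + y‖ with hκ
    have hκ0 : 0 ≤ κ := by linarith
    have hκη : κ ≤ η := by linarith [h.1]
    have hκ8 : κ ≤ 1 / 8 := by linarith
    refine fin 1 κ (by norm_num) hκ0 hκη ?_
    rw [mem_uIcc]
    left
    constructor
    · rw [mul_zero, zero_smul, zero_smul, add_zero, add_zero, nu_of_norm hx, nu_of_norm hy]
      exact h1
    · rw [one_mul, hcomb]
      have hm : ∀ {a b : X}, ‖a‖ = 1 → ‖b‖ = 1 → ‖a + b‖ = 1 - κ →
          1 - 2 * κ ≤ ‖a + (2 * κ) • b‖ ∧ ‖a + (2 * κ) • b‖ ≤ 1 := by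
        intro a b ha hb hab
        constructor
        · have := norm_sub_le (a + (2 * κ) • b) ((2 * κ) • b)
          rw [add_sub_cancel_right, norm_smul, ha, hb,
            Real.norm_of_nonneg (by linarith : (0:ℝ) ≤ 2 * κ)] at this
          linarith
        · have e : a + (2 * κ) • b = (1 - 2 * κ) • a + (2 * κ) • (a + b) := by module
          rw [e]
          refine (norm_add_le _ _).trans ?_
          rw [norm_smul, norm_smul, Real.norm_of_nonneg (by linarith : (0:ℝ) ≤ 1 - 2 * κ),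
            Real.norm_of_nonneg (by linarith : (0:ℝ) ≤ 2 * κ), ha, hab]
          nlinarith
      obtain ⟨m1l, m1u⟩ := hm hx hy (by rw [hκ]; ring)
      obtain ⟨m2l, m2u⟩ := hm hy hx (by rw [add_comm y x, hκ]; ring)
      set m1 := ‖x + (2 * κ) • y‖
      set m2 := ‖y + (2 * κ) • x‖
      have hm1 : 0 < m1 := by linarith
      have hm2 : 0 < m2 := by linarith
      have p2 : 0 < 1 - 2 * κ := by linarith
      have a1 : 0 ≤ m1⁻¹ + m2⁻¹ * (2 * κ) := by positivity
      have a2 : 0 ≤ m2⁻¹ + m1⁻¹ * (2 * κ) := by positivity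
      exact le_norm_comb hx hy (η := κ) (by rw [hκ]; linarith) a1 a2
        (real_aux3 hκ0 hκ8 hm2 hm1 m2u m1l m2l m1u)
        (real_aux3 hκ0 hκ8 hm1 hm2 m1u m2l m1l m2u)

end Norm

section ApproxH

variable {X Y : Type*} [NormedAddCommGroup X] [NormedSpace ℝ X]
  [NormedAddCommGroup Y] [NormedSpace ℝ Y] {f : X → Y} {g : Y → X}

omit [NormedSpace ℝ X] in
theorem nu_near {x : X} {η : ℝ} (h : |‖x‖ - 1| ≤ η) (hη : η < 1) : x ≠ 0 := by
  intro h0
  rw [h0, norm_zero] at h
  norm_num at h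
  linarith

/-- approximate form of (H) -/
theorem approxH (h : SI f g)
    (hH : ∀ z w : X, ‖z‖ = 1 → ‖w‖ = 1 → ‖z + w‖ = 1 → f (z + w) = f z + f w)
    {x y : X} {η : ℝ} (hη : η ≤ 1 / 24) (hx : |‖x‖ - 1| ≤ η) (hy : |‖y‖ - 1| ≤ η)
    (hxy : |‖x + y‖ - 1| ≤ η) :
    ‖f (nu x) + f (nu y) - f (nu (x + y))‖ ≤ 60 * η := by
  have hη0 : 0 ≤ η := (abs_nonneg _).trans hx
  have hη1 : η < 1 := by linarith
  have hx0 := nu_near hx hη1
  have hy0 := nu_near hy hη1
  have hxy0 := nu_near hxy hη1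
  have dx : ‖x - nu x‖ ≤ η := by rw [norm_sub_nu hx0]; exact hx
  have dy : ‖y - nu y‖ ≤ η := by rw [norm_sub_nu hy0]; exact hy
  have dxy : ‖(x + y) - nu (x + y)‖ ≤ η := by rw [norm_sub_nu hxy0]; exact hxy
  have h1 : |‖nu x + nu y‖ - 1| ≤ 3 * η := by
    have e : nu x + nu y - (x + y) = -((x - nu x) + (y - nu y)) := by abel
    have h2 : |‖nu x + nu y‖ - ‖x + y‖| ≤ 2 * η := by
      refine (abs_norm_sub_norm_le _ _).trans ?_
      rw [e, norm_neg]
      exact (norm_add_le _ _).trans (by linarith)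
    rw [abs_le] at h2 hxy ⊢
    constructor <;> linarith [h2.1, h2.2, hxy.1, hxy.2]
  obtain ⟨x', y', hx', hy', hxy', d1, d2⟩ := exactify (norm_nu hx0) (norm_nu hy0) h1
    (by linarith)
  have e1 := hH x' y' hx' hy' hxy'
  have e2 : ‖f (nu x) - f x'‖ ≤ 12 * η := by
    rw [h.dist _ _ (norm_nu hx0) hx']; linarith
  have e3 : ‖f (nu y) - f y'‖ ≤ 12 * η := by
    rw [h.dist _ _ (norm_nu hy0) hy']; linarith
  have e4 : ‖f (x' + y') - f (nu (x + y))‖ ≤ 27 * η := by
    rw [h.dist _ _ hxy' (norm_nu hxy0)]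
    have e : x' + y' - nu (x + y) = -(nu x - x') + -(nu y - y') + -(x - nu x) + -(y - nu y) +
        ((x + y) - nu (x + y)) := by abel
    rw [e]
    refine (norm_add_le _ _).trans ?_
    have n1 := norm_add_le (-(nu x - x') + -(nu y - y') + -(x - nu x)) (-(y - nu y))
    have n2 := norm_add_le (-(nu x - x') + -(nu y - y')) (-(x - nu x))
    have n3 := norm_add_le (-(nu x - x')) (-(nu y - y'))
    simp only [norm_neg] at n1 n2 n3
    linarith
  have e5 : f (nu x) + f (nu y) - f (nu (x + y)) =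
      (f (nu x) - f x') + (f (nu y) - f y') + (f (x' + y') - f (nu (x + y))) := by
    rw [e1]; abel
  rw [e5]
  refine (norm_add_le _ _).trans ?_
  have n1 := norm_add_le (f (nu x) - f x') (f (nu y) - f y')
  linarith

end ApproxH

end Far

end Crest.Agent.R074
end

-- ▼ part R074/FarB
section

/-!
Row 74 (S0099): far planes.  In an infinite-dimensional normed space, for every compact set `K`
and every `ε > 0` there is a plane `W` such that `‖y + w‖` and `‖y - w‖` are `ε`-close for all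
`y ∈ K` and all `w ∈ W` with `‖w‖ ≤ 3` (two applications of Borsuk–Ulam).
-/

set_option autoImplicit false

namespace Crest.Agent.R074

open Metric Set Filter Topology

namespace Far

variable {X : Type*} [NormedAddCommGroup X] [NormedSpace ℝ X]

theorem nu_neg (x : X) : nu (-x) = -nu x := by
  unfold nu; rw [norm_neg, smul_neg]

/-- finitely many evenness conditions can be met exactly -/
theorem exists_even_vec {ι : Type*} [Fintype ι] (E : Submodule ℝ X) [FiniteDimensional ℝ E]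
    (hE : Fintype.card ι < Module.finrank ℝ E) (y : ι → X) (β : ι → ℝ) :
    ∃ v ∈ E, ‖v‖ = 1 ∧ ∀ i, ‖y i + β i • v‖ = ‖y i - β i • v‖ := by
  have hc : ContinuousOn (fun z : E => nu (z : X)) {x | x ≠ 0} :=
    continuousOn_nu.comp continuous_subtype_val.continuousOn (fun z hz => by
      simpa using hz)
  obtain ⟨z, hz, h0⟩ := Crest.Agent.Lib.BorsukUlam.exists_zero_of_odd (W := E) (E := ι → ℝ)
    (by simpa using hE)
    (fun z => fun i => ‖y i + β i • nu (z : X)‖ - ‖y i - β i • nu (z : X)‖)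
    (by
      rw [continuousOn_pi]
      intro i
      exact ((continuousOn_const.add (hc.const_smul (β i))).norm).sub
        ((continuousOn_const.sub (hc.const_smul (β i))).norm))
    (by
      intro x _
      funext i
      have e : nu (((-x : E)) : X) = -nu (x : X) := by
        rw [Submodule.coe_neg, nu_neg]
      show ‖y i + β i • nu (((-x : E)) : X)‖ - ‖y i - β i • nu (((-x : E)) : X)‖ =
        -(‖y i + β i • nu (x : X)‖ - ‖y i - β i • nu (x : X)‖)
      rw [e, smul_neg, sub_neg_eq_add, ← sub_eq_add_neg]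
      ring)
  refine ⟨nu (z : X), E.smul_mem _ z.2, norm_nu (by simpa using hz), fun i => ?_⟩
  have h1 : ‖y i + β i • nu (z : X)‖ - ‖y i - β i • nu (z : X)‖ = 0 := congrFun h0 i
  linarith

theorem exists_finrank_gt (hX : ¬ FiniteDimensional ℝ X) (n : ℕ) :
    ∃ E : Submodule ℝ X, FiniteDimensional ℝ E ∧ n < Module.finrank ℝ E := by
  have h1 : ((n + 1 : ℕ) : Cardinal) ≤ Module.rank ℝ X := by
    by_contra hcon
    push Not at hcon
    apply hX
    rw [FiniteDimensional, ← Module.rank_lt_aleph0_iff]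
    exact hcon.trans Cardinal.natCast_lt_aleph0
  obtain ⟨s, hs, hli⟩ := le_rank_iff_exists_linearIndependent_finset.mp h1
  refine ⟨Submodule.span ℝ (s : Set X), inferInstance, ?_⟩
  rw [finrank_span_finset_eq_card hli, hs]
  omega

omit [NormedSpace ℝ X] in
theorem abs_norm_diff_le {a a' b b' : X} {δ : ℝ} (h1 : ‖a - a'‖ ≤ δ) (h2 : ‖b - b'‖ ≤ δ)
    (h : ‖a'‖ = ‖b'‖) : |‖a‖ - ‖b‖| ≤ 2 * δ := by
  have h3 := abs_norm_sub_norm_le a a'
  have h4 := abs_norm_sub_norm_le b b'
  rw [abs_le] at h3 h4 ⊢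
  constructor <;> linarith [h3.1, h3.2, h4.1, h4.2]

/-- compactly many evenness conditions can be met up to `ε`, uniformly over `2`-Lipschitz
families of conditions. -/
theorem exists_even_bound {Z : Type*} [PseudoMetricSpace Z] {Q : Set Z} (hQ : IsCompact Q)
    {ε : ℝ} (hε : 0 < ε) : ∃ n : ℕ, ∀ (E : Submodule ℝ X) [FiniteDimensional ℝ E],
      n < Module.finrank ℝ E → ∀ (u : Z → X) (b : Z → ℝ),
      (∀ p q, ‖u p - u q‖ ≤ 2 * dist p q) → (∀ p q, |b p - b q| ≤ 2 * dist p q) →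
      ∃ v ∈ E, ‖v‖ = 1 ∧ ∀ p ∈ Q, |‖u p + b p • v‖ - ‖u p - b p • v‖| ≤ ε := by
  obtain ⟨t, -, ht, hcov⟩ := hQ.finite_cover_balls (show (0 : ℝ) < ε / 8 by positivity)
  refine ⟨ht.toFinset.card, fun E _ hE u b hu hb => ?_⟩
  obtain ⟨v, hvE, hv1, hv⟩ := exists_even_vec (ι := {x // x ∈ ht.toFinset}) E
    (by rw [Fintype.card_coe]; exact hE) (fun i => u i) (fun i => b i)
  refine ⟨v, hvE, hv1, fun p hp => ?_⟩
  obtain ⟨q, hq, hpq⟩ := mem_iUnion₂.mp (hcov hp)
  rw [mem_ball] at hpq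
  have h1 := hv ⟨q, by rw [Set.Finite.mem_toFinset]; exact hq⟩
  have h2 : ‖b p • v - b q • v‖ ≤ ε / 4 := by
    rw [← sub_smul, norm_smul, hv1, mul_one, Real.norm_eq_abs]
    have := hb p q
    linarith
  have h3 : ‖u p - u q‖ ≤ ε / 4 := by
    have := hu p q
    linarith
  have h4 := abs_norm_diff_le (a := u p + b p • v) (a' := u q + b q • v)
    (b := u p - b p • v) (b' := u q - b q • v) (δ := ε / 2)
    (by
      have e : u p + b p • v - (u q + b q • v) = (u p - u q) + (b p • v - b q • v) := by abel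
      rw [e]
      exact (norm_add_le _ _).trans (by linarith))
    (by
      have e : u p - b p • v - (u q - b q • v) = (u p - u q) - (b p • v - b q • v) := by abel
      rw [e]
      exact (norm_sub_le _ _).trans (by linarith)) h1
  linarith

/-- far plane, coordinate form -/
theorem exists_farPair (hX : ¬ FiniteDimensional ℝ X) {K : Set X} (hK : IsCompact K)
    (h0 : (0 : X) ∈ K) {ε : ℝ} (hε : 0 < ε) :
    ∃ v₁ v₂ : X, ∀ α β : ℝ, |α| ≤ 4 → |β| ≤ 4 →
      (|α| ≤ ‖α • v₁ + β • v₂‖ + ε ∧ |β| ≤ ‖α • v₁ + β • v₂‖ + ε) ∧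
      ∀ y ∈ K, |‖y + (α • v₁ + β • v₂)‖ - ‖y - (α • v₁ + β • v₂)‖| ≤ ε := by
  have hIcc : ∀ {α : ℝ}, |α| ≤ 4 → α ∈ Icc (-4 : ℝ) 4 := fun h => abs_le.mp h
  have hε2 : 0 < ε / 2 := by positivity
  obtain ⟨n2, hn2⟩ := exists_even_bound (X := X)
    (hK.prod ((isCompact_Icc (a := (-4 : ℝ)) (b := 4)).prod
      (isCompact_Icc (a := (-4 : ℝ)) (b := 4)))) hε2
  obtain ⟨E2, hE2, hrk2⟩ := exists_finrank_gt hX n2
  have hB : IsCompact ((fun z : E2 => (z : X)) '' closedBall (0 : E2) 4) :=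
    (isCompact_closedBall (0 : E2) 4).image continuous_subtype_val
  obtain ⟨n1, hn1⟩ := exists_even_bound (X := X)
    ((hK.add hB).prod (isCompact_Icc (a := (-4 : ℝ)) (b := 4))) hε2
  obtain ⟨E1, hE1, hrk1⟩ := exists_finrank_gt hX n1
  obtain ⟨v₁, -, hv1, he1⟩ := hn1 E1 hrk1 Prod.fst Prod.snd
    (fun p q => by
      have : dist p.1 q.1 ≤ dist p q := le_max_left _ _
      rw [dist_eq_norm] at this
      linarith [dist_nonneg (x := p) (y := q)])
    (fun p q => by
      have : dist p.2 q.2 ≤ dist p q := le_max_right _ _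
      rw [Real.dist_eq] at this
      linarith [dist_nonneg (x := p) (y := q)])
  obtain ⟨v₂, hv2E, hv2, he2⟩ := hn2 E2 hrk2 (fun p => p.1 + p.2.1 • v₁) (fun p => p.2.2)
    (fun p q => by
      have d1 : dist p.1 q.1 ≤ dist p q := le_max_left _ _
      have d2 : dist p.2.1 q.2.1 ≤ dist p q :=
        (le_max_left _ _ : dist p.2.1 q.2.1 ≤ dist p.2 q.2).trans (le_max_right _ _)
      rw [dist_eq_norm] at d1
      rw [Real.dist_eq] at d2
      have e : p.1 + p.2.1 • v₁ - (q.1 + q.2.1 • v₁) = (p.1 - q.1) + (p.2.1 - q.2.1) • v₁ := by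
        rw [sub_smul]; abel
      rw [e]
      refine (norm_add_le _ _).trans ?_
      rw [norm_smul, hv1, mul_one, Real.norm_eq_abs]
      linarith)
    (fun p q => by
      have d2 : dist p.2.2 q.2.2 ≤ dist p q :=
        (le_max_right _ _ : dist p.2.2 q.2.2 ≤ dist p.2 q.2).trans (le_max_right _ _)
      rw [Real.dist_eq] at d2
      linarith [dist_nonneg (x := p) (y := q)])
  refine ⟨v₁, v₂, fun α β hα hβ => ?_⟩
  have hA : ∀ y ∈ K, |‖y + α • v₁ + β • v₂‖ - ‖y + α • v₁ - β • v₂‖| ≤ ε / 2 := by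
    intro y hy
    exact he2 (y, α, β) ⟨hy, hIcc hα, hIcc hβ⟩
  have hBB : ∀ y ∈ K, |‖y - β • v₂ + α • v₁‖ - ‖y - β • v₂ - α • v₁‖| ≤ ε / 2 := by
    intro y hy
    refine he1 (y - β • v₂, α) ⟨?_, hIcc hα⟩
    rw [sub_eq_add_neg]
    refine Set.add_mem_add hy ⟨⟨-(β • v₂), E2.neg_mem (E2.smul_mem _ hv2E)⟩, ?_, rfl⟩
    rw [mem_closedBall, dist_zero_right]
    show ‖-(β • v₂)‖ ≤ 4
    rw [norm_neg, norm_smul, hv2, mul_one]
    exact hβ
  have hLB : |‖α • v₁ + β • v₂‖ - ‖α • v₁ - β • v₂‖| ≤ ε / 2 := by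
    have := hA 0 h0
    rwa [zero_add] at this
  rw [abs_le] at hLB
  refine ⟨⟨?_, ?_⟩, fun y hy => ?_⟩
  · have e : (2 * α) • v₁ = (α • v₁ + β • v₂) + (α • v₁ - β • v₂) := by module
    have h1 := norm_add_le (α • v₁ + β • v₂) (α • v₁ - β • v₂)
    rw [← e, norm_smul, hv1, mul_one, Real.norm_eq_abs, abs_mul, abs_two] at h1
    linarith [hLB.1, hLB.2]
  · have e : (2 * β) • v₂ = (α • v₁ + β • v₂) - (α • v₁ - β • v₂) := by module
    have h1 := norm_sub_le (α • v₁ + β • v₂) (α • v₁ - β • v₂)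
    rw [← e, norm_smul, hv2, mul_one, Real.norm_eq_abs, abs_mul, abs_two] at h1
    linarith [hLB.1, hLB.2]
  · have h1 := hA y hy
    have h2 := hBB y hy
    have e1 : y + α • v₁ + β • v₂ = y + (α • v₁ + β • v₂) := by abel
    have e2 : y - β • v₂ + α • v₁ = y + α • v₁ - β • v₂ := by abel
    have e3 : y - β • v₂ - α • v₁ = y - (α • v₁ + β • v₂) := by abel
    rw [e1] at h1
    rw [e2, e3] at h2
    rw [abs_le] at h1 h2 ⊢
    constructor <;> linarith [h1.1, h1.2, h2.1, h2.2]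

/-- **Far plane** -/
theorem exists_farPlane (hX : ¬ FiniteDimensional ℝ X) {K : Set X} (hK : IsCompact K)
    {ε : ℝ} (hε : 0 < ε) :
    ∃ W : Submodule ℝ X, 1 < Module.rank ℝ W ∧
      ∀ y ∈ K, ∀ w ∈ W, ‖w‖ ≤ 3 → |‖y + w‖ - ‖y - w‖| ≤ ε := by
  set ε' := min ε 1 with hε'
  have hε'0 : 0 < ε' := lt_min hε one_pos
  have hε'1 : ε' ≤ 1 := min_le_right _ _
  obtain ⟨v₁, v₂, h⟩ := exists_farPair hX (hK.insert (0 : X)) (mem_insert _ _) hε'0
  -- coefficient bound
  have key : ∀ a b : ℝ, max |a| |b| * 3 ≤ 4 * ‖a • v₁ + b • v₂‖ := by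
    intro a b
    set M := max |a| |b| with hM
    have hM0 : 0 ≤ M := le_max_of_le_left (abs_nonneg _)
    rcases hM0.eq_or_lt with hM1 | hM1
    · rw [← hM1, zero_mul]; positivity
    · have hs : 0 < 4 / M := by positivity
      have ha : |4 / M * a| ≤ 4 := by
        rw [abs_mul, abs_of_pos hs, div_mul_eq_mul_div, div_le_iff₀ hM1]
        have : |a| ≤ M := le_max_left _ _
        linarith
      have hb : |4 / M * b| ≤ 4 := by
        rw [abs_mul, abs_of_pos hs, div_mul_eq_mul_div, div_le_iff₀ hM1]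
        have : |b| ≤ M := le_max_right _ _
        linarith
      have h1 := (h _ _ ha hb).1
      have e : (4 / M * a) • v₁ + (4 / M * b) • v₂ = (4 / M) • (a • v₁ + b • v₂) := by
        rw [smul_add, smul_smul, smul_smul]
      rw [e, norm_smul, Real.norm_of_nonneg hs.le, abs_mul, abs_mul, abs_of_pos hs] at h1
      have h2 : 4 / M * M = 4 := div_mul_cancel₀ _ hM1.ne'
      have h3 : 4 / M * M ≤ 4 / M * ‖a • v₁ + b • v₂‖ + ε' := by
        rcases max_choice |a| |b| with h4 | h4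
        · rw [← hM] at h4
          nth_rewrite 2 [h4]
          exact h1.1
        · rw [← hM] at h4
          nth_rewrite 2 [h4]
          exact h1.2
      rw [h2] at h3
      have h5 : 3 ≤ 4 / M * ‖a • v₁ + b • v₂‖ := by linarith
      rw [div_mul_eq_mul_div, le_div_iff₀ hM1] at h5
      linarith
  refine ⟨Submodule.span ℝ {v₁, v₂}, ?_, ?_⟩
  · have hli : LinearIndependent ℝ ![v₁, v₂] := by
      rw [LinearIndependent.pair_iff]
      intro s t hst
      have h1 := key s t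
      rw [hst, norm_zero, mul_zero] at h1
      have h2 : |s| ≤ max |s| |t| := le_max_left _ _
      have h3 : |t| ≤ max |s| |t| := le_max_right _ _
      constructor
      · exact abs_eq_zero.mp (le_antisymm (by linarith) (abs_nonneg _))
      · exact abs_eq_zero.mp (le_antisymm (by linarith) (abs_nonneg _))
    have h2 := finrank_span_eq_card hli
    have e : range ![v₁, v₂] = {v₁, v₂} := by
      rw [Matrix.range_cons, Matrix.range_cons, Matrix.range_empty, union_empty]
      rfl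
    rw [e, Fintype.card_fin] at h2
    haveI : FiniteDimensional ℝ (Submodule.span ℝ ({v₁, v₂} : Set X)) :=
      FiniteDimensional.span_of_finite ℝ (Set.toFinite _)
    have h3 : ((Module.finrank ℝ (Submodule.span ℝ ({v₁, v₂} : Set X)) : ℕ) : Cardinal) =
        Module.rank ℝ (Submodule.span ℝ ({v₁, v₂} : Set X)) := Module.finrank_eq_rank _ _
    rw [← h3, h2]
    norm_num
  · intro y hy w hw hw3
    obtain ⟨a, b, rfl⟩ := Submodule.mem_span_pair.mp hw
    have h1 := key a b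
    have h2 : |a| ≤ max |a| |b| := le_max_left _ _
    have h3 : |b| ≤ max |a| |b| := le_max_right _ _
    have h4 := (h a b (by linarith) (by linarith)).2 y (mem_insert_of_mem _ hy)
    exact h4.trans (min_le_left _ _)

end Far

end Crest.Agent.R074
end

-- ▼ part R074/FarC
section

/-!
Row 74 (S0099): radii of the unit sphere seen from an interior point, the intermediate value
argument in a far plane, and additivity of `a + b ↦ f a + f b`.
-/

set_option autoImplicit false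

namespace Crest.Agent.R074

open Metric Set Filter Topology

namespace Far

section Rad

variable {X : Type*} [NormedAddCommGroup X] [NormedSpace ℝ X]

/-- distance from `p` to the unit sphere in direction `d`, in units of `d` -/
noncomputable def rad (p d : X) : ℝ := (gauge (closedBall (-p) 1) d)⁻¹

omit [NormedSpace ℝ X] in
theorem closedBall_nhds {p : X} (hp : ‖p‖ < 1) : closedBall (-p) 1 ∈ 𝓝 (0 : X) := by
  refine mem_of_superset (ball_mem_nhds (0 : X) (show 0 < 1 - ‖p‖ by linarith)) ?_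
  intro z hz
  rw [mem_ball, dist_zero_right] at hz
  rw [mem_closedBall, dist_eq_norm, sub_neg_eq_add]
  exact (norm_add_le _ _).trans (by linarith)

theorem gauge_closedBall_pos {p d : X} (hp : ‖p‖ < 1) (hd : d ≠ 0) :
    0 < gauge (closedBall (-p) 1) d := by
  rw [gauge_pos (absorbent_nhds_zero (closedBall_nhds hp))
    (NormedSpace.isVonNBounded_closedBall ℝ X 1 |> fun _ =>
      (NormedSpace.isVonNBounded_iff ℝ).mpr isBounded_closedBall)]
  exact hd

theorem rad_pos {p d : X} (hp : ‖p‖ < 1) (hd : d ≠ 0) : 0 < rad p d :=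
  inv_pos.mpr (gauge_closedBall_pos hp hd)

theorem norm_add_rad {p d : X} (hp : ‖p‖ < 1) (hd : d ≠ 0) : ‖p + rad p d • d‖ = 1 := by
  have h1 := gauge_closedBall_pos hp hd
  have h2 : gauge (closedBall (-p) 1) (rad p d • d) = 1 := by
    rw [gauge_smul_of_nonneg (rad_pos hp hd).le, smul_eq_mul]
    exact inv_mul_cancel₀ h1.ne'
  rw [gauge_eq_one_iff_mem_frontier (convex_closedBall _ _) (closedBall_nhds hp),
    frontier_closedBall _ one_ne_zero, mem_sphere, dist_eq_norm, sub_neg_eq_add, add_comm] at h2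
  exact h2

theorem continuousOn_rad {p : X} (hp : ‖p‖ < 1) : ContinuousOn (rad p) {d | d ≠ 0} :=
  (continuous_gauge (convex_closedBall _ _) (closedBall_nhds hp)).continuousOn.inv₀
    fun _ hd => (gauge_closedBall_pos hp hd).ne'

/-- every vector of norm at most one is the sum of two unit vectors -/
theorem exists_unit_decomp (hX : 1 < Module.rank ℝ X) {v : X} (hv : ‖v‖ ≤ 1) :
    ∃ a b : X, ‖a‖ = 1 ∧ ‖b‖ = 1 ∧ a + b = v := by
  set p : X := (1 / 2 : ℝ) • v with hp
  have hp1 : ‖p‖ < 1 := by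
    rw [hp, norm_smul, Real.norm_of_nonneg (by norm_num)]; linarith
  have hconn := (isConnected_compl_singleton_of_one_lt_rank hX (0 : X)).isPreconnected
  obtain ⟨d₀, hd₀⟩ := (isConnected_compl_singleton_of_one_lt_rank hX (0 : X)).nonempty
  have hd₀' : -d₀ ∈ ({0}ᶜ : Set X) := by simpa using hd₀
  have hcont : ContinuousOn (fun d => rad p d - rad p (-d)) ({0}ᶜ : Set X) := by
    refine ContinuousOn.sub (continuousOn_rad hp1) ?_
    refine (continuousOn_rad hp1).comp continuous_neg.continuousOn ?_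
    intro d hd
    simpa using hd
  obtain ⟨d, hd, hd2⟩ : ∃ d ∈ ({0}ᶜ : Set X), rad p d - rad p (-d) = 0 := by
    rcases le_total (rad p d₀ - rad p (-d₀)) 0 with h1 | h1
    · have := hconn.intermediate_value hd₀ hd₀' hcont
      obtain ⟨d, hd, hd2⟩ := this ⟨h1, by show 0 ≤ rad p (-d₀) - rad p (- -d₀); rw [neg_neg]; linarith⟩
      exact ⟨d, hd, hd2⟩
    · have := hconn.intermediate_value hd₀' hd₀ hcont
      obtain ⟨d, hd, hd2⟩ := this ⟨by show rad p (-d₀) - rad p (- -d₀) ≤ 0; rw [neg_neg]; linarith, h1⟩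
      exact ⟨d, hd, hd2⟩
  have hd0 : d ≠ 0 := hd
  refine ⟨p + rad p d • d, p + rad p (-d) • (-d), norm_add_rad hp1 hd0,
    norm_add_rad hp1 (neg_ne_zero.mpr hd0), ?_⟩
  rw [← sub_eq_zero.mp hd2, hp]
  module

/-- The intermediate value argument in a far plane. -/
theorem ivt {W : Submodule ℝ X} (hr : 1 < Module.rank ℝ W) {ε c : ℝ} (hε0 : 0 ≤ ε)
    (hε : ε ≤ 1 / 20) (hc0 : 0 ≤ c) (hc : c ≤ 1 / 5) {p q : X} (hp : ‖p‖ ≤ 1 / 2) (hq : ‖q‖ ≤ 1 / 2)
    (hEp : ∀ w ∈ W, ‖w‖ ≤ 3 → |‖p + w‖ - ‖p - w‖| ≤ ε)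
    (hEq : ∀ w ∈ W, ‖w‖ ≤ 3 → |‖q + w‖ - ‖q - w‖| ≤ ε)
    {w : X} (hw : w ∈ W) (h1 : 1 / 2 - c ≤ ‖w‖) (h2 : ‖w‖ ≤ 1 + c) :
    ∃ w₁ ∈ W, ‖p + w₁‖ = 1 ∧ |‖q + (w - w₁)‖ - 1| ≤ c + ε := by
  have hp1 : ‖p‖ < 1 := by linarith
  -- general facts
  have hbound : ∀ {y : X}, (∀ w ∈ W, ‖w‖ ≤ 3 → |‖y + w‖ - ‖y - w‖| ≤ ε) → ∀ z ∈ W, ‖z‖ ≤ 3 →
      2 * ‖z‖ ≤ 2 * ‖y + z‖ + ε := by
    intro y hy z hz hz3
    have e1 := hy z hz hz3
    rw [abs_le] at e1
    have e2 : (2 : ℝ) • z = (y + z) - (y - z) := by module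
    have e3 := norm_sub_le (y + z) (y - z)
    rw [← e2, norm_smul, Real.norm_of_nonneg (by norm_num : (0:ℝ) ≤ 2)] at e3
    linarith [e1.1]
  have hrho : ∀ z ∈ W, ‖p + z‖ = 1 → 1 / 2 ≤ ‖z‖ ∧ ‖z‖ ≤ 1 + ε / 2 := by
    intro z hz hz1
    have e1 := norm_add_le p z
    have e2 : ‖z‖ ≤ 3 := by
      have := norm_sub_le (p + z) p
      rw [add_sub_cancel_left] at this
      linarith
    have e3 := hbound hEp z hz e2
    constructor <;> linarith
  have hw0 : w ≠ 0 := by
    intro h0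
    rw [h0, norm_zero] at h1
    linarith
  -- the function on the punctured plane
  have hcont : ContinuousOn (fun d : W => ‖q + (w - rad p (d : X) • (d : X))‖) ({0}ᶜ : Set W) := by
    have hc : ContinuousOn (fun d : W => rad p (d : X)) ({0}ᶜ : Set W) :=
      (continuousOn_rad hp1).comp continuous_subtype_val.continuousOn (fun d hd => by
        simpa using hd)
    exact (continuousOn_const.add (continuousOn_const.sub
      (hc.smul continuous_subtype_val.continuousOn))).norm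
  have hconn := (isConnected_compl_singleton_of_one_lt_rank hr (0 : W)).isPreconnected
  have hmem1 : (⟨w, hw⟩ : W) ∈ ({0}ᶜ : Set W) := by
    simpa using hw0
  have hmem2 : (-⟨w, hw⟩ : W) ∈ ({0}ᶜ : Set W) := by
    simpa using hw0
  have hres : ∀ d ∈ ({0}ᶜ : Set W), |‖q + (w - rad p (d : X) • (d : X))‖ - 1| ≤ c + ε →
      ∃ w₁ ∈ W, ‖p + w₁‖ = 1 ∧ |‖q + (w - w₁)‖ - 1| ≤ c + ε := by
    intro d hd h
    exact ⟨rad p (d : X) • (d : X), W.smul_mem _ d.2, norm_add_rad hp1 (by simpa using hd), h⟩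
  -- value at `w`
  have hv1 : ‖q + (w - rad p w • w)‖ ≤ 1 + (c + ε) := by
    have r0 := rad_pos hp1 hw0
    have r1 := hrho (rad p w • w) (W.smul_mem _ hw) (norm_add_rad hp1 hw0)
    have e1 : w - rad p w • w = (1 - rad p w) • w := by rw [sub_smul, one_smul]
    rw [norm_smul, Real.norm_of_nonneg r0.le] at r1
    have e2 : ‖w - rad p w • w‖ ≤ 1 / 2 + (c + ε) := by
      rw [e1, norm_smul, Real.norm_eq_abs]
      have e3 : |1 - rad p w| * ‖w‖ = |‖w‖ - rad p w * ‖w‖| := by
        rw [← abs_of_nonneg (norm_nonneg w), ← abs_mul, abs_norm, sub_mul, one_mul]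
      rw [e3, abs_le]
      constructor <;> linarith [r1.1, r1.2]
    exact (norm_add_le _ _).trans (by linarith)
  -- value at `-w`
  have hv2 : 1 - (c + ε) ≤ ‖q + (w - rad p (-w) • (-w))‖ := by
    have hw0' : -w ≠ 0 := neg_ne_zero.mpr hw0
    have r0 := rad_pos hp1 hw0'
    have r1 := hrho (rad p (-w) • (-w)) (W.smul_mem _ (W.neg_mem hw)) (norm_add_rad hp1 hw0')
    have e1 : w - rad p (-w) • (-w) = (1 + rad p (-w)) • w := by
      rw [add_smul, one_smul, smul_neg, sub_neg_eq_add]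
    rw [norm_smul, Real.norm_of_nonneg r0.le, norm_neg] at r1
    have e2 : ‖(1 + rad p (-w)) • w‖ = ‖w‖ + rad p (-w) * ‖w‖ := by
      rw [norm_smul, Real.norm_of_nonneg (by linarith), add_mul, one_mul]
    have e3 := hbound hEq ((1 + rad p (-w)) • w) (W.smul_mem _ hw) (by rw [e2]; linarith [r1.2])
    rw [e1]
    rw [e2] at e3
    linarith [r1.1]
  rcases le_or_gt 1 ‖q + (w - rad p w • w)‖ with h3 | h3
  · refine hres ⟨w, hw⟩ hmem1 ?_
    rw [abs_le]
    constructor <;> linarith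
  rcases le_or_gt ‖q + (w - rad p (-w) • (-w))‖ 1 with h4 | h4
  · refine hres (-⟨w, hw⟩) hmem2 ?_
    show |‖q + (w - rad p (-w) • (-w))‖ - 1| ≤ c + ε
    rw [abs_le]
    constructor <;> linarith
  · obtain ⟨d, hd, hd2⟩ := hconn.intermediate_value hmem1 hmem2 hcont
      (show (1 : ℝ) ∈ Icc _ _ from ⟨h3.le, h4.le⟩)
    refine hres d hd ?_
    have hd3 : ‖q + (w - rad p (d : X) • (d : X))‖ = 1 := hd2
    rw [hd3, sub_self, abs_zero]
    linarith

end Rad

section Add

variable {X Y : Type*} [NormedAddCommGroup X] [NormedSpace ℝ X]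
  [NormedAddCommGroup Y] [NormedSpace ℝ Y] {f : X → Y} {g : Y → X}

theorem sum_lemma (h : SI f g)
    (hH : ∀ z w : X, ‖z‖ = 1 → ‖w‖ = 1 → ‖z + w‖ = 1 → f (z + w) = f z + f w)
    {x x' w w' : X} {η : ℝ} (hη : η ≤ 1 / 24) (h1 : |‖x + w‖ - 1| ≤ η) (h2 : |‖x - w‖ - 1| ≤ η)
    (h3 : |‖x' + w'‖ - 1| ≤ η) (h4 : |‖x' - w'‖ - 1| ≤ η)
    (h5 : |‖(x + x') + (w + w')‖ - 1| ≤ η) (h6 : |‖(x + x') - (w + w')‖ - 1| ≤ η) :
    ‖(f (nu (x + w)) + f (nu (x - w))) + (f (nu (x' + w')) + f (nu (x' - w'))) -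
      (f (nu ((x + x') + (w + w'))) + f (nu ((x + x') - (w + w'))))‖ ≤ 120 * η := by
  have e1 : (x + x') + (w + w') = (x + w) + (x' + w') := by abel
  have e2 : (x + x') - (w + w') = (x - w) + (x' - w') := by abel
  rw [e1] at h5 ⊢
  rw [e2] at h6 ⊢
  have a1 := approxH h hH hη h1 h3 h5
  have a2 := approxH h hH hη h2 h4 h6
  have e3 : (f (nu (x + w)) + f (nu (x - w))) + (f (nu (x' + w')) + f (nu (x' - w'))) -
      (f (nu ((x + w) + (x' + w'))) + f (nu ((x - w) + (x' - w')))) =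
      (f (nu (x + w)) + f (nu (x' + w')) - f (nu ((x + w) + (x' + w')))) +
      (f (nu (x - w)) + f (nu (x' - w')) - f (nu ((x - w) + (x' - w')))) := by abel
  rw [e3]
  exact (norm_add_le _ _).trans (by linarith)

theorem unit_lemma (h : SI f g)
    (hH : ∀ z w : X, ‖z‖ = 1 → ‖w‖ = 1 → ‖z + w‖ = 1 → f (z + w) = f z + f w)
    {a w : X} {η : ℝ} (hη0 : 0 ≤ η) (hη : η ≤ 1 / 24) (ha : ‖a‖ = 1)
    (h1 : |‖(1 / 2 : ℝ) • a + w‖ - 1| ≤ η) (h2 : |‖(1 / 2 : ℝ) • a - w‖ - 1| ≤ η) :
    ‖f (nu ((1 / 2 : ℝ) • a + w)) + f (nu ((1 / 2 : ℝ) • a - w)) - f a‖ ≤ 60 * η := by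
  have e : ((1 / 2 : ℝ) • a + w) + ((1 / 2 : ℝ) • a - w) = a := by module
  have a1 := approxH h hH hη h1 h2 (by rw [e, ha, sub_self, abs_zero]; exact hη0)
  rw [e, nu_of_norm ha] at a1
  exact a1

omit [NormedSpace ℝ X] in
theorem even_near {c w : X} {ε δ : ℝ} (h1 : |‖c + w‖ - ‖c - w‖| ≤ ε) (h2 : |‖c + w‖ - 1| ≤ δ) :
    |‖c - w‖ - 1| ≤ δ + ε := by
  rw [abs_le] at h1 h2 ⊢
  constructor <;> linarith [h1.1, h1.2, h2.1, h2.2]

/-- the key comparison: `f a + f b` is read off from the far vector `w` -/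
theorem key (h : SI f g)
    (hH : ∀ z w : X, ‖z‖ = 1 → ‖w‖ = 1 → ‖z + w‖ = 1 → f (z + w) = f z + f w)
    {W : Submodule ℝ X} (hr : 1 < Module.rank ℝ W) {ε : ℝ} (hε0 : 0 ≤ ε) (hε : ε ≤ 1 / 200)
    {a b w : X} (ha : ‖a‖ = 1) (hb : ‖b‖ = 1) (hab : ‖a + b‖ ≤ 1)
    (hEa : ∀ w ∈ W, ‖w‖ ≤ 3 → |‖(1 / 2 : ℝ) • a + w‖ - ‖(1 / 2 : ℝ) • a - w‖| ≤ ε)
    (hEb : ∀ w ∈ W, ‖w‖ ≤ 3 → |‖(1 / 2 : ℝ) • b + w‖ - ‖(1 / 2 : ℝ) • b - w‖| ≤ ε)
    (hEab : ∀ w ∈ W, ‖w‖ ≤ 3 →
      |‖(1 / 2 : ℝ) • (a + b) + w‖ - ‖(1 / 2 : ℝ) • (a + b) - w‖| ≤ ε)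
    (hw : w ∈ W) (hwn : |‖(1 / 2 : ℝ) • (a + b) + w‖ - 1| ≤ 2 * ε) :
    ‖(f (nu ((1 / 2 : ℝ) • (a + b) + w)) + f (nu ((1 / 2 : ℝ) • (a + b) - w))) -
      (f a + f b)‖ ≤ 1440 * ε := by
  have hhalf : ∀ x : X, ‖(1 / 2 : ℝ) • x‖ = 1 / 2 * ‖x‖ := fun x => by
    rw [norm_smul, Real.norm_of_nonneg (by norm_num)]
  have hp : ‖(1 / 2 : ℝ) • a‖ = 1 / 2 := by rw [hhalf, ha, mul_one]
  have hq : ‖(1 / 2 : ℝ) • b‖ = 1 / 2 := by rw [hhalf, hb, mul_one]
  have hpq : ‖(1 / 2 : ℝ) • (a + b)‖ ≤ 1 / 2 := by rw [hhalf]; linarith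
  have hwn' := abs_le.mp hwn
  have n1 : ‖w‖ ≤ ‖(1 / 2 : ℝ) • (a + b) + w‖ + ‖(1 / 2 : ℝ) • (a + b)‖ := by
    have := norm_sub_le ((1 / 2 : ℝ) • (a + b) + w) ((1 / 2 : ℝ) • (a + b))
    rwa [add_sub_cancel_left] at this
  have n2 := norm_add_le ((1 / 2 : ℝ) • (a + b)) w
  have hw3 : ‖w‖ ≤ 3 := by linarith [hwn'.1, hwn'.2]
  have hev := hEab w hw hw3
  have hmin := even_near hev hwn
  have hmin' := abs_le.mp hmin
  have n3 : 2 * ‖w‖ ≤ ‖(1 / 2 : ℝ) • (a + b) + w‖ + ‖(1 / 2 : ℝ) • (a + b) - w‖ := by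
    have e2 : (2 : ℝ) • w = ((1 / 2 : ℝ) • (a + b) + w) - ((1 / 2 : ℝ) • (a + b) - w) := by
      module
    have e3 := norm_sub_le ((1 / 2 : ℝ) • (a + b) + w) ((1 / 2 : ℝ) • (a + b) - w)
    rwa [← e2, norm_smul, Real.norm_of_nonneg (by norm_num : (0:ℝ) ≤ 2)] at e3
  obtain ⟨w₁, hw₁, hpw, hqw⟩ := ivt hr hε0 (by linarith) (c := 3 * ε) (by linarith)
    (by linarith) hp.le hq.le hEa hEb hw (by linarith [hwn'.1]) (by linarith [hwn'.2, hmin'.2])
  have n4 : ‖w₁‖ ≤ 3 / 2 := by
    have := norm_sub_le ((1 / 2 : ℝ) • a + w₁) ((1 / 2 : ℝ) • a)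
    rw [add_sub_cancel_left] at this
    linarith
  have n5 : ‖w - w₁‖ ≤ 3 := by
    refine (norm_sub_le _ _).trans ?_
    linarith [hwn'.2, hmin'.2]
  have hww : w - w₁ ∈ W := W.sub_mem hw hw₁
  have a1 : |‖(1 / 2 : ℝ) • a + w₁‖ - 1| ≤ 6 * ε := by
    rw [hpw, sub_self, abs_zero]; linarith
  have a2 : |‖(1 / 2 : ℝ) • a - w₁‖ - 1| ≤ 6 * ε := by
    have := even_near (hEa w₁ hw₁ (by linarith)) (δ := 0) (by rw [hpw, sub_self, abs_zero])
    linarith
  have a3 : |‖(1 / 2 : ℝ) • b + (w - w₁)‖ - 1| ≤ 6 * ε := by linarith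
  have a4 : |‖(1 / 2 : ℝ) • b - (w - w₁)‖ - 1| ≤ 6 * ε := by
    have := even_near (hEb (w - w₁) hww n5) hqw
    linarith
  have e1 : (1 / 2 : ℝ) • a + (1 / 2 : ℝ) • b = (1 / 2 : ℝ) • (a + b) := by rw [smul_add]
  have e2 : w₁ + (w - w₁) = w := by abel
  have s1 := sum_lemma h hH (x := (1 / 2 : ℝ) • a) (x' := (1 / 2 : ℝ) • b) (w := w₁)
    (w' := w - w₁) (η := 6 * ε) (by linarith) a1 a2 a3 a4
    (by rw [e1, e2]; linarith) (by rw [e1, e2]; linarith)
  rw [e1, e2] at s1
  have s2 := unit_lemma h hH (by linarith) (by linarith) ha a1 a2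
  have s3 := unit_lemma h hH (by linarith) (by linarith) hb a3 a4
  have e3 : (f (nu ((1 / 2 : ℝ) • (a + b) + w)) + f (nu ((1 / 2 : ℝ) • (a + b) - w))) -
      (f a + f b) =
      (f (nu ((1 / 2 : ℝ) • a + w₁)) + f (nu ((1 / 2 : ℝ) • a - w₁)) - f a) +
      (f (nu ((1 / 2 : ℝ) • b + (w - w₁))) + f (nu ((1 / 2 : ℝ) • b - (w - w₁))) - f b) -
      ((f (nu ((1 / 2 : ℝ) • a + w₁)) + f (nu ((1 / 2 : ℝ) • a - w₁))) +
      (f (nu ((1 / 2 : ℝ) • b + (w - w₁))) + f (nu ((1 / 2 : ℝ) • b - (w - w₁)))) -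
      (f (nu ((1 / 2 : ℝ) • (a + b) + w)) + f (nu ((1 / 2 : ℝ) • (a + b) - w)))) := by
    abel
  rw [e3]
  refine (norm_sub_le _ _).trans ?_
  have s4 := norm_add_le
    (f (nu ((1 / 2 : ℝ) • a + w₁)) + f (nu ((1 / 2 : ℝ) • a - w₁)) - f a)
    (f (nu ((1 / 2 : ℝ) • b + (w - w₁))) + f (nu ((1 / 2 : ℝ) • b - (w - w₁))) - f b)
  linarith

/-- additivity of `a + b ↦ f a + f b` on the unit ball -/
theorem add_unit (h : SI f g)
    (hH : ∀ z w : X, ‖z‖ = 1 → ‖w‖ = 1 → ‖z + w‖ = 1 → f (z + w) = f z + f w)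
    (hX : ¬ FiniteDimensional ℝ X)
    {a b a' b' a'' b'' : X} (ha : ‖a‖ = 1) (hb : ‖b‖ = 1) (ha' : ‖a'‖ = 1) (hb' : ‖b'‖ = 1)
    (ha'' : ‖a''‖ = 1) (hb'' : ‖b''‖ = 1) (hab : ‖a + b‖ ≤ 1) (hab' : ‖a' + b'‖ ≤ 1)
    (hab'' : ‖a'' + b''‖ ≤ 1) (hsum : (a + b) + (a' + b') = a'' + b'') :
    (f a + f b) + (f a' + f b') = f a'' + f b'' := by
  have main : ∀ ε : ℝ, 0 < ε → ε ≤ 1 / 200 →
      ‖(f a + f b) + (f a' + f b') - (f a'' + f b'')‖ ≤ 6000 * ε := by
    intro ε hε0 hε
    set K : Set X := {(1 / 2 : ℝ) • a, (1 / 2 : ℝ) • b, (1 / 2 : ℝ) • (a + b),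
      (1 / 2 : ℝ) • a', (1 / 2 : ℝ) • b', (1 / 2 : ℝ) • (a' + b'),
      (1 / 2 : ℝ) • a'', (1 / 2 : ℝ) • b'', (1 / 2 : ℝ) • (a'' + b'')} with hK
    have hKc : IsCompact K := (Set.toFinite K).isCompact
    obtain ⟨W, hr, hE⟩ := exists_farPlane hX hKc hε0
    have hhalf : ∀ x : X, ‖x‖ ≤ 1 → ‖(1 / 2 : ℝ) • x‖ ≤ 1 / 2 := fun x hx => by
      rw [norm_smul, Real.norm_of_nonneg (by norm_num)]; linarith
    have hp := hhalf _ hab
    have hp' := hhalf _ hab'
    have hp'' := hhalf _ hab''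
    have Ea := hE ((1 / 2 : ℝ) • a) (by simp [hK])
    have Eb := hE ((1 / 2 : ℝ) • b) (by simp [hK])
    have Eab := hE ((1 / 2 : ℝ) • (a + b)) (by simp only [hK]; simp)
    have Ea' := hE ((1 / 2 : ℝ) • a') (by simp [hK])
    have Eb' := hE ((1 / 2 : ℝ) • b') (by simp [hK])
    have Eab' := hE ((1 / 2 : ℝ) • (a' + b')) (by simp only [hK]; simp)
    have Ea'' := hE ((1 / 2 : ℝ) • a'') (by simp [hK])
    have Eb'' := hE ((1 / 2 : ℝ) • b'') (by simp [hK])
    have Eab'' := hE ((1 / 2 : ℝ) • (a'' + b'')) (by simp only [hK]; simp)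
    -- the vector `w` for `a + b`
    obtain ⟨d, hd⟩ := (isConnected_compl_singleton_of_one_lt_rank hr (0 : W)).nonempty
    have hd0 : (d : X) ≠ 0 := by simpa using hd
    set p : X := (1 / 2 : ℝ) • (a + b) with hpdef
    have hp1 : ‖p‖ < 1 := by linarith
    obtain ⟨w, hwW, hwn⟩ : ∃ w ∈ W, ‖p + w‖ = 1 :=
      ⟨rad p (d : X) • (d : X), W.smul_mem _ d.2, norm_add_rad hp1 hd0⟩
    have m1 : 1 / 2 ≤ ‖w‖ := by
      have := norm_add_le p w
      linarith
    have m2 : ‖w‖ ≤ 3 / 2 := by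
      have := norm_sub_le (p + w) p
      rw [add_sub_cancel_left] at this
      linarith
    have m3 := even_near (Eab w hwW (by linarith)) (δ := 0) (by rw [hwn, sub_self, abs_zero])
    have m3' := abs_le.mp m3
    have m4 : 2 * ‖w‖ ≤ ‖p + w‖ + ‖p - w‖ := by
      have e2 : (2 : ℝ) • w = (p + w) - (p - w) := by module
      have e3 := norm_sub_le (p + w) (p - w)
      rwa [← e2, norm_smul, Real.norm_of_nonneg (by norm_num : (0:ℝ) ≤ 2)] at e3
    -- the vector `w₁` for `a' + b'`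
    obtain ⟨w₁, hw₁, hpw, hqw⟩ := ivt hr hε0.le (by linarith) (c := ε) hε0.le
      (by linarith) hp' hp'' Eab' Eab'' hwW (by linarith) (by linarith [m3'.2])
    have n4 : ‖w₁‖ ≤ 3 / 2 := by
      have := norm_sub_le ((1 / 2 : ℝ) • (a' + b') + w₁) ((1 / 2 : ℝ) • (a' + b'))
      rw [add_sub_cancel_left] at this
      linarith
    have n5 : ‖w - w₁‖ ≤ 3 := by
      refine (norm_sub_le _ _).trans ?_
      linarith
    have hww : w - w₁ ∈ W := W.sub_mem hwW hw₁
    have k1 := key h hH hr hε0.le hε ha hb hab Ea Eb Eab hwW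
      (by rw [hwn, sub_self, abs_zero]; linarith)
    have k2 := key h hH hr hε0.le hε ha' hb' hab' Ea' Eb' Eab' hw₁
      (by rw [hpw, sub_self, abs_zero]; linarith)
    have k3 := key h hH hr hε0.le hε ha'' hb'' hab'' Ea'' Eb'' Eab'' hww (by linarith)
    have q1 := even_near (Eab' w₁ hw₁ (by linarith)) (δ := 0) (by rw [hpw, sub_self, abs_zero])
    have q2 := even_near (Eab'' (w - w₁) hww n5) hqw
    have e1 : p + (1 / 2 : ℝ) • (a' + b') = (1 / 2 : ℝ) • (a'' + b'') := by
      rw [hpdef, ← smul_add, hsum]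
    have e2 : w + -w₁ = w - w₁ := by abel
    have s1 := sum_lemma h hH (x := p) (x' := (1 / 2 : ℝ) • (a' + b')) (w := w)
      (w' := -w₁) (η := 6 * ε) (by linarith)
      (by rw [hwn, sub_self, abs_zero]; linarith) (by linarith)
      (by rw [← sub_eq_add_neg]; linarith)
      (by rw [sub_neg_eq_add, hpw, sub_self, abs_zero]; linarith)
      (by rw [e1, e2]; linarith) (by rw [e1, e2]; linarith)
    rw [e1, e2, ← sub_eq_add_neg, sub_neg_eq_add] at s1
    have e3 : (f a + f b) + (f a' + f b') - (f a'' + f b'') =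
        ((f (nu (p + w)) + f (nu (p - w))) +
          (f (nu ((1 / 2 : ℝ) • (a' + b') - w₁)) + f (nu ((1 / 2 : ℝ) • (a' + b') + w₁))) -
          (f (nu ((1 / 2 : ℝ) • (a'' + b'') + (w - w₁))) +
            f (nu ((1 / 2 : ℝ) • (a'' + b'') - (w - w₁))))) +
        ((f (nu ((1 / 2 : ℝ) • (a'' + b'') + (w - w₁))) +
            f (nu ((1 / 2 : ℝ) • (a'' + b'') - (w - w₁)))) - (f a'' + f b'')) -
        ((f (nu (p + w)) + f (nu (p - w))) - (f a + f b)) -
        ((f (nu ((1 / 2 : ℝ) • (a' + b') + w₁)) + f (nu ((1 / 2 : ℝ) • (a' + b') - w₁))) -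
          (f a' + f b')) := by
      abel
    rw [e3]
    refine (norm_sub_le _ _).trans ?_
    have t1 := norm_sub_le
      (((f (nu (p + w)) + f (nu (p - w))) +
          (f (nu ((1 / 2 : ℝ) • (a' + b') - w₁)) + f (nu ((1 / 2 : ℝ) • (a' + b') + w₁))) -
          (f (nu ((1 / 2 : ℝ) • (a'' + b'') + (w - w₁))) +
            f (nu ((1 / 2 : ℝ) • (a'' + b'') - (w - w₁))))) +
        ((f (nu ((1 / 2 : ℝ) • (a'' + b'') + (w - w₁))) +
            f (nu ((1 / 2 : ℝ) • (a'' + b'') - (w - w₁)))) - (f a'' + f b'')))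
      ((f (nu (p + w)) + f (nu (p - w))) - (f a + f b))
    have t2 := norm_add_le
      ((f (nu (p + w)) + f (nu (p - w))) +
          (f (nu ((1 / 2 : ℝ) • (a' + b') - w₁)) + f (nu ((1 / 2 : ℝ) • (a' + b') + w₁))) -
          (f (nu ((1 / 2 : ℝ) • (a'' + b'') + (w - w₁))) +
            f (nu ((1 / 2 : ℝ) • (a'' + b'') - (w - w₁)))))
      ((f (nu ((1 / 2 : ℝ) • (a'' + b'') + (w - w₁))) +
            f (nu ((1 / 2 : ℝ) • (a'' + b'') - (w - w₁)))) - (f a'' + f b''))
    linarith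
  by_contra hne
  have hpos : 0 < ‖(f a + f b) + (f a' + f b') - (f a'' + f b'')‖ :=
    norm_pos_iff.mpr (sub_ne_zero.mpr hne)
  set D := ‖(f a + f b) + (f a' + f b') - (f a'' + f b'')‖ with hD
  have h1 := main (min (1 / 200) (D / 12000)) (lt_min (by norm_num) (by positivity))
    (min_le_left _ _)
  have h2 : min (1 / 200) (D / 12000) ≤ D / 12000 := min_le_right _ _
  linarith

end Add

end Far

end Crest.Agent.R074
end

-- ▼ part R074/HLin

/-!
Row 74 (S0099), `HLin`: in an infinite-dimensional space, a surjective sphere isometry which is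
additive on all unit triangles is the restriction of a linear isometry.
-/

set_option autoImplicit false

namespace Crest.Agent.R074

open Metric Set Filter Topology

namespace Far

/-- a bounded function on `[0,1]` which is additive is linear -/
theorem bounded_additive {Y : Type*} [NormedAddCommGroup Y] [NormedSpace ℝ Y] {φ : ℝ → Y}
    {M : ℝ} (hb : ∀ t, 0 ≤ t → t ≤ 1 → ‖φ t‖ ≤ M)
    (hadd : ∀ s t, 0 ≤ s → 0 ≤ t → s + t ≤ 1 → φ (s + t) = φ s + φ t) {t : ℝ} (ht0 : 0 ≤ t)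
    (ht1 : t ≤ 1) : φ t = t • φ 1 := by
  set D : ℝ → Y := fun t => φ t - t • φ 1 with hD
  have hDadd : ∀ s t, 0 ≤ s → 0 ≤ t → s + t ≤ 1 → D (s + t) = D s + D t := by
    intro s t hs ht hst
    simp only [hD]
    rw [hadd s t hs ht hst, add_smul]; abel
  have hD1 : D 1 = 0 := by simp [hD]
  have hDb : ∀ t, 0 ≤ t → t ≤ 1 → ‖D t‖ ≤ 2 * M := by
    intro t h0 h1
    have e1 := hb t h0 h1
    have e2 := hb 1 zero_le_one le_rfl
    have hM : 0 ≤ M := (norm_nonneg _).trans e1
    refine (norm_sub_le _ _).trans ?_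
    rw [norm_smul, Real.norm_of_nonneg h0]
    nlinarith [norm_nonneg (φ 1)]
  have hhalf : ∀ {v : Y} {c : ℝ}, ‖v + v‖ ≤ c → ‖v‖ ≤ c / 2 := by
    intro v c h
    have e : v + v = (2 : ℝ) • v := by rw [two_smul]
    rw [e, norm_smul, Real.norm_of_nonneg (by norm_num : (0:ℝ) ≤ 2)] at h
    linarith
  have hD2 : D (1 / 2) = 0 := by
    have e := hDadd (1 / 2) (1 / 2) (by norm_num) (by norm_num) (by norm_num)
    rw [show (1 / 2 : ℝ) + 1 / 2 = 1 by norm_num, hD1] at e
    have h1 : ‖D (1 / 2)‖ ≤ 0 / 2 := hhalf (by rw [← e, norm_zero])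
    rw [zero_div] at h1
    exact norm_le_zero_iff.mp h1
  have main : ∀ n : ℕ, ∀ t, 0 ≤ t → t ≤ 1 → ‖D t‖ ≤ 2 * M / 2 ^ n := by
    intro n
    induction n with
    | zero => intro t h0 h1; simpa using hDb t h0 h1
    | succ n ih =>
      have small : ∀ t, 0 ≤ t → t ≤ 1 / 2 → ‖D t‖ ≤ 2 * M / 2 ^ (n + 1) := by
        intro t h0 h1
        have e := hDadd t t h0 h0 (by linarith)
        have h2 := ih (t + t) (by linarith) (by linarith)
        rw [e] at h2
        have h3 := hhalf h2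
        rw [pow_succ]
        calc ‖D t‖ ≤ 2 * M / 2 ^ n / 2 := h3
          _ = 2 * M / (2 ^ n * 2) := by rw [div_div]
      intro t h0 h1
      rcases le_total t (1 / 2) with h2 | h2
      · exact small t h0 h2
      · have e := hDadd (t - 1 / 2) (1 / 2) (by linarith) (by norm_num) (by linarith)
        rw [sub_add_cancel, hD2, add_zero] at e
        rw [e]
        exact small _ (by linarith) (by linarith)
  have hzero : D t = 0 := by
    by_contra hne
    have hpos : 0 < ‖D t‖ := norm_pos_iff.mpr hne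
    obtain ⟨n, hn⟩ := pow_unbounded_of_one_lt (2 * M / ‖D t‖) (show (1 : ℝ) < 2 by norm_num)
    have h1 := main n t ht0 ht1
    rw [le_div_iff₀ (by positivity)] at h1
    rw [div_lt_iff₀ hpos] at hn
    linarith
  have : φ t - t • φ 1 = 0 := hzero
  exact sub_eq_zero.mp this

variable {X Y : Type*} [NormedAddCommGroup X] [NormedSpace ℝ X]
  [NormedAddCommGroup Y] [NormedSpace ℝ Y] {f : X → Y} {g : Y → X}

/-- **HLin**: a surjective sphere isometry, additive on all unit triangles, of an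
infinite-dimensional space is the restriction of a linear isometry. -/
theorem hlin (h : SI f g)
    (hH : ∀ z w : X, ‖z‖ = 1 → ‖w‖ = 1 → ‖z + w‖ = 1 → f (z + w) = f z + f w)
    (hX : ¬ FiniteDimensional ℝ X) :
    ∃ T : X ≃ₗᵢ[ℝ] Y, ∀ x, ‖x‖ = 1 → T x = f x := by
  classical
  have hrk : 1 < Module.rank ℝ X := by
    by_contra hcon
    push Not at hcon
    apply hX
    rw [FiniteDimensional, ← Module.rank_lt_aleph0_iff]
    exact hcon.trans_lt Cardinal.one_lt_aleph0
  have hdec : ∀ v : X, ∃ a b : X, ‖v‖ ≤ 1 → (‖a‖ = 1 ∧ ‖b‖ = 1 ∧ a + b = v) := by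
    intro v
    by_cases hv : ‖v‖ ≤ 1
    · obtain ⟨a, b, h1, h2, h3⟩ := exists_unit_decomp hrk hv
      exact ⟨a, b, fun _ => ⟨h1, h2, h3⟩⟩
    · exact ⟨0, 0, fun hv' => absurd hv' hv⟩
  choose A B hAB using hdec
  set Φ : X → Y := fun v => f (A v) + f (B v) with hΦ
  have Φadd : ∀ v v' : X, ‖v‖ ≤ 1 → ‖v'‖ ≤ 1 → ‖v + v'‖ ≤ 1 → Φ (v + v') = Φ v + Φ v' := by
    intro v v' hv hv' hvv
    obtain ⟨h1, h2, h3⟩ := hAB v hv
    obtain ⟨h1', h2', h3'⟩ := hAB v' hv'
    obtain ⟨h1'', h2'', h3''⟩ := hAB (v + v') hvv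
    exact (add_unit h hH hX h1 h2 h1' h2' h1'' h2'' (by rw [h3]; exact hv)
      (by rw [h3']; exact hv') (by rw [h3'']; exact hvv) (by rw [h3, h3', h3''])).symm
  have Φunit : ∀ v : X, ‖v‖ = 1 → Φ v = f v := by
    intro v hv
    obtain ⟨h1, h2, h3⟩ := hAB v hv.le
    have := hH _ _ h1 h2 (by rw [h3]; exact hv)
    rw [h3] at this
    exact this.symm
  have Φb : ∀ v : X, ‖v‖ ≤ 1 → ‖Φ v‖ ≤ 2 := by
    intro v hv
    obtain ⟨h1, h2, -⟩ := hAB v hv
    refine (norm_add_le _ _).trans ?_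
    rw [h.map _ h1, h.map _ h2]; norm_num
  have Φhom : ∀ u : X, ‖u‖ = 1 → ∀ t : ℝ, 0 ≤ t → t ≤ 1 → Φ (t • u) = t • f u := by
    intro u hu t h0 h1
    have hn : ∀ s : ℝ, 0 ≤ s → s ≤ 1 → ‖s • u‖ ≤ 1 := by
      intro s hs0 hs1
      rw [norm_smul, hu, mul_one, Real.norm_of_nonneg hs0]; exact hs1
    have := bounded_additive (φ := fun s => Φ (s • u)) (M := 2)
      (fun s hs0 hs1 => Φb _ (hn s hs0 hs1))
      (fun s s' hs hs' hss => by
        show Φ ((s + s') • u) = Φ (s • u) + Φ (s' • u)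
        rw [add_smul]
        exact Φadd _ _ (hn s hs (by linarith)) (hn s' hs' (by linarith))
          (by rw [← add_smul]; exact hn _ (by linarith) hss)) h0 h1
    have e : Φ (t • u) = t • Φ ((1 : ℝ) • u) := this
    rw [one_smul, Φunit u hu] at e
    exact e
  -- the homogeneous extension
  set T : X → Y := fun x => ‖x‖ • f (nu x) with hT
  have Tb : ∀ v : X, ‖v‖ ≤ 1 → Φ v = T v := by
    intro v hv
    by_cases h0 : v = 0
    · have e1 := Φadd 0 0 (by simp) (by simp) (by simp)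
      rw [add_zero] at e1
      have e2 : Φ 0 = 0 := by
        have := e1.symm
        rwa [add_eq_left] at this
      rw [h0, e2, hT]
      simp
    · have e1 := Φhom (nu v) (norm_nu h0) ‖v‖ (norm_nonneg _) hv
      have e2 : ‖v‖ • nu v = v := by
        unfold nu
        rw [smul_smul, mul_inv_cancel₀ (norm_ne_zero_iff.mpr h0), one_smul]
      rw [e2] at e1
      exact e1
  have Tsmul : ∀ (c : ℝ) (x : X), 0 < c → T (c • x) = c • T x := by
    intro c x hc
    have e1 : nu (c • x) = nu x := by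
      unfold nu
      rw [norm_smul, Real.norm_of_nonneg hc.le, mul_inv, smul_smul, mul_comm c⁻¹, mul_assoc,
        inv_mul_cancel₀ hc.ne', mul_one]
    show ‖c • x‖ • f (nu (c • x)) = c • ‖x‖ • f (nu x)
    rw [e1, norm_smul, Real.norm_of_nonneg hc.le, smul_smul]
  have Tadd : ∀ x y : X, T (x + y) = T x + T y := by
    intro x y
    set N := ‖x‖ + ‖y‖ + 1 with hN
    have hx0 := norm_nonneg x
    have hy0 := norm_nonneg y
    have hN0 : 0 < N := by linarith
    have hNi : 0 < N⁻¹ := inv_pos.mpr hN0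
    have hsm : ∀ z : X, ‖z‖ ≤ N → ‖N⁻¹ • z‖ ≤ 1 := by
      intro z hz
      rw [norm_smul, Real.norm_of_nonneg hNi.le, inv_mul_le_iff₀ hN0, mul_one]
      exact hz
    have e1 := Φadd (N⁻¹ • x) (N⁻¹ • y) (hsm x (by linarith)) (hsm y (by linarith))
      (by rw [← smul_add]; exact hsm _ ((norm_add_le _ _).trans (by linarith)))
    rw [← smul_add, Tb _ (hsm _ ((norm_add_le _ _).trans (by linarith))),
      Tb _ (hsm x (by linarith)), Tb _ (hsm y (by linarith)), Tsmul _ _ hNi, Tsmul _ _ hNi,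
      Tsmul _ _ hNi, ← smul_add] at e1
    exact smul_right_injective Y hNi.ne' e1
  have Tnorm : ∀ x : X, ‖T x‖ = ‖x‖ := by
    intro x
    by_cases h0 : x = 0
    · rw [h0, hT]; simp
    · show ‖‖x‖ • f (nu x)‖ = ‖x‖
      rw [norm_smul, norm_norm, h.map _ (norm_nu h0), mul_one]
  have Tunit : ∀ x : X, ‖x‖ = 1 → T x = f x := by
    intro x hx
    show ‖x‖ • f (nu x) = f x
    rw [nu_of_norm hx, hx, one_smul]
  let T0 : X →+ Y := AddMonoidHom.mk' T Tadd
  have hiso : Isometry T0 := AddMonoidHomClass.isometry_of_norm T0 Tnorm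
  let T1 : X →L[ℝ] Y := T0.toRealLinearMap hiso.continuous
  let T2 : X →ₗᵢ[ℝ] Y := ⟨T1.toLinearMap, Tnorm⟩
  have hsurj : Function.Surjective T2 := by
    intro y
    by_cases h0 : y = 0
    · exact ⟨0, by rw [map_zero, h0]⟩
    · refine ⟨‖y‖ • g (nu y), ?_⟩
      have hy : 0 < ‖y‖ := norm_pos_iff.mpr h0
      show T (‖y‖ • g (nu y)) = y
      have e1 := h.imap _ (norm_nu h0)
      rw [Tsmul _ _ hy, Tunit _ e1, h.right _ (norm_nu h0)]
      unfold nu
      rw [smul_smul, mul_inv_cancel₀ hy.ne', one_smul]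
  exact ⟨LinearIsometryEquiv.ofSurjective T2 hsurj, fun x hx => Tunit x hx⟩

end Far

end Crest.Agent.R074
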