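import Crest.Agent.R074.KU
import Crest.Agent.R074.Cross
import Crest.Agent.R074.Centre
import Crest.Agent.R074.Tau
import Crest.Agent.R074.Mazur
import Crest.Agent.R074.LTA

-- ▼ part R074/GoodT
section

/-!
Row 74 (S0099): density of good unit triangles over a generic direction `u`.
-/

set_option autoImplicit false

namespace Crest.Agent.R074

open Metric Set Filter Topology

/-- a good unit triangle `(a, b)` -/
structure GoodT {X Y : Type*} [NormedAddCommGroup X] [NormedSpace ℝ X] [NormedAddCommGroup Y]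
    [NormedSpace ℝ Y] (f : X → Y) (a b : X) : Prop where
  ha : ‖a‖ = 1
  hb : ‖b‖ = 1
  hab : ‖a + b‖ = 1
  lt : ‖a - b‖ < 2
  sz : Smooth (a + b)
  sZ : Smooth (f (a + b))
  or : (Smooth (f a) ∧ Smooth ((2 : ℝ) • f a - f (a + b))) ∨
    (Smooth (f b) ∧ Smooth ((2 : ℝ) • f b - f (a + b)))

section Dens

variable {X Y : Type*} [NormedAddCommGroup X] [NormedSpace ℝ X] [NormedAddCommGroup Y]
  [NormedSpace ℝ Y] {f : X → Y} {g : Y → X}

theorem dens_sum {a b : X} (ha : ‖a‖ = 1) (hb : ‖b‖ = 1) (hab : ‖a + b‖ = 1)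
    (h2 : ‖a - b‖ < 2) (v : X) {ε η : ℝ} (hε : 0 < ε) (hη : 0 < η) :
    ∃ a' b' : X, ‖a'‖ = 1 ∧ ‖b'‖ = 1 ∧ ‖a' + b'‖ = 1 ∧ ‖a' - a‖ < η ∧ ‖b' - b‖ < η ∧
      a' + b' ∈ OV v ε := by
  obtain ⟨δ, hδ, h⟩ := exists_unitSum_sum ha hb hab h2 hη
  obtain ⟨z', hz1, hz2, hz3⟩ := exists_OV_sphere hab v hε hδ
  obtain ⟨a', b', h1, h3, h4, h5, h6⟩ := h z' hz1 hz2
  exact ⟨a', b', h1, h3, by rw [h4]; exact hz1, h5, h6, by rw [h4]; exact hz3⟩

theorem SI.dens_fsum (hf : SI f g) {a b : X} (ha : ‖a‖ = 1) (hb : ‖b‖ = 1) (hab : ‖a + b‖ = 1)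
    (h2 : ‖a - b‖ < 2) (v : Y) {ε η : ℝ} (hε : 0 < ε) (hη : 0 < η) :
    ∃ a' b' : X, ‖a'‖ = 1 ∧ ‖b'‖ = 1 ∧ ‖a' + b'‖ = 1 ∧ ‖a' - a‖ < η ∧ ‖b' - b‖ < η ∧
      f (a' + b') ∈ OV v ε := by
  obtain ⟨δ, hδ, h⟩ := exists_unitSum_sum ha hb hab h2 hη
  obtain ⟨Z', hz1, hz2, hz3⟩ := exists_OV_sphere (hf.map _ hab) v hε hδ
  have hgz := hf.imap _ hz1
  have hd : ‖g Z' - (a + b)‖ < δ := by
    rw [← hf.dist _ _ hgz hab, hf.right _ hz1]; exact hz2
  obtain ⟨a', b', h1, h3, h4, h5, h6⟩ := h (g Z') hgz hd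
  exact ⟨a', b', h1, h3, by rw [h4]; exact hgz, h5, h6, by rw [h4, hf.right _ hz1]; exact hz3⟩

theorem SI.dens_fst (hf : SI f g) {a b : X} (ha : ‖a‖ = 1) (hb : ‖b‖ = 1) (hab : ‖a + b‖ = 1)
    (h2 : ‖a + (2 : ℝ) • b‖ < 2) (v : Y) {ε η : ℝ} (hε : 0 < ε) (hη : 0 < η) :
    ∃ a' b' : X, ‖a'‖ = 1 ∧ ‖b'‖ = 1 ∧ ‖a' + b'‖ = 1 ∧ ‖a' - a‖ < η ∧ ‖b' - b‖ < η ∧
      f a' ∈ OV v ε := by
  obtain ⟨δ, hδ, h⟩ := exists_unitSum_fst ha hb hab h2 hη
  obtain ⟨A', hz1, hz2, hz3⟩ := exists_OV_sphere (hf.map _ ha) v hε (lt_min hδ hη)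
  have hgz := hf.imap _ hz1
  have hd : ‖g A' - a‖ < min δ η := by
    rw [← hf.dist _ _ hgz ha, hf.right _ hz1]; exact hz2
  obtain ⟨b', h1, h3, h4⟩ := h (g A') hgz (hd.trans_le (min_le_left _ _))
  exact ⟨g A', b', hgz, h1, h3, hd.trans_le (min_le_right _ _), h4,
    by rw [hf.right _ hz1]; exact hz3⟩

theorem SI.dens_snd (hf : SI f g) {a b : X} (ha : ‖a‖ = 1) (hb : ‖b‖ = 1) (hab : ‖a + b‖ = 1)
    (h2 : ‖(2 : ℝ) • a + b‖ < 2) (v : Y) {ε η : ℝ} (hε : 0 < ε) (hη : 0 < η) :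
    ∃ a' b' : X, ‖a'‖ = 1 ∧ ‖b'‖ = 1 ∧ ‖a' + b'‖ = 1 ∧ ‖a' - a‖ < η ∧ ‖b' - b‖ < η ∧
      f b' ∈ OV v ε := by
  obtain ⟨b', a', h1, h3, h4, h5, h6, h7⟩ := hf.dens_fst hb ha (by rw [add_comm]; exact hab)
    (by rw [add_comm]; exact h2) v hε hη
  exact ⟨a', b', h3, h1, by rw [add_comm]; exact h4, h6, h5, h7⟩

/-- `(a, b) ↦ 2 f a - f (a + b)` is open in direction -/
theorem SI.dens_dirfst (hf : SI f g) {a b : X} (ha : ‖a‖ = 1) (hb : ‖b‖ = 1)
    (hab : ‖a + b‖ = 1) (v : Y) {ε η : ℝ} (hε : 0 < ε) (hη : 0 < η) :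
    ∃ a' b' : X, ‖a'‖ = 1 ∧ ‖b'‖ = 1 ∧ ‖a' + b'‖ = 1 ∧ ‖a' - a‖ < η ∧ ‖b' - b‖ < η ∧
      (2 : ℝ) • f a' - f (a' + b') ∈ OV v ε := by
  set A := f a with hA
  set Z := f (a + b) with hZ
  have hAn : ‖A‖ = 1 := hf.map _ ha
  have hZn : ‖Z‖ = 1 := hf.map _ hab
  have hBn : ‖Z - A‖ = 1 := by
    rw [hZ, hA, hf.dist _ _ hab ha, add_sub_cancel_left]; exact hb
  have hsum : ‖A + (Z - A)‖ = 1 := by rw [add_sub_cancel]; exact hZn
  have h1le : 1 ≤ ‖A - (Z - A)‖ := one_le_norm_sub hAn hsum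
  set r := ‖A - (Z - A)‖ with hr
  have hr0 : 0 < r := by linarith
  set ω : Y := r⁻¹ • (A - (Z - A)) with hω
  have hωn : ‖ω‖ = 1 := by
    rw [hω, norm_smul, norm_inv, Real.norm_of_nonneg hr0.le, ← hr, inv_mul_cancel₀ hr0.ne']
  have hrω : A - (Z - A) = r • ω := by
    rw [hω, smul_smul, mul_inv_cancel₀ hr0.ne', one_smul]
  obtain ⟨δ, hδ, h⟩ := exists_unitSum_dir hAn hBn hsum hωn hr0 hrω
    (show (0 : ℝ) < η / 3 by positivity)
  obtain ⟨ω', hω1, hω2, hω3⟩ := exists_OV_sphere hωn v hε hδ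
  obtain ⟨A', B', r', hA', hB', hAB', hr', hdir, hcA, hcB⟩ := h ω' hω1 hω2
  have hgA := hf.imap _ hA'
  have hgZ := hf.imap _ hAB'
  refine ⟨g A', g (A' + B') - g A', hgA, ?_, by rw [add_sub_cancel]; exact hgZ, ?_, ?_, ?_⟩
  · rw [hf.symm.dist _ _ hAB' hA', add_sub_cancel_left]; exact hB'
  · rw [← hf.dist _ _ hgA ha, hf.right _ hA']
    linarith
  · have e : g (A' + B') - g A' - b = (g (A' + B') - (a + b)) - (g A' - a) := by abel
    rw [e]
    refine (norm_sub_le _ _).trans_lt ?_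
    rw [← hf.dist _ _ hgA ha, hf.right _ hA', ← hf.dist _ _ hgZ hab, hf.right _ hAB']
    have e2 : A' + B' - Z = (A' - A) + (B' - (Z - A)) := by abel
    have h4 := norm_add_le (A' - A) (B' - (Z - A))
    rw [← e2] at h4
    have h5 : ‖A' + B' - f (a + b)‖ < η / 3 + η / 3 := by
      rw [← hZ]; linarith
    linarith
  · rw [add_sub_cancel, hf.right _ hA', hf.right _ hAB']
    have e3 : (2 : ℝ) • A' - (A' + B') = A' - B' := by rw [two_smul]; abel
    rw [e3, hdir]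
    exact OV_smul hω3 hr'

theorem SI.dens_dirsnd (hf : SI f g) {a b : X} (ha : ‖a‖ = 1) (hb : ‖b‖ = 1)
    (hab : ‖a + b‖ = 1) (v : Y) {ε η : ℝ} (hε : 0 < ε) (hη : 0 < η) :
    ∃ a' b' : X, ‖a'‖ = 1 ∧ ‖b'‖ = 1 ∧ ‖a' + b'‖ = 1 ∧ ‖a' - a‖ < η ∧ ‖b' - b‖ < η ∧
      (2 : ℝ) • f b' - f (a' + b') ∈ OV v ε := by
  obtain ⟨b', a', h1, h3, h4, h5, h6, h7⟩ := hf.dens_dirfst hb ha (by rw [add_comm]; exact hab)
    v hε hη
  exact ⟨a', b', h3, h1, by rw [add_comm]; exact h4, h6, h5, by rw [add_comm a' b']; exact h7⟩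

end Dens

section UTri

/-- the space of unit triangles -/
def UTri (X : Type*) [NormedAddCommGroup X] : Set (X × X) :=
  {T | ‖T.1‖ = 1 ∧ ‖T.2‖ = 1 ∧ ‖T.1 + T.2‖ = 1}

variable {X Y : Type*} [NormedAddCommGroup X] [NormedSpace ℝ X] [NormedAddCommGroup Y]
  [NormedSpace ℝ Y] {f : X → Y} {g : Y → X}

theorem isClosed_UTri : IsClosed (UTri X) := by
  have h1 : IsClosed {T : X × X | ‖T.1‖ = 1} := isClosed_eq (by fun_prop) continuous_const
  have h2 : IsClosed {T : X × X | ‖T.2‖ = 1} := isClosed_eq (by fun_prop) continuous_const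
  have h3 : IsClosed {T : X × X | ‖T.1 + T.2‖ = 1} := isClosed_eq (by fun_prop) continuous_const
  exact h1.inter (h2.inter h3)

theorem UTri_sub_ne (T : UTri X) : 0 < ‖T.1.1 - T.1.2‖ := by
  have := one_le_norm_sub T.2.1 T.2.2.2
  linarith

/-- direction of a unit triangle -/
noncomputable def dirT (T : UTri X) : sphere (0 : X) 1 :=
  ⟨‖T.1.1 - T.1.2‖⁻¹ • (T.1.1 - T.1.2), by
    rw [mem_sphere_zero_iff_norm, norm_smul, norm_inv, norm_norm,
      inv_mul_cancel₀ (UTri_sub_ne T).ne']⟩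

theorem dirT_spec (T : UTri X) : T.1.1 - T.1.2 = ‖T.1.1 - T.1.2‖ • (dirT T : X) := by
  show _ = ‖T.1.1 - T.1.2‖ • (‖T.1.1 - T.1.2‖⁻¹ • (T.1.1 - T.1.2))
  rw [smul_smul, mul_inv_cancel₀ (UTri_sub_ne T).ne', one_smul]

theorem dirT_eq {T : UTri X} {u : sphere (0 : X) 1} {r : ℝ} (hr : 0 < r)
    (h : T.1.1 - T.1.2 = r • (u : X)) : dirT T = u := by
  apply Subtype.ext
  show ‖T.1.1 - T.1.2‖⁻¹ • (T.1.1 - T.1.2) = u
  have hu : ‖(u : X)‖ = 1 := by simp
  rw [h, norm_smul, hu, mul_one, Real.norm_of_nonneg hr.le, smul_smul, inv_mul_cancel₀ hr.ne',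
    one_smul]

theorem continuous_dirT : Continuous (dirT : UTri X → sphere (0 : X) 1) := by
  apply Continuous.subtype_mk
  have h1 : Continuous (fun T : UTri X => T.1.1 - T.1.2) := by fun_prop
  exact (h1.norm.inv₀ (fun T => (UTri_sub_ne T).ne')).smul h1

theorem isOpenMap_dirT : IsOpenMap (dirT : UTri X → sphere (0 : X) 1) := by
  rw [isOpenMap_iff_nhds_le]
  intro T
  intro V hV
  obtain ⟨ε, hε, hball⟩ := Metric.mem_nhds_iff.mp (mem_map.mp hV)
  obtain ⟨δ, hδ, h⟩ := exists_unitSum_dir T.2.1 T.2.2.1 T.2.2.2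
    (show ‖(dirT T : X)‖ = 1 by simp) (UTri_sub_ne T) (dirT_spec T) hε
  refine Metric.mem_nhds_iff.mpr ⟨δ, hδ, ?_⟩
  intro u hu
  have hu1 : ‖(u : X)‖ = 1 := by simp
  rw [mem_ball, Subtype.dist_eq, dist_eq_norm] at hu
  obtain ⟨a', b', r', ha', hb', hab', hr', hdir, hca, hcb⟩ := h u hu1 hu
  set T' : UTri X := ⟨(a', b'), ha', hb', hab'⟩ with hT'
  have h1 : dirT T' = u := dirT_eq hr' hdir
  rw [← h1]
  apply hball
  rw [mem_ball, Subtype.dist_eq, Prod.dist_eq, max_lt_iff, dist_eq_norm, dist_eq_norm]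
  exact ⟨hca, hcb⟩

theorem SI.continuous_comp (hf : SI f g) {Z : Type*} [TopologicalSpace Z] {φ : Z → X}
    (hφ : Continuous φ) (h1 : ∀ z, ‖φ z‖ = 1) : Continuous (fun z => f (φ z)) := by
  have h2 : Continuous (fun z => (⟨φ z, by simpa using h1 z⟩ : sphere (0 : X) 1)) :=
    Continuous.subtype_mk hφ _
  exact hf.continuous.comp h2

theorem mem_closure_UTri {T : UTri X} {P : X → X → Prop}
    (h : ∀ η : ℝ, 0 < η → ∃ a' b' : X, ‖a'‖ = 1 ∧ ‖b'‖ = 1 ∧ ‖a' + b'‖ = 1 ∧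
      ‖a' - T.1.1‖ < η ∧ ‖b' - T.1.2‖ < η ∧ P a' b') :
    T ∈ closure {T' : UTri X | P T'.1.1 T'.1.2} := by
  rw [Metric.mem_closure_iff]
  intro η hη
  obtain ⟨a', b', h1, h2, h3, h4, h5, h6⟩ := h η hη
  refine ⟨⟨(a', b'), h1, h2, h3⟩, h6, ?_⟩
  rw [dist_comm, Subtype.dist_eq, Prod.dist_eq, max_lt_iff, dist_eq_norm, dist_eq_norm]
  exact ⟨h4, h5⟩

/-- good triangles are residual off `‖a - b‖ = 2` -/
theorem SI.residual_good (hf : SI f g) [TopologicalSpace.SeparableSpace X]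
    [TopologicalSpace.SeparableSpace Y] :
    {T : UTri X | ‖T.1.1 - T.1.2‖ < 2 → GoodT f T.1.1 T.1.2} ∈ residual (UTri X) := by
  have hW : IsOpen {T : UTri X | ‖T.1.1 - T.1.2‖ < 2} :=
    isOpen_lt (by fun_prop) continuous_const
  have hWa : IsOpen {T : UTri X | ‖T.1.1 + (2 : ℝ) • T.1.2‖ < 2} :=
    isOpen_lt (by fun_prop) continuous_const
  have hWb : IsOpen {T : UTri X | ‖(2 : ℝ) • T.1.1 + T.1.2‖ < 2} :=
    isOpen_lt (by fun_prop) continuous_const
  have R1 : {T : UTri X | T ∈ {T : UTri X | ‖T.1.1 - T.1.2‖ < 2} → Smooth (T.1.1 + T.1.2)}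
      ∈ residual (UTri X) := by
    refine residual_smooth_of_local hW (fun T : UTri X => T.1.1 + T.1.2) (by fun_prop) ?_
    intro v ε hε T hT
    exact mem_closure_UTri (P := fun a b => a + b ∈ OV v ε)
      (fun η hη => dens_sum T.2.1 T.2.2.1 T.2.2.2 hT v hε hη)
  have R2 : {T : UTri X | T ∈ {T : UTri X | ‖T.1.1 - T.1.2‖ < 2} → Smooth (f (T.1.1 + T.1.2))}
      ∈ residual (UTri X) := by
    refine residual_smooth_of_local hW (fun T : UTri X => f (T.1.1 + T.1.2))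
      (hf.continuous_comp (by fun_prop) (fun T => T.2.2.2)) ?_
    intro v ε hε T hT
    exact mem_closure_UTri (P := fun a b => f (a + b) ∈ OV v ε)
      (fun η hη => hf.dens_fsum T.2.1 T.2.2.1 T.2.2.2 hT v hε hη)
  have R3 : {T : UTri X | T ∈ {T : UTri X | ‖T.1.1 + (2 : ℝ) • T.1.2‖ < 2} → Smooth (f T.1.1)}
      ∈ residual (UTri X) := by
    refine residual_smooth_of_local hWa (fun T : UTri X => f T.1.1)
      (hf.continuous_comp (by fun_prop) (fun T => T.2.1)) ?_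
    intro v ε hε T hT
    exact mem_closure_UTri (P := fun a b => f a ∈ OV v ε)
      (fun η hη => hf.dens_fst T.2.1 T.2.2.1 T.2.2.2 hT v hε hη)
  have R5 : {T : UTri X | T ∈ {T : UTri X | ‖(2 : ℝ) • T.1.1 + T.1.2‖ < 2} → Smooth (f T.1.2)}
      ∈ residual (UTri X) := by
    refine residual_smooth_of_local hWb (fun T : UTri X => f T.1.2)
      (hf.continuous_comp (by fun_prop) (fun T => T.2.2.1)) ?_
    intro v ε hε T hT
    exact mem_closure_UTri (P := fun a b => f b ∈ OV v ε)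
      (fun η hη => hf.dens_snd T.2.1 T.2.2.1 T.2.2.2 hT v hε hη)
  have hcz : Continuous (fun T : UTri X => f (T.1.1 + T.1.2)) :=
    hf.continuous_comp (by fun_prop) (fun T => T.2.2.2)
  have hca : Continuous (fun T : UTri X => f T.1.1) :=
    hf.continuous_comp (by fun_prop) (fun T => T.2.1)
  have hcb : Continuous (fun T : UTri X => f T.1.2) :=
    hf.continuous_comp (by fun_prop) (fun T => T.2.2.1)
  have R4 : {T : UTri X | T ∈ (univ : Set (UTri X)) →
      Smooth ((2 : ℝ) • f T.1.1 - f (T.1.1 + T.1.2))} ∈ residual (UTri X) := by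
    refine residual_smooth_of_local isOpen_univ
      (fun T : UTri X => (2 : ℝ) • f T.1.1 - f (T.1.1 + T.1.2)) ((hca.const_smul _).sub hcz) ?_
    intro v ε hε T hT
    exact mem_closure_UTri (P := fun a b => (2 : ℝ) • f a - f (a + b) ∈ OV v ε)
      (fun η hη => hf.dens_dirfst T.2.1 T.2.2.1 T.2.2.2 v hε hη)
  have R6 : {T : UTri X | T ∈ (univ : Set (UTri X)) →
      Smooth ((2 : ℝ) • f T.1.2 - f (T.1.1 + T.1.2))} ∈ residual (UTri X) := by
    refine residual_smooth_of_local isOpen_univ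
      (fun T : UTri X => (2 : ℝ) • f T.1.2 - f (T.1.1 + T.1.2)) ((hcb.const_smul _).sub hcz) ?_
    intro v ε hε T hT
    exact mem_closure_UTri (P := fun a b => (2 : ℝ) • f b - f (a + b) ∈ OV v ε)
      (fun η hη => hf.dens_dirsnd T.2.1 T.2.2.1 T.2.2.2 v hε hη)
  filter_upwards [R1, R2, R3, R4, R5, R6] with T h1 h2 h3 h4 h5 h6 hlt
  have hz := h1 hlt
  refine ⟨T.2.1, T.2.2.1, T.2.2.2, hlt, hz, h2 hlt, ?_⟩
  by_cases hA : ‖T.1.1 + (2 : ℝ) • T.1.2‖ < 2
  · exact Or.inl ⟨h3 hA, h4 (mem_univ _)⟩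
  · by_cases hB : ‖(2 : ℝ) • T.1.1 + T.1.2‖ < 2
    · exact Or.inr ⟨h5 hB, h6 (mem_univ _)⟩
    · exfalso
      push Not at hA hB
      have hzn := T.2.2.2
      -- a norming functional of `z + b` norms both `z` and `b`
      have key : ∀ c : X, ‖c‖ = 1 → 2 ≤ ‖(T.1.1 + T.1.2) + c‖ → J (T.1.1 + T.1.2) c = 1 := by
        intro c hc h2c
        set q := J ((T.1.1 + T.1.2) + c) with hq
        have e1 : q (T.1.1 + T.1.2) + q c = ‖(T.1.1 + T.1.2) + c‖ := by
          rw [← map_add, hq, J_self]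
        have e2 : q (T.1.1 + T.1.2) ≤ 1 := by rw [← hzn]; exact J_le _ _
        have e3 : q c ≤ 1 := by rw [← hc]; exact J_le _ _
        have e4 : Norming q (T.1.1 + T.1.2) := ⟨J_norm_le _, by rw [hzn]; linarith⟩
        rw [← hz.eq_J e4]
        linarith
      have ka := key T.1.1 T.2.1 (by
        have e : (T.1.1 + T.1.2) + T.1.1 = (2 : ℝ) • T.1.1 + T.1.2 := by rw [two_smul]; abel
        rw [e]; exact hB)
      have kb := key T.1.2 T.2.2.1 (by
        have e : (T.1.1 + T.1.2) + T.1.2 = T.1.1 + (2 : ℝ) • T.1.2 := by rw [two_smul]; abel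
        rw [e]; exact hA)
      have kz := J_self (T.1.1 + T.1.2)
      rw [map_add, ka, kb, hzn] at kz
      norm_num at kz

/-- GOOD TRIANGLES OVER A GENERIC DIRECTION: for residually many directions `u`, every unit
triangle `(a,b)` with `a - b ∈ ℝ₊ u`, `‖a - b‖ < 2` is a limit of good triangles with the same
direction. -/
theorem SI.residual_goodT (hf : SI f g) [CompleteSpace X] [TopologicalSpace.SeparableSpace X]
    [TopologicalSpace.SeparableSpace Y] :
    {u : sphere (0 : X) 1 | ∀ (a b : X) (r : ℝ), ‖a‖ = 1 → ‖b‖ = 1 → ‖a + b‖ = 1 →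
      ‖a - b‖ < 2 → 0 < r → a - b = r • (u : X) → ∀ ε : ℝ, 0 < ε →
      ∃ (a' b' : X) (r' : ℝ), GoodT f a' b' ∧ 0 < r' ∧ a' - b' = r' • (u : X) ∧
        ‖a' - a‖ < ε ∧ ‖b' - b‖ < ε} ∈ residual (sphere (0 : X) 1) := by
  have : SecondCountableTopology X := UniformSpace.secondCountable_of_separable X
  have : CompleteSpace (UTri X) := isClosed_UTri.completeSpace_coe
  have hfib : ∀ u : sphere (0 : X) 1, BaireSpace {z : UTri X // dirT z = u} := by
    intro u
    have hcl : IsClosed {z : UTri X | dirT z = u} := isClosed_eq continuous_dirT continuous_const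
    have : CompleteSpace {z : UTri X | dirT z = u} := hcl.completeSpace_coe
    exact (inferInstance : BaireSpace {z : UTri X | dirT z = u})
  have hku := ku (π := (dirT : UTri X → sphere (0 : X) 1)) isOpenMap_dirT continuous_dirT hfib
    hf.residual_good
  filter_upwards [hku] with u hu
  intro a b r ha hb hab hlt hr hdir ε hε
  set T : UTri X := ⟨(a, b), ha, hb, hab⟩ with hT
  have hTu : dirT T = u := dirT_eq hr hdir
  set ε' := min ε (min 1 ((2 - ‖a - b‖) / 2)) with hε'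
  have hε'0 : 0 < ε' := lt_min hε (lt_min one_pos (by linarith))
  obtain ⟨T', hT'1, hT'2⟩ := hu (ball T ε') isOpen_ball ⟨T, mem_ball_self hε'0, hTu⟩
  have hb' := hT'1.1
  rw [mem_ball, Subtype.dist_eq, Prod.dist_eq, max_lt_iff, dist_eq_norm, dist_eq_norm] at hb'
  have h1 : ‖T'.1.1 - a‖ < ε' := hb'.1
  have h2 : ‖T'.1.2 - b‖ < ε' := hb'.2
  have h3 : ε' ≤ (2 - ‖a - b‖) / 2 := (min_le_right _ _).trans (min_le_right _ _)
  have hlt' : ‖T'.1.1 - T'.1.2‖ < 2 := by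
    have e : T'.1.1 - T'.1.2 = (a - b) + ((T'.1.1 - a) - (T'.1.2 - b)) := by abel
    rw [e]
    have h4 := norm_add_le (a - b) ((T'.1.1 - a) - (T'.1.2 - b))
    have h5 := norm_sub_le (T'.1.1 - a) (T'.1.2 - b)
    linarith
  refine ⟨T'.1.1, T'.1.2, ‖T'.1.1 - T'.1.2‖, hT'1.2 hlt', UTri_sub_ne T', ?_, ?_, ?_⟩
  · rw [← hT'2]; exact dirT_spec T'
  · exact h1.trans_le (min_le_left _ _)
  · exact h2.trans_le (min_le_left _ _)

end UTri

end Crest.Agent.R074
end

-- ▼ part R074/Nice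
section

/-!
Row 74 (S0099): nice pairs. For a generic direction `u`, for generic `m` in the open ball, all
`u`-chords over `2⁻ⁿ m` have a smooth image difference.
-/

set_option autoImplicit false

namespace Crest.Agent.R074

open Metric Set Filter Topology

section KUprod

variable {A U : Type*} [TopologicalSpace A] [TopologicalSpace U]

/-- Kuratowski–Ulam for products, one dense open set -/
theorem ku_prod_open [SecondCountableTopology A] {t : Set (A × U)} (ho : IsOpen t) (hd : Dense t) :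
    {u : U | {a : A | (a, u) ∈ t} ∈ residual A} ∈ residual U := by
  have hb := TopologicalSpace.isBasis_countableBasis A
  have hcount := TopologicalSpace.countable_countableBasis A
  have hsub : (⋂ B ∈ TopologicalSpace.countableBasis A, {u : U | ∃ a ∈ B, (a, u) ∈ t}) ⊆
      {u : U | {a : A | (a, u) ∈ t} ∈ residual A} := by
    intro u hu
    apply residual_of_dense_open
    · exact ho.preimage (by fun_prop : Continuous (fun a : A => (a, u)))
    · rw [dense_iff_inter_open]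
      rintro O hO ⟨a, ha⟩
      obtain ⟨B, hB, haB, hBO⟩ := hb.exists_subset_of_mem_open ha hO
      obtain ⟨a', ha', hat⟩ := mem_iInter₂.mp hu B hB
      exact ⟨a', hBO ha', hat⟩
  refine Filter.mem_of_superset ?_ hsub
  rw [countable_bInter_mem hcount]
  intro B hB
  have hBo : IsOpen B := hb.isOpen hB
  have hBne : B.Nonempty := TopologicalSpace.nonempty_of_mem_countableBasis hB
  apply residual_of_dense_open
  · have e : {u : U | ∃ a ∈ B, (a, u) ∈ t} = Prod.snd '' (t ∩ B ×ˢ univ) := by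
      ext u
      constructor
      · rintro ⟨a, ha, hat⟩
        exact ⟨(a, u), ⟨hat, ha, mem_univ _⟩, rfl⟩
      · rintro ⟨⟨a, u'⟩, ⟨hat, ha, _⟩, rfl⟩
        exact ⟨a, ha, hat⟩
    rw [e]
    exact isOpenMap_snd _ (ho.inter (hBo.prod isOpen_univ))
  · rw [dense_iff_inter_open]
    rintro V hV ⟨u, hu⟩
    obtain ⟨a, ha⟩ := hBne
    obtain ⟨⟨a', u'⟩, h1, h2⟩ := dense_iff_inter_open.mp hd (B ×ˢ V) (hBo.prod hV) ⟨(a, u), ha, hu⟩
    exact ⟨u', h1.2, a', h1.1, h2⟩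

/-- Kuratowski–Ulam for products -/
theorem ku_prod [SecondCountableTopology A] {R : Set (A × U)} (hR : R ∈ residual (A × U)) :
    {u : U | {a : A | (a, u) ∈ R} ∈ residual A} ∈ residual U := by
  obtain ⟨S, hSo, hSd, hSc, hSR⟩ := mem_residual_iff.mp hR
  have h1 : (⋂ t ∈ S, {u : U | {a : A | (a, u) ∈ t} ∈ residual A}) ∈ residual U := by
    rw [countable_bInter_mem hSc]
    intro t ht
    exact ku_prod_open (hSo t ht) (hSd t ht)
  refine Filter.mem_of_superset h1 ?_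
  intro u hu
  have h2 : (⋂ t ∈ S, {a : A | (a, u) ∈ t}) ∈ residual A := by
    rw [countable_bInter_mem hSc]
    intro t ht
    exact mem_iInter₂.mp hu t ht
  refine Filter.mem_of_superset h2 ?_
  intro a ha
  apply hSR
  rw [mem_sInter]
  intro t ht
  exact mem_iInter₂.mp ha t ht

end KUprod

section Nice

variable {X Y : Type*} [NormedAddCommGroup X] [NormedSpace ℝ X] [NormedAddCommGroup Y]
  [NormedSpace ℝ Y] {f : X → Y} {g : Y → X}

/-- the image difference of the `u`-chord over `v` can be moved to an `ε`-smooth direction -/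
theorem SI.dens_chord (hf : SI f g) (ho : ∀ x, ‖x‖ = 1 → f (-x) = -f x) {u v : X} (hu : ‖u‖ = 1)
    (hv : ‖v‖ < 1) (e : Y) {ε η : ℝ} (hε : 0 < ε) (hη : 0 < η) :
    ∃ u' v' : X, ‖u'‖ = 1 ∧ ‖v'‖ < 1 ∧ ‖u' - u‖ < η ∧ ‖v' - v‖ < η ∧
      f (top u' v') - f (top (-u') v') ∈ OV e ε := by
  have hu' : ‖-u‖ = 1 := by rw [norm_neg]; exact hu
  set x := top u v with hx
  set w := top (-u) v with hw
  have hxn : ‖x‖ = 1 := norm_top hu hv
  have hwn : ‖w‖ = 1 := norm_top hu' hv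
  set α := tau u v with hα
  set β := tau (-u) v with hβ
  have hα0 : 0 < α := tau_pos hu hv
  have hβ0 : 0 < β := tau_pos hu' hv
  have hxw : x - w = (α + β) • u := top_sub_top u v
  have hxwn : ‖x - w‖ = α + β := norm_top_sub_top hu hv
  have hsumlt : ‖x + w‖ < 2 := norm_top_add_top_lt hu hv
  set A := f x with hA
  set W := f w with hW
  have hAn : ‖A‖ = 1 := hf.map _ hxn
  have hWn : ‖W‖ = 1 := hf.map _ hwn
  have hAW : ‖A + W‖ < 2 := by rw [hA, hW, hf.norm_add ho hxn hwn]; exact hsumlt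
  have hAWn : ‖A - W‖ = α + β := by rw [hA, hW, hf.dist _ _ hxn hwn]; exact hxwn
  have hr0 : 0 < α + β := by linarith
  set ω : Y := (α + β)⁻¹ • (A - W) with hω
  have hωn : ‖ω‖ = 1 := by
    rw [hω, norm_smul, norm_inv, Real.norm_of_nonneg hr0.le, hAWn, inv_mul_cancel₀ hr0.ne']
  have hAWω : A - W = (α + β) • ω := by
    rw [hω, smul_smul, mul_inv_cancel₀ hr0.ne', one_smul]
  obtain ⟨hAt, hWt⟩ := chord_eq_top hAn hWn hAW hr0.le hAWω
  set M : Y := (1 / 2 : ℝ) • (A + W) with hM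
  have hMn : ‖M‖ < 1 := by
    rw [hM, norm_smul, Real.norm_of_nonneg (by norm_num)]; linarith
  -- error size
  set s : ℝ := β / (α + β) with hs
  have hs0 : 0 < s := by positivity
  have hs1 : s < 1 := by rw [hs, div_lt_one hr0]; linarith
  have hv_eq : v = s • x + (1 - s) • w := by
    have e1 : x = v + α • u := rfl
    have e2 : w = v + β • (-u) := rfl
    rw [e1, e2]
    have e3 : s * α = (1 - s) * β := by
      rw [hs]; field_simp; ring
    have : s • (v + α • u) + (1 - s) • (v + β • (-u))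
        = v + (s * α - (1 - s) * β) • u := by module
    rw [this, e3, sub_self, zero_smul, add_zero]
  set κ : ℝ := min (min (η / 2) ((1 - ‖v‖) / 2)) (min ((α + β) / 4) (η * (α + β) / 8)) with hκ
  have hκ0 : 0 < κ := by
    refine lt_min (lt_min (by positivity) ?_) (lt_min (by positivity) (by positivity))
    linarith
  have hκ1 : κ ≤ η / 2 := (min_le_left _ _).trans (min_le_left _ _)
  have hκ2 : κ ≤ (1 - ‖v‖) / 2 := (min_le_left _ _).trans (min_le_right _ _)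
  have hκ3 : κ ≤ (α + β) / 4 := (min_le_right _ _).trans (min_le_left _ _)
  have hκ4 : κ ≤ η * (α + β) / 8 := (min_le_right _ _).trans (min_le_right _ _)
  -- continuity of the ends in the direction
  have hc1 := Metric.continuousOn_iff.mp (continuousOn_top_left hMn) ω (by simpa using hωn) κ hκ0
  have hc2' : ContinuousOn (fun ω' : Y => top (-ω') M) (sphere 0 1) := by
    have h1 : ContinuousOn (fun ω' : Y => -ω') (sphere 0 1) := by fun_prop
    refine (continuousOn_top_left hMn).comp h1 ?_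
    intro ω' hω'
    simpa using hω'
  have hc2 := Metric.continuousOn_iff.mp hc2' ω (by simpa using hωn) κ hκ0
  obtain ⟨δ₁, hδ₁, hc1⟩ := hc1
  obtain ⟨δ₂, hδ₂, hc2⟩ := hc2
  obtain ⟨ω', hω1, hω2, hω3⟩ := exists_OV_sphere hωn e hε (lt_min hδ₁ hδ₂)
  have hω1' : ‖-ω'‖ = 1 := by rw [norm_neg]; exact hω1
  set A' := top ω' M with hA'
  set W' := top (-ω') M with hW'
  have hA'n : ‖A'‖ = 1 := norm_top hω1 hMn
  have hW'n : ‖W'‖ = 1 := norm_top hω1' hMn
  have hA'c : ‖A' - A‖ < κ := by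
    have := hc1 ω' (by simpa using hω1) (by
      rw [dist_eq_norm]; exact hω2.trans_le (min_le_left _ _))
    rw [dist_eq_norm, ← hAt] at this
    exact this
  have hW'c : ‖W' - W‖ < κ := by
    have := hc2 ω' (by simpa using hω1) (by
      rw [dist_eq_norm]; exact hω2.trans_le (min_le_right _ _))
    rw [dist_eq_norm, ← hWt] at this
    exact this
  have hdiff : A' - W' = (tau ω' M + tau (-ω') M) • ω' := top_sub_top _ _
  have hpos : 0 < tau ω' M + tau (-ω') M := add_pos (tau_pos hω1 hMn) (tau_pos hω1' hMn)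
  -- pull back
  set x' := g A' with hx'
  set w' := g W' with hw'
  have hx'n : ‖x'‖ = 1 := hf.imap _ hA'n
  have hw'n : ‖w'‖ = 1 := hf.imap _ hW'n
  have hfx' : f x' = A' := hf.right _ hA'n
  have hfw' : f w' = W' := hf.right _ hW'n
  have hx'c : ‖x' - x‖ < κ := by rw [← hf.dist _ _ hx'n hxn, hfx']; exact hA'c
  have hw'c : ‖w' - w‖ < κ := by rw [← hf.dist _ _ hw'n hwn, hfw']; exact hW'c
  set v' : X := s • x' + (1 - s) • w' with hv'
  have hv'c : ‖v' - v‖ < κ := by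
    have e1 : v' - v = s • (x' - x) + (1 - s) • (w' - w) := by
      rw [hv', smul_sub, smul_sub]
      conv_lhs => rw [hv_eq]
      abel
    rw [e1]
    refine (norm_add_le _ _).trans_lt ?_
    rw [norm_smul, norm_smul, Real.norm_of_nonneg hs0.le, Real.norm_of_nonneg (by linarith)]
    nlinarith
  have hv'n : ‖v'‖ < 1 := by
    have e1 : v' = v + (v' - v) := by abel
    rw [e1]
    refine (norm_add_le _ _).trans_lt ?_
    linarith
  set ρ := ‖x' - w'‖ with hρ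
  have hρc : |ρ - (α + β)| < 2 * κ := by
    rw [← hxwn, hρ]
    refine (abs_norm_sub_norm_le _ _).trans_lt ?_
    have e1 : x' - w' - (x - w) = (x' - x) - (w' - w) := by abel
    rw [e1]
    refine (norm_sub_le _ _).trans_lt ?_
    linarith
  have hρ0 : 0 < ρ := by
    have := (abs_lt.mp hρc).1
    linarith
  set u' : X := ρ⁻¹ • (x' - w') with hu'def
  have hu'n : ‖u'‖ = 1 := by
    rw [hu'def, norm_smul, norm_inv, Real.norm_of_nonneg hρ0.le, ← hρ, inv_mul_cancel₀ hρ0.ne']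
  have hu'n' : ‖-u'‖ = 1 := by rw [norm_neg]; exact hu'n
  have hx'w' : x' - w' = ρ • u' := by
    rw [hu'def, smul_smul, mul_inv_cancel₀ hρ0.ne', one_smul]
  have hu'c : ‖u' - u‖ < η := by
    have e1 : (α + β) • (u' - u) = ((α + β) - ρ) • u' + ((x' - x) - (w' - w)) := by
      have e2 : (x' - x) - (w' - w) = ρ • u' - (α + β) • u := by rw [← hx'w', ← hxw]; abel
      rw [e2]
      module
    have h1 : (α + β) * ‖u' - u‖ ≤ 4 * κ := by
      have h2 : ‖(α + β) • (u' - u)‖ = (α + β) * ‖u' - u‖ := by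
        rw [norm_smul, Real.norm_of_nonneg hr0.le]
      rw [← h2, e1]
      refine (norm_add_le _ _).trans ?_
      rw [norm_smul, hu'n, mul_one, Real.norm_eq_abs, abs_sub_comm]
      have h3 := norm_sub_le (x' - x) (w' - w)
      linarith
    have h4 : 4 * κ ≤ η * (α + β) / 2 := by linarith
    by_contra hcon
    push Not at hcon
    nlinarith
  have hxt : x' = top u' v' := by
    apply eq_top hv'n hx'n (mul_nonneg (by linarith : (0 : ℝ) ≤ 1 - s) hρ0.le)
    rw [mul_smul, ← hx'w', hv']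
    module
  have hwt : w' = top (-u') v' := by
    apply eq_top hv'n hw'n (mul_nonneg hs0.le hρ0.le)
    rw [smul_neg, mul_smul, ← hx'w', hv']
    module
  refine ⟨u', v', hu'n, hv'n, hu'c, by linarith, ?_⟩
  rw [← hxt, ← hwt, hfx', hfw', hdiff]
  exact OV_smul hω3 hpos

/-- the map `(m, u) ↦ f (top u (c m)) - f (top (-u) (c m))`, `0 < c ≤ 1` -/
theorem SI.residual_chord (hf : SI f g) (ho : ∀ x, ‖x‖ = 1 → f (-x) = -f x)
    [TopologicalSpace.SeparableSpace Y] {c : ℝ} (hc0 : 0 < c) (hc1 : c ≤ 1) :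
    {q : ball (0 : X) 1 × sphere (0 : X) 1 |
      Smooth (f (top (q.2 : X) (c • (q.1 : X))) - f (top (-(q.2 : X)) (c • (q.1 : X))))} ∈
      residual (ball (0 : X) 1 × sphere (0 : X) 1) := by
  have hin : ∀ q : ball (0 : X) 1 × sphere (0 : X) 1, ‖c • (q.1 : X)‖ < 1 := by
    intro q
    have h1 : ‖(q.1 : X)‖ < 1 := mem_ball_zero_iff.mp q.1.2
    rw [norm_smul, Real.norm_of_nonneg hc0.le]
    nlinarith [norm_nonneg (q.1 : X)]
  have hs1 : ∀ q : ball (0 : X) 1 × sphere (0 : X) 1, ‖(q.2 : X)‖ = 1 := fun q => by simp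
  have hs2 : ∀ q : ball (0 : X) 1 × sphere (0 : X) 1, ‖-(q.2 : X)‖ = 1 := fun q => by simp
  have hct : Continuous (fun q : ball (0 : X) 1 × sphere (0 : X) 1 =>
      top (q.2 : X) (c • (q.1 : X))) := by
    have h1 : Continuous (fun q : ball (0 : X) 1 × sphere (0 : X) 1 =>
        (((q.2 : X), c • (q.1 : X)) : X × X)) := by fun_prop
    exact (continuousOn_top (X := X)).comp_continuous h1 (fun q => ⟨hs1 q, hin q⟩)
  have hcb : Continuous (fun q : ball (0 : X) 1 × sphere (0 : X) 1 =>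
      top (-(q.2 : X)) (c • (q.1 : X))) := by
    have h1 : Continuous (fun q : ball (0 : X) 1 × sphere (0 : X) 1 =>
        ((-(q.2 : X), c • (q.1 : X)) : X × X)) := by fun_prop
    exact (continuousOn_top (X := X)).comp_continuous h1 (fun q => ⟨hs2 q, hin q⟩)
  have hlift : ∀ (φ : ball (0 : X) 1 × sphere (0 : X) 1 → X), Continuous φ →
      (∀ q, ‖φ q‖ = 1) → Continuous (fun q => f (φ q)) := by
    intro φ hφ h1
    have h2 : Continuous (fun z => (⟨φ z, by simpa using h1 z⟩ : sphere (0 : X) 1)) :=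
      Continuous.subtype_mk hφ _
    exact hf.continuous.comp h2
  have hφc : Continuous (fun q : ball (0 : X) 1 × sphere (0 : X) 1 =>
      f (top (q.2 : X) (c • (q.1 : X))) - f (top (-(q.2 : X)) (c • (q.1 : X)))) :=
    (hlift _ hct (fun q => norm_top (hs1 q) (hin q))).sub
      (hlift _ hcb (fun q => norm_top (hs2 q) (hin q)))
  refine residual_smooth_of_dense _ hφc ?_
  intro e ε hε
  rw [Metric.dense_iff]
  intro q η hη
  have hq1 : ‖(q.1 : X)‖ < 1 := mem_ball_zero_iff.mp q.1.2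
  obtain ⟨u', v', hu', hv', hcu, hcv, hOV⟩ := hf.dens_chord ho (hs1 q) (hin q) e hε
    (show 0 < min η (c * min η (1 - ‖(q.1 : X)‖)) from
      lt_min hη (mul_pos hc0 (lt_min hη (by linarith))))
  set m' : X := c⁻¹ • v' with hm'
  have hcm' : c • m' = v' := by rw [hm', smul_smul, mul_inv_cancel₀ hc0.ne', one_smul]
  have hm'c : ‖m' - (q.1 : X)‖ < min η (1 - ‖(q.1 : X)‖) := by
    have e1 : c • (m' - (q.1 : X)) = v' - c • (q.1 : X) := by rw [smul_sub, hcm']
    have h1 : c * ‖m' - (q.1 : X)‖ = ‖v' - c • (q.1 : X)‖ := by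
      rw [← e1, norm_smul, Real.norm_of_nonneg hc0.le]
    have h2 : ‖v' - c • (q.1 : X)‖ < c * min η (1 - ‖(q.1 : X)‖) :=
      hcv.trans_le (min_le_right _ _)
    rw [← h1] at h2
    exact lt_of_mul_lt_mul_left h2 hc0.le
  have hm'n : ‖m'‖ < 1 := by
    have e1 : m' = (q.1 : X) + (m' - (q.1 : X)) := by abel
    rw [e1]
    refine (norm_add_le _ _).trans_lt ?_
    have := hm'c.trans_le (min_le_right _ _)
    linarith
  have hmm : m' ∈ ball (0 : X) 1 := mem_ball_zero_iff.mpr hm'n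
  have hum : u' ∈ sphere (0 : X) 1 := mem_sphere_zero_iff_norm.mpr hu'
  refine ⟨(⟨m', hmm⟩, ⟨u', hum⟩), ?_, ?_⟩
  · have g1 : Dist.dist (⟨m', hmm⟩ : ball (0 : X) 1) q.1 < η := by
      rw [Subtype.dist_eq, dist_eq_norm]
      exact hm'c.trans_le (min_le_left _ _)
    have g2 : Dist.dist (⟨u', hum⟩ : sphere (0 : X) 1) q.2 < η := by
      rw [Subtype.dist_eq, dist_eq_norm]
      exact hcu.trans_le (min_le_left _ _)
    rw [mem_ball, Prod.dist_eq]
    exact max_lt g1 g2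
  · show f (top u' (c • m')) - f (top (-u') (c • m')) ∈ OV e ε
    rw [hcm']
    exact hOV

/-- NICE PAIRS: for a generic direction `u`, generic `m`: the `u`-chords over all `2⁻ⁿ m` have
smooth image differences. -/
theorem SI.residual_nice (hf : SI f g) (ho : ∀ x, ‖x‖ = 1 → f (-x) = -f x)
    [TopologicalSpace.SeparableSpace X] [TopologicalSpace.SeparableSpace Y] :
    {u : sphere (0 : X) 1 | {m : ball (0 : X) 1 | ∀ n : ℕ,
      Smooth (f (top (u : X) (((1 / 2 : ℝ) ^ n) • (m : X))) -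
        f (top (-(u : X)) (((1 / 2 : ℝ) ^ n) • (m : X))))} ∈ residual (ball (0 : X) 1)} ∈
      residual (sphere (0 : X) 1) := by
  have : SecondCountableTopology X := UniformSpace.secondCountable_of_separable X
  have h1 : ∀ n : ℕ, {u : sphere (0 : X) 1 | {m : ball (0 : X) 1 |
      (m, u) ∈ {q : ball (0 : X) 1 × sphere (0 : X) 1 |
      Smooth (f (top (q.2 : X) (((1 / 2 : ℝ) ^ n) • (q.1 : X))) -
        f (top (-(q.2 : X)) (((1 / 2 : ℝ) ^ n) • (q.1 : X))))}} ∈ residual (ball (0 : X) 1)} ∈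
      residual (sphere (0 : X) 1) := by
    intro n
    exact ku_prod (hf.residual_chord ho (by positivity)
      (pow_le_one₀ (by norm_num) (by norm_num)))
  have h2 := countable_iInter_mem.mpr h1
  refine Filter.mem_of_superset h2 ?_
  intro u hu
  have h3 : ∀ n : ℕ, {m : ball (0 : X) 1 | Smooth (f (top (u : X) (((1 / 2 : ℝ) ^ n) • (m : X))) -
        f (top (-(u : X)) (((1 / 2 : ℝ) ^ n) • (m : X))))} ∈ residual (ball (0 : X) 1) := by
    intro n
    exact mem_iInter.mp hu n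
  have h4 := countable_iInter_mem.mpr h3
  refine Filter.mem_of_superset h4 ?_
  intro m hm
  exact fun n => mem_iInter.mp hm n

/-- metric form of `residual_nice` -/
theorem exists_nice [CompleteSpace X] {u : X} {P : X → Prop}
    (h : {m : ball (0 : X) 1 | P m} ∈ residual (ball (0 : X) 1)) {m : X} (hm : ‖m‖ < 1) {ε : ℝ}
    (hε : 0 < ε) : ∃ m' : X, ‖m'‖ < 1 ∧ ‖m' - m‖ < ε ∧ P m' := by
  have : BaireSpace (ball (0 : X) 1) := isOpen_ball.baireSpace
  have hd := dense_of_mem_residual h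
  rw [Metric.dense_iff] at hd
  obtain ⟨m', h1, h2⟩ := hd ⟨m, mem_ball_zero_iff.mpr hm⟩ ε hε
  refine ⟨m', mem_ball_zero_iff.mp m'.2, ?_, h2⟩
  rwa [mem_ball, Subtype.dist_eq, dist_eq_norm] at h1

end Nice

end Crest.Agent.R074
end

-- ▼ part R074/Doubling
section

/-!
Row 74 (S0099), the doubling lemma (helper401's note 8188 (II)): for a unit triangle
`a, b, z = a + b` with `f a`, `f z`, `2 f a - f z` smooth and `‖a - b‖ < 2`, every functional
norming `f z - f w`, where `z - w` is a positive multiple of a vector of a half-open segment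
`[u, c₀)` of the unit sphere starting at the direction `u` of `a - b`, agrees with
`J (2 f a - f z)` on `ker J (f z)`.

The blow-up of `g` is used only through homogeneity along single rays (`Hom`).
-/

set_option autoImplicit false

namespace Crest.Agent.R074

open Metric Set Filter Topology Asymptotics

section Nu

variable {X : Type*} [NormedAddCommGroup X] [NormedSpace ℝ X]

namespace Dbl

/-- normalisation -/
noncomputable def nu (z : X) : X := ‖z‖⁻¹ • z

theorem norm_nu {z : X} (hz : z ≠ 0) : ‖nu z‖ = 1 := by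
  rw [nu, norm_smul, norm_inv, norm_norm, inv_mul_cancel₀ (norm_ne_zero_iff.mpr hz)]

theorem norm_nu_sub {z : X} (hz : z ≠ 0) : ‖nu z - z‖ = |1 - ‖z‖| := by
  have h0 : ‖z‖ ≠ 0 := norm_ne_zero_iff.mpr hz
  have e : nu z - z = (‖z‖⁻¹ - 1) • z := by rw [nu, sub_smul, one_smul]
  rw [e, norm_smul, Real.norm_eq_abs]
  have h1 : |‖z‖⁻¹ - 1| * ‖z‖ = |(‖z‖⁻¹ - 1) * ‖z‖| := by
    rw [abs_mul, abs_of_nonneg (norm_nonneg z)]
  rw [h1, sub_mul, inv_mul_cancel₀ h0, one_mul]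

/-- crude Lipschitz bound of `nu` at a unit vector -/
theorem norm_nu_sub_le {y z : X} (hy : ‖y‖ = 1) (hz : z ≠ 0) : ‖nu z - y‖ ≤ 2 * ‖z - y‖ := by
  have h1 : ‖nu z - y‖ ≤ ‖nu z - z‖ + ‖z - y‖ := norm_sub_le_norm_sub_add_norm_sub _ _ _
  rw [norm_nu_sub hz] at h1
  have h2 : |1 - ‖z‖| ≤ ‖z - y‖ := by
    rw [← hy, abs_sub_comm]; exact abs_norm_sub_norm_le _ _
  linarith

end Dbl

open Dbl

/-- second order: at a smooth unit vector the normalisation is a first-order identity on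
tangent rays -/
theorem Smooth.nu_isLittleO {y v : X} (hy : ‖y‖ = 1) (hs : Smooth y) (hv : J y v = 0) {l : Filter ℝ}
    (hl : l ≤ 𝓝 0) (τ : ℝ → ℝ) {M : ℝ} (hτ : ∀ r, |τ r| ≤ M) :
    (fun r : ℝ => nu (y + (τ r * r) • v) - (y + (τ r * r) • v)) =o[l] (fun r => r) := by
  have hM : 0 ≤ M := (abs_nonneg _).trans (hτ 0)
  rw [isLittleO_iff]
  intro c hc
  obtain ⟨δ, hδ, hd⟩ := hs.deriv v (ε := c / (M + 1)) (by positivity)
  have hev : ∀ᶠ r : ℝ in l, |r| < δ / (M + 1) ∧ |r| * (M + 1) * ‖v‖ < 1 := by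
    have h1 : ∀ᶠ r : ℝ in 𝓝 0, |r| < δ / (M + 1) := by
      have := Metric.ball_mem_nhds (0 : ℝ) (show 0 < δ / (M + 1) by positivity)
      filter_upwards [this] with r hr
      simpa [Real.dist_eq] using hr
    have h2 : ∀ᶠ r : ℝ in 𝓝 0, |r| < 1 / ((M + 1) * (‖v‖ + 1)) := by
      have := Metric.ball_mem_nhds (0 : ℝ) (show 0 < 1 / ((M + 1) * (‖v‖ + 1)) by positivity)
      filter_upwards [this] with r hr
      simpa [Real.dist_eq] using hr
    filter_upwards [hl (h1.and h2)] with r hr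
    refine ⟨hr.1, ?_⟩
    have h3 := hr.2
    rw [lt_div_iff₀ (by positivity)] at h3
    have h4 : |r| * (M + 1) * ‖v‖ ≤ |r| * ((M + 1) * (‖v‖ + 1)) := by
      have : 0 ≤ |r| * (M + 1) := by positivity
      nlinarith
    linarith
  filter_upwards [hev] with r hr
  have habs : |τ r * r| ≤ M * |r| := by
    rw [abs_mul]; exact mul_le_mul_of_nonneg_right (hτ r) (abs_nonneg _)
  have hle : |τ r * r| ≤ δ := by
    have h1 := hr.1
    rw [lt_div_iff₀ (by positivity)] at h1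
    nlinarith [abs_nonneg r]
  have hne : y + (τ r * r) • v ≠ 0 := by
    intro h0
    have h1 : ‖y‖ = |τ r * r| * ‖v‖ := by
      have : y = -((τ r * r) • v) := eq_neg_of_add_eq_zero_left h0
      rw [this, norm_neg, norm_smul, Real.norm_eq_abs]
    rw [hy] at h1
    have h2 : |τ r * r| * ‖v‖ ≤ |r| * (M + 1) * ‖v‖ := by
      apply mul_le_mul_of_nonneg_right _ (norm_nonneg _)
      nlinarith [abs_nonneg r]
    linarith [hr.2]
  rw [norm_nu_sub hne]
  have h1 := hd _ hle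
  have h2 := norm_add_smul_ge y v (τ r * r)
  rw [hv, hy] at h1 h2
  have h3 : c / (M + 1) * |τ r * r| ≤ c * |r| := by
    have h4 : c / (M + 1) * |τ r * r| ≤ c / (M + 1) * (M * |r|) :=
      mul_le_mul_of_nonneg_left habs (by positivity)
    have h5 : c / (M + 1) * (M * |r|) ≤ c * |r| := by
      rw [div_mul_eq_mul_div, div_le_iff₀ (by positivity)]
      have : 0 ≤ c * |r| := by positivity
      nlinarith
    linarith
  rw [Real.norm_eq_abs]
  rw [abs_le]
  constructor <;> linarith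

/-- flat segments propagate smoothness from an endpoint to the centre -/
theorem Smooth.of_flat {x e : X} (h1 : ‖x + e‖ = ‖x‖) (h2 : ‖x - e‖ = ‖x‖) (hs : Smooth (x + e)) :
    Smooth x ∧ J x = J (x + e) ∧ J x e = 0 := by
  have key : ∀ p : X →L[ℝ] ℝ, Norming p x → p e = 0 ∧ p = J (x + e) := by
    intro p hp
    have h3 := hp.le (x + e)
    have h4 := hp.le (x - e)
    rw [map_add, hp.2, h1] at h3
    rw [map_sub, hp.2, h2] at h4
    have h5 : p e = 0 := by linarith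
    refine ⟨h5, hs.eq_J ⟨hp.1, ?_⟩⟩
    rw [map_add, hp.2, h5, h1, add_zero]
  refine ⟨smooth_of_unique fun p q hp hq => ?_, (key _ (J_norming x)).2, (key _ (J_norming x)).1⟩
  rw [(key p hp).2, (key q hq).2]

end Nu

section Doubling

open Dbl

variable {X Y : Type*} [NormedAddCommGroup X] [NormedSpace ℝ X] [NormedAddCommGroup Y]
  [NormedSpace ℝ Y] {f : X → Y} {g : Y → X}

/-- homogeneity of the blow-up of `g` at `y` along the ray `α` -/
def Hom (g : Y → X) (y α : Y) : Prop :=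
  ∀ t : ℝ, (fun r : ℝ => g (nu (y + (t * r) • α)) - g y - t • (g (nu (y + r • α)) - g y))
    =o[𝓝[>] (0 : ℝ)] (fun r => r)

/-- admissible partners: on the sphere of `Y`, for `Z, A` with `‖Z - A‖ = 1`, `A` smooth and
`|J A (Z - A)| < 1`, the constraint `‖Z_r - A_r‖ = 1` can be kept while `Z` moves linearly. -/
theorem exists_partner {Z A ζ : Y} (hZ : ‖Z‖ = 1) (hA : ‖A‖ = 1) (hZA : ‖Z - A‖ = 1)
    (hs : Smooth A) (hc : |J A (Z - A)| < 1) :
    ∃ M : ℝ, 0 ≤ M ∧ ∀ᶠ r : ℝ in 𝓝[>] (0 : ℝ), ∃ t : ℝ, |t| ≤ M ∧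
      ‖nu (Z + r • ζ) - nu (A + (t * r) • ((Z - A) - J A (Z - A) • A))‖ = 1 := by
  set c : ℝ := J A (Z - A) with hcdef
  set β : Y := (Z - A) - c • A with hβ
  have hJβ : J A β = 0 := by
    rw [hβ, map_sub, map_smul, J_self, hA, smul_eq_mul, mul_one, ← hcdef, sub_self]
  set M : ℝ := (2 * ‖ζ‖ + 1) / (1 - |c|) with hM
  have h1c : 0 < 1 - |c| := by linarith
  have hM0 : 0 < M := by rw [hM]; positivity
  have hMc : M * (1 - |c|) = 2 * ‖ζ‖ + 1 := by rw [hM]; field_simp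
  refine ⟨M, hM0.le, ?_⟩
  have hlo : 𝓝[>] (0 : ℝ) ≤ 𝓝 0 := nhdsWithin_le_nhds
  have he1 := hs.nu_isLittleO hA hJβ hlo (fun _ => M) (M := M) (fun _ => by rw [abs_of_pos hM0])
  have he2 := hs.nu_isLittleO hA hJβ hlo (fun _ => -M) (M := M)
    (fun _ => by rw [abs_neg, abs_of_pos hM0])
  have hb1 := he1.def (c := 1) one_pos
  have hb2 := he2.def (c := 1) one_pos
  have hsmall : ∀ᶠ r : ℝ in 𝓝[>] (0 : ℝ), 0 < r ∧ r * ‖ζ‖ < 1 ∧ r * M * ‖β‖ < 1 ∧ r * M < 1 := by
    have h0 : ∀ᶠ r : ℝ in 𝓝[>] (0 : ℝ), 0 < r := self_mem_nhdsWithin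
    have hcon : ∀ C : ℝ, ∀ᶠ r : ℝ in 𝓝[>] (0 : ℝ), r * C < 1 := by
      intro C
      have : Tendsto (fun r : ℝ => r * C) (𝓝[>] (0 : ℝ)) (𝓝 (0 * C)) :=
        (tendsto_id.mul_const C).mono_left hlo
      rw [zero_mul] at this
      exact this.eventually_lt_const one_pos
    filter_upwards [h0, hcon ‖ζ‖, hcon (M * ‖β‖), hcon M] with r h1 h2 h3 h4
    exact ⟨h1, h2, by linarith [mul_assoc r M ‖β‖], h4⟩
  filter_upwards [hb1, hb2, hsmall] with r hr1 hr2 hr3
  obtain ⟨hr0, hrζ, hrβ, hrM⟩ := hr3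
  rw [Real.norm_of_nonneg hr0.le, one_mul] at hr1 hr2
  -- non-vanishing
  have hne : ∀ t : ℝ, |t| ≤ M → A + (t * r) • β ≠ 0 := by
    intro t ht h0
    have h1 : ‖A‖ = |t * r| * ‖β‖ := by
      have : A = -((t * r) • β) := eq_neg_of_add_eq_zero_left h0
      rw [this, norm_neg, norm_smul, Real.norm_eq_abs]
    rw [hA, abs_mul, abs_of_pos hr0] at h1
    have h2 : |t| * r * ‖β‖ ≤ r * M * ‖β‖ := by
      apply mul_le_mul_of_nonneg_right _ (norm_nonneg _)
      nlinarith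
    linarith
  have hneZ : Z + r • ζ ≠ 0 := by
    intro h0
    have h1 : ‖Z‖ = r * ‖ζ‖ := by
      have : Z = -(r • ζ) := eq_neg_of_add_eq_zero_left h0
      rw [this, norm_neg, norm_smul, Real.norm_of_nonneg hr0.le]
    rw [hZ] at h1
    linarith
  have hZr : ‖nu (Z + r • ζ) - Z‖ ≤ 2 * (r * ‖ζ‖) := by
    have := norm_nu_sub_le hZ hneZ
    rwa [add_sub_cancel_left, norm_smul, Real.norm_of_nonneg hr0.le] at this
  set φ : ℝ → ℝ := fun t => ‖nu (Z + r • ζ) - nu (A + (t * r) • β)‖ with hφ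
  have hcont : ContinuousOn φ (Icc (-M) M) := by
    apply ContinuousOn.norm
    apply continuousOn_const.sub
    intro t ht
    have h1 : ‖A + (t * r) • β‖ ≠ 0 := norm_ne_zero_iff.mpr (hne t (abs_le.mpr ht))
    apply ContinuousAt.continuousWithinAt
    unfold Dbl.nu
    apply ContinuousAt.smul
    · refine ContinuousAt.inv₀ (f := fun x : ℝ => ‖A + (x * r) • β‖) ?_ h1
      fun_prop
    · fun_prop
  -- value at `M`
  have hup : φ M ≤ 1 := by
    have e : nu (Z + r • ζ) - nu (A + (M * r) • β)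
        = (nu (Z + r • ζ) - Z) + ((1 - M * r) • (Z - A) + (M * r * c) • A)
          - (nu (A + (M * r) • β) - (A + (M * r) • β)) := by
      rw [hβ]; module
    have h1 : ‖(1 - M * r) • (Z - A) + (M * r * c) • A‖ ≤ (1 - M * r) + M * r * |c| := by
      refine (norm_add_le _ _).trans ?_
      rw [norm_smul, norm_smul, hZA, hA, Real.norm_of_nonneg (by nlinarith), Real.norm_eq_abs,
        abs_mul, abs_of_nonneg (by positivity : (0 : ℝ) ≤ M * r)]
      linarith
    show ‖nu (Z + r • ζ) - nu (A + (M * r) • β)‖ ≤ 1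
    rw [e]
    refine (norm_sub_le _ _).trans ?_
    have h2 := norm_add_le (nu (Z + r • ζ) - Z) ((1 - M * r) • (Z - A) + (M * r * c) • A)
    have h3 : M * r - M * r * |c| = (2 * ‖ζ‖ + 1) * r := by rw [← hMc]; ring
    nlinarith
  -- value at `-M`
  have hdn : 1 ≤ φ (-M) := by
    have e : (Z - A) - (-M * r) • β = nu (Z + r • ζ) - nu (A + (-M * r) • β)
        - (nu (Z + r • ζ) - Z) + (nu (A + (-M * r) • β) - (A + (-M * r) • β)) := by
      module
    have h1 : 1 + M * r * (1 - |c|) ≤ ‖(Z - A) - (-M * r) • β‖ := by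
      have e2 : (Z - A) = (1 / (1 + M * r)) • ((Z - A) - (-M * r) • β)
          + ((M * r) / (1 + M * r)) • (c • A) := by
        have hne1 : (1 + M * r) ≠ 0 := by positivity
        rw [hβ]
        match_scalars <;> field_simp <;> ring
      have h3 : ‖Z - A‖ ≤ (1 / (1 + M * r)) * ‖(Z - A) - (-M * r) • β‖
          + ((M * r) / (1 + M * r)) * |c| := by
        conv_lhs => rw [e2]
        refine (norm_add_le _ _).trans ?_
        rw [norm_smul, norm_smul, norm_smul, hA, Real.norm_of_nonneg (by positivity),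
          Real.norm_of_nonneg (by positivity), Real.norm_eq_abs, mul_one]
      rw [hZA] at h3
      have hpos : 0 < 1 + M * r := by positivity
      have h4 := mul_le_mul_of_nonneg_left h3 hpos.le
      have h5 : (1 + M * r) * (1 / (1 + M * r) * ‖(Z - A) - (-M * r) • β‖
          + M * r / (1 + M * r) * |c|) = ‖(Z - A) - (-M * r) • β‖ + M * r * |c| := by
        field_simp
      rw [h5] at h4
      linarith
    have h2 : ‖(Z - A) - (-M * r) • β‖ ≤ φ (-M) + ‖nu (Z + r • ζ) - Z‖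
        + ‖nu (A + (-M * r) • β) - (A + (-M * r) • β)‖ := by
      rw [e]
      refine (norm_add_le _ _).trans ?_
      gcongr
      exact norm_sub_le _ _
    have h3 : M * r * (1 - |c|) = (2 * ‖ζ‖ + 1) * r := by rw [← hMc]; ring
    nlinarith
  obtain ⟨t, ht, ht1⟩ := intermediate_value_Icc' (by linarith : -M ≤ M) hcont ⟨hup, hdn⟩
  exact ⟨t, abs_le.mpr ht, ht1⟩

omit [NormedSpace ℝ X] in
/-- `g` preserves distances of normalised vectors -/
theorem SI.norm_g_sub (h : SI f g) {y y' : Y} (hy : y ≠ 0) (hy' : y' ≠ 0) :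
    ‖g (nu y) - g (nu y')‖ = ‖nu y - nu y'‖ :=
  h.symm.dist _ _ (norm_nu hy) (norm_nu hy')

set_option maxHeartbeats 4000000 in
/-- the key one-sided estimate (proof steps (1), (2) of note 8188) -/
theorem doubling_aux (h : SI f g) (ho : ∀ x, ‖x‖ = 1 → f (-x) = -f x) {a b : X} (ha : ‖a‖ = 1)
    (hb : ‖b‖ = 1) (hab : ‖a + b‖ = 1) (hlt : ‖a - b‖ < 2) (hZ : Smooth (f (a + b)))
    (hA : Smooth (f a)) (hC : Smooth ((2 : ℝ) • f a - f (a + b)))
    (homZ : ∀ ζ, J (f (a + b)) ζ = 0 → Hom g (f (a + b)) ζ)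
    (homA : ∀ α, J (f a) α = 0 → Hom g (f a) α)
    {ζ : Y} (hζ : J (f (a + b)) ζ = 0) (k : ℝ) {ε : ℝ} (hε : 0 < ε)
    {U : Ultrafilter ℝ} (hU : (U : Filter ℝ) ≤ 𝓝[>] (0 : ℝ)) :
    ∀ᶠ r : ℝ in (U : Filter ℝ), ‖a - b + k • (g (nu (f (a + b) + r • ζ)) - g (f (a + b)))‖
      ≤ ‖a - b‖ + r * (k * J ((2 : ℝ) • f a - f (a + b)) ζ) + ε * r := by
  set z : X := a + b with hz
  set A : Y := f a with hAdef
  set B : Y := f b with hBdef
  set Z : Y := f z with hZdef
  have hA1 : ‖A‖ = 1 := h.map a ha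
  have hB1 : ‖B‖ = 1 := h.map b hb
  have hZ1 : ‖Z‖ = 1 := h.map z hab
  have hgA : g A = a := h.left a ha
  have hgB : g B = b := h.left b hb
  have hgZ : g Z = z := h.left z hab
  have hZA : ‖Z - A‖ = 1 := by
    rw [hZdef, hAdef, h.dist z a hab ha, hz, add_sub_cancel_left]; exact hb
  -- flatness
  have hflat := h.symm.flat (h.odd_symm ho) (a := A) (b := B) hA1 hB1
    (by rw [hAdef, hBdef, h.norm_add ho ha hb]; exact hab)
  rw [hgA, hgB, ← hz, ← hZdef] at hflat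
  have eC : A - B + (A + B - Z) = (2 : ℝ) • A - Z := by rw [two_smul]; abel
  obtain ⟨hABs, hABJ, hABD⟩ := Smooth.of_flat hflat.1 hflat.2 (by rw [eC]; exact hC)
  rw [eC] at hABJ
  set qt : Y →L[ℝ] ℝ := J ((2 : ℝ) • A - Z) with hqt
  -- the constant
  have hcA : |J A (Z - A)| < 1 := by
    have h1 : ‖(2 : ℝ) • A - Z‖ = ‖a - b‖ := by
      rw [← eC, hflat.1, hAdef, hBdef, h.dist a b ha hb]
    have h2 := J_le A ((2 : ℝ) • A - Z)
    have h3 := J_le A Z
    rw [map_sub, map_smul, J_self, hA1, smul_eq_mul, h1] at h2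
    rw [map_sub, J_self, hA1, abs_lt]
    rw [hZ1] at h3
    constructor <;> linarith
  obtain ⟨M, hM, hpart⟩ := exists_partner (ζ := (-(2 * k)) • ζ) hZ1 hA1 hZA hA hcA
  set β : Y := (Z - A) - J A (Z - A) • A with hβ
  have hJβ : J A β = 0 := by
    rw [hβ, map_sub, map_smul, J_self, hA1, smul_eq_mul, mul_one, sub_self]
  -- choose the partner
  classical
  set τ : ℝ → ℝ := fun r => if hr : ∃ t : ℝ, |t| ≤ M ∧
      ‖nu (Z + r • (-(2 * k)) • ζ) - nu (A + (t * r) • β)‖ = 1 then Classical.choose hr else 0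
    with hτ
  have hτM : ∀ r, |τ r| ≤ M := by
    intro r
    simp only [hτ]
    split_ifs with hr
    · exact (Classical.choose_spec hr).1
    · simpa using hM
  have hτ1 : ∀ᶠ r : ℝ in (U : Filter ℝ),
      ‖nu (Z + r • (-(2 * k)) • ζ) - nu (A + (τ r * r) • β)‖ = 1 := by
    filter_upwards [hU hpart] with r hr
    have : τ r = Classical.choose hr := by simp only [hτ]; rw [dif_pos hr]
    rw [this]
    exact (Classical.choose_spec hr).2
  -- limit of τ
  obtain ⟨t0, ht0⟩ : ∃ t0 : ℝ, Tendsto τ U (𝓝 t0) := by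
    have hc : IsCompact (Set.Icc (-M) M) := isCompact_Icc
    have hmem : (U.map τ : Filter ℝ) ≤ 𝓟 (Set.Icc (-M) M) := by
      rw [le_principal_iff, Ultrafilter.coe_map, mem_map]
      apply Filter.univ_mem'
      intro i
      exact _root_.abs_le.mp (hτM i)
    obtain ⟨a, _, hle⟩ := hc.ultrafilter_le_nhds _ hmem
    exact ⟨a, hle⟩
  have hU0 : (U : Filter ℝ) ≤ 𝓝 0 := hU.trans nhdsWithin_le_nhds
  have hidU : Tendsto (fun r : ℝ => r) U (𝓝 0) := hU0
  -- little-o facts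
  -- A-side
  have oA1 := hA.nu_isLittleO hA1 hJβ hU0 τ hτM
  have oA2 := hA.nu_isLittleO hA1 hJβ hU0 (fun _ => t0) (M := |t0|) (fun _ => le_rfl)
  have oA3 := hA.nu_isLittleO hA1 hJβ hU0 (fun _ => -(2 * t0)) (M := |-(2 * t0)|)
    (fun _ => le_rfl)
  have oHA1 := (homA β hJβ t0).mono hU
  have oHA2 := (homA β hJβ (-(2 * t0))).mono hU
  -- Z-side
  have oZ1 := hZ.nu_isLittleO hZ1 hζ hU0 (fun _ => -(2 * k)) (M := |-(2 * k)|) (fun _ => le_rfl)
  have oHZ1 := (homZ ζ hζ (-(2 * k))).mono hU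
  -- τ r vs t0
  have oτ : (fun r : ℝ => (τ r * r) • β - (t0 * r) • β) =o[(U : Filter ℝ)] (fun r => r) := by
    have h1 : (fun r : ℝ => (τ r * r) • β - (t0 * r) • β) = fun r => r • ((τ r - t0) • β) := by
      ext r; module
    rw [h1]
    have h2 : Tendsto (fun r => (τ r - t0) • β) U (𝓝 0) := by
      have : Tendsto (fun r => (τ r - t0) • β) U (𝓝 ((t0 - t0) • β)) :=
        (ht0.sub_const t0).smul_const β
      rwa [sub_self, zero_smul] at this
    have h3 : (fun r => (τ r - t0) • β) =o[(U : Filter ℝ)] (fun _ => (1 : ℝ)) :=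
      (isLittleO_one_iff ℝ).mpr h2
    have h4 := (isBigO_refl (fun r : ℝ => r) (U : Filter ℝ)).smul_isLittleO h3
    simpa using h4
  -- nonvanishing
  have hne : ∀ (y v : Y), ‖y‖ = 1 → ∀ σ : ℝ → ℝ, (∃ N, ∀ r, |σ r| ≤ N) →
      ∀ᶠ r : ℝ in (U : Filter ℝ), y + (σ r * r) • v ≠ 0 := by
    intro y v hy σ hσ
    obtain ⟨N, hN⟩ := hσ
    have h1 : Tendsto (fun r : ℝ => (σ r * r) • v) U (𝓝 0) := by
      have h2 : Tendsto (fun r : ℝ => σ r * r) U (𝓝 0) := by
        refine squeeze_zero_norm (a := fun r => N * |r|) (fun r => ?_) ?_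
        · rw [Real.norm_eq_abs, abs_mul]
          exact mul_le_mul_of_nonneg_right (hN r) (abs_nonneg _)
        · have := (hidU.abs).const_mul N
          simpa using this
      have := h2.smul_const v
      rwa [zero_smul] at this
    have h2 : Tendsto (fun r : ℝ => y + (σ r * r) • v) U (𝓝 (y + 0)) := tendsto_const_nhds.add h1
    rw [add_zero] at h2
    have h3 : y ≠ 0 := by intro h0; rw [h0, norm_zero] at hy; norm_num at hy
    exact h2.eventually_ne h3
  have nA1 := hne A β hA1 τ ⟨M, hτM⟩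
  have nA2 := hne A β hA1 (fun _ => t0) ⟨|t0|, fun _ => le_rfl⟩
  have nA3 := hne A β hA1 (fun _ => -(2 * t0)) ⟨|-(2 * t0)|, fun _ => le_rfl⟩
  have nZ1 := hne Z ζ hZ1 (fun _ => -(2 * k)) ⟨|-(2 * k)|, fun _ => le_rfl⟩
  -- derivative estimates
  set η : ℝ := ε / 12 with hη
  have hη0 : 0 < η := by positivity
  obtain ⟨δ1, hδ1, hd1⟩ := hC.deriv ((2 * t0) • β + (2 * k) • ζ) hη0
  obtain ⟨δ2, hδ2, hd2⟩ := hABs.deriv (-(2 * t0) • β) hη0
  have hsmall : ∀ᶠ r : ℝ in (U : Filter ℝ), 0 < r ∧ r < δ1 ∧ r < δ2 := by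
    have h0 : ∀ᶠ r : ℝ in (U : Filter ℝ), 0 < r := hU self_mem_nhdsWithin
    exact h0.and ((hidU.eventually_lt_const hδ1).and (hidU.eventually_lt_const hδ2))
  filter_upwards [hτ1, oA1.def hη0, oA2.def hη0, oA3.def hη0, oHA1.def hη0, oHA2.def hη0,
    oZ1.def hη0, oHZ1.def hη0, oτ.def hη0, nA1, nA2, nA3, nZ1, hsmall] with r
    c0 c1 c2 c3 c4 c5 c6 c7 c8 n1 n2 n3 n4 c9
  obtain ⟨hr0, hr1, hr2⟩ := c9
  rw [Real.norm_of_nonneg hr0.le] at c1 c2 c3 c4 c5 c6 c7 c8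
  rw [hgA] at c4 c5
  rw [hgZ] at c7 ⊢
  have eZr : Z + r • (-(2 * k)) • ζ = Z + (-(2 * k) * r) • ζ := by rw [smul_smul, mul_comm]
  rw [eZr] at c0
  -- abbreviations
  set Ar : Y := nu (A + (τ r * r) • β) with hAr
  set Zr : Y := nu (Z + (-(2 * k) * r) • ζ) with hZr
  set ξ : X := g (nu (A + r • β)) - a with hξ
  set w : X := g (nu (Z + r • ζ)) - z with hw
  have hAr1 : ‖Ar‖ = 1 := norm_nu n1
  have hZr1 : ‖Zr‖ = 1 := norm_nu n4
  -- centre identity
  have hcen : ‖(2 : ℝ) • Ar - Zr‖ = ‖(2 : ℝ) • g Ar - g Zr‖ := h.symm.centre hZr1 hAr1 c0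
  -- estimate of 2 Ar - Zr
  have hest1 : ‖(2 : ℝ) • Ar - Zr‖ ≤ ‖a - b‖ + r * (2 * t0 * qt β + 2 * k * qt ζ) + 6 * η * r := by
    have e : (2 : ℝ) • Ar - Zr = ((2 : ℝ) • A - Z + r • ((2 * t0) • β + (2 * k) • ζ))
        + (2 : ℝ) • (Ar - (A + (τ r * r) • β)) + (2 : ℝ) • ((τ r * r) • β - (t0 * r) • β)
        - (Zr - (Z + (-(2 * k) * r) • ζ)) := by
      module
    have h1 := hd1 r (by rw [abs_of_pos hr0]; exact hr1.le)
    rw [abs_of_pos hr0, ← hqt, map_add, map_smul, map_smul, smul_eq_mul, smul_eq_mul] at h1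
    have h2 : ‖(2 : ℝ) • A - Z‖ = ‖a - b‖ := by
      rw [← eC, hflat.1, hAdef, hBdef, h.dist a b ha hb]
    rw [h2] at h1
    rw [e]
    refine (norm_sub_le _ _).trans ?_
    refine (add_le_add_left (norm_add_le _ _) _).trans ?_
    refine (add_le_add_left (add_le_add_left (norm_add_le _ _) _) _).trans ?_
    rw [norm_smul, norm_smul, Real.norm_of_nonneg (by norm_num : (0 : ℝ) ≤ 2)]
    nlinarith
  -- `g Ar`
  have hest2 : ‖g Ar - a - t0 • ξ‖ ≤ 4 * η * r := by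
    have h1 : ‖g Ar - g (nu (A + (t0 * r) • β))‖ ≤ 3 * η * r := by
      rw [hAr, h.norm_g_sub n1 n2]
      have e : nu (A + (τ r * r) • β) - nu (A + (t0 * r) • β)
          = (nu (A + (τ r * r) • β) - (A + (τ r * r) • β)) + ((τ r * r) • β - (t0 * r) • β)
            - (nu (A + (t0 * r) • β) - (A + (t0 * r) • β)) := by abel
      rw [e]
      refine (norm_sub_le _ _).trans ?_
      refine (add_le_add_left (norm_add_le _ _) _).trans ?_
      linarith
    have e : g Ar - a - t0 • ξ = (g Ar - g (nu (A + (t0 * r) • β)))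
        + (g (nu (A + (t0 * r) • β)) - a - t0 • ξ) := by abel
    rw [e]
    refine (norm_add_le _ _).trans ?_
    linarith
  have hest3 : ‖a - b + (2 * t0) • ξ + (2 * k) • w‖
      ≤ ‖a - b‖ + r * (2 * t0 * qt β + 2 * k * qt ζ) + 15 * η * r := by
    have e : a - b + (2 * t0) • ξ + (2 * k) • w = ((2 : ℝ) • g Ar - g Zr)
        - (2 : ℝ) • (g Ar - a - t0 • ξ) + (g Zr - z - (-(2 * k)) • w) := by
      rw [hz]; module
    rw [e]
    refine (norm_add_le _ _).trans ?_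
    refine (add_le_add_left (norm_sub_le _ _) _).trans ?_
    rw [norm_smul, Real.norm_of_nonneg (by norm_num : (0 : ℝ) ≤ 2), ← hcen]
    linarith
  have hest4 : ‖a - b - (2 * t0) • ξ‖ ≤ ‖a - b‖ - r * (2 * t0 * qt β) + 3 * η * r := by
    have h1 : ‖g (nu (A + (-(2 * t0) * r) • β)) - b‖ = ‖nu (A + (-(2 * t0) * r) • β) - B‖ := by
      have := h.symm.dist _ _ (norm_nu n3) hB1
      rwa [hgB] at this
    have h2 : ‖nu (A + (-(2 * t0) * r) • β) - B‖ ≤ ‖A - B + r • (-(2 * t0) • β)‖ + η * r := by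
      have e : nu (A + (-(2 * t0) * r) • β) - B = (A - B + r • (-(2 * t0) • β))
          + (nu (A + (-(2 * t0) * r) • β) - (A + (-(2 * t0) * r) • β)) := by module
      rw [e]
      refine (norm_add_le _ _).trans ?_
      linarith
    have h3 := hd2 r (by rw [abs_of_pos hr0]; exact hr2.le)
    rw [abs_of_pos hr0, hABJ, map_smul, smul_eq_mul] at h3
    have h4 : ‖A - B‖ = ‖a - b‖ := h.dist a b ha hb
    rw [h4] at h3
    have e : a - b - (2 * t0) • ξ = (g (nu (A + (-(2 * t0) * r) • β)) - b)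
        - (g (nu (A + (-(2 * t0) * r) • β)) - a - (-(2 * t0)) • ξ) := by
      module
    rw [e]
    refine (norm_sub_le _ _).trans ?_
    rw [h1]
    nlinarith
  have e : a - b + k • w = (1 / 2 : ℝ) • (a - b + (2 * t0) • ξ + (2 * k) • w)
      + (1 / 2 : ℝ) • (a - b - (2 * t0) • ξ) := by
    module
  rw [e]
  refine (norm_add_le _ _).trans ?_
  rw [norm_smul, norm_smul, Real.norm_of_nonneg (by norm_num : (0 : ℝ) ≤ 1 / 2)]
  have hη12 : ε = 12 * η := by rw [hη]; ring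
  rw [hη12]
  have : 0 ≤ η * r := by positivity
  nlinarith

set_option maxHeartbeats 4000000 in
/-- DOUBLING LEMMA (note 8188 (II)). -/
theorem doubling (h : SI f g) (ho : ∀ x, ‖x‖ = 1 → f (-x) = -f x) {a b : X} (ha : ‖a‖ = 1)
    (hb : ‖b‖ = 1) (hab : ‖a + b‖ = 1) (hlt : ‖a - b‖ < 2) (hZ : Smooth (f (a + b)))
    (hA : Smooth (f a)) (hC : Smooth ((2 : ℝ) • f a - f (a + b)))
    (homZ : ∀ ζ, J (f (a + b)) ζ = 0 → Hom g (f (a + b)) ζ)
    (homA : ∀ α, J (f a) α = 0 → Hom g (f a) α)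
    {w e : X} {σ θ : ℝ} (hw : ‖w‖ = 1) (hσ : 0 < σ) (hθ : θ = 1 ∨ θ = -1)
    (hzw : θ • ((a + b) - w) = σ • (a - b) + e) (hn : ‖(a + b) - w‖ = σ * ‖a - b‖ + ‖e‖)
    {q2 : Y →L[ℝ] ℝ} (hq2 : Norming q2 (θ • (f (a + b) - f w))) {ζ : Y}
    (hζ : J (f (a + b)) ζ = 0) :
    q2 ζ = J ((2 : ℝ) • f a - f (a + b)) ζ := by
  have hZ1 : ‖f (a + b)‖ = 1 := h.map _ hab
  have hgZ : g (f (a + b)) = a + b := h.left _ hab
  have hW1 : ‖f w‖ = 1 := h.map _ hw
  have hgW : g (f w) = w := h.left _ hw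
  set Z : Y := f (a + b) with hZdef
  set qt : Y →L[ℝ] ℝ := J ((2 : ℝ) • f a - Z) with hqt
  have hθθ : θ * θ = 1 := by rcases hθ with h1 | h1 <;> rw [h1] <;> norm_num
  have hθa : |θ| = 1 := by rcases hθ with h1 | h1 <;> rw [h1] <;> norm_num
  -- one-sided inequality for both signs
  have key : ∀ j : ℝ, j = 1 ∨ j = -1 → j * q2 ζ ≤ j * qt ζ := by
    intro j hj
    by_contra hcon
    push Not at hcon
    set ε : ℝ := (j * q2 ζ - j * qt ζ) / (2 * (σ + 3)) with hε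
    have hε0 : 0 < ε := div_pos (by linarith) (by positivity)
    set U : Ultrafilter ℝ := Ultrafilter.of (𝓝[>] (0 : ℝ)) with hUdef
    have hU : (U : Filter ℝ) ≤ 𝓝[>] (0 : ℝ) := Ultrafilter.of_le _
    have hU0 : (U : Filter ℝ) ≤ 𝓝 0 := hU.trans nhdsWithin_le_nhds
    have h1 := doubling_aux h ho ha hb hab hlt hZ hA hC homZ homA hζ (j / σ) hε0 hU
    have h2 := hZ.nu_isLittleO hZ1 hζ hU0 (fun _ => θ * j) (M := |θ * j|) (fun _ => le_rfl)
    have h3 := (homZ ζ hζ (θ * j)).mono hU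
    have h4 : ∀ᶠ r : ℝ in (U : Filter ℝ), Z + (θ * j * r) • ζ ≠ 0 := by
      have h5 : Tendsto (fun r : ℝ => Z + (θ * j * r) • ζ) (𝓝 0) (𝓝 (Z + (θ * j * 0) • ζ)) := by
        apply Continuous.tendsto; fun_prop
      rw [mul_zero, zero_smul, add_zero] at h5
      have h6 : Z ≠ 0 := by intro h0; rw [h0, norm_zero] at hZ1; norm_num at hZ1
      exact (h5.mono_left hU0).eventually_ne h6
    have h5 : ∀ᶠ r : ℝ in (U : Filter ℝ), 0 < r := hU self_mem_nhdsWithin
    obtain ⟨r, c1, c2, c3, c4, c5⟩ :=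
      (h1.and ((h2.def hε0).and ((h3.def hε0).and (h4.and h5)))).exists
    rw [← hZdef, ← hqt, hgZ] at c1
    rw [Real.norm_of_nonneg c5.le] at c2 c3
    rw [hgZ] at c3
    set wt : X := g (nu (Z + r • ζ)) - (a + b) with hwt
    set zr : X := g (nu (Z + (θ * j * r) • ζ)) with hzr
    -- upper bound of `‖z_r - w‖`
    have d1 : ‖zr - w‖ ≤ ‖(a + b) - w‖ + r * (j * qt ζ) + (σ + 1) * ε * r := by
      have e1 : θ • (zr - w) = σ • (a - b + (j / σ) • wt) + e + θ • (zr - (a + b) - (θ * j) • wt) := by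
        have e2 : σ • (a - b + (j / σ) • wt) = σ • (a - b) + j • wt := by
          rw [smul_add, smul_smul, mul_div_cancel₀ _ hσ.ne']
        have e3 : θ • (zr - w) = θ • ((a + b) - w) + θ • (zr - (a + b)) := by module
        have e5 : θ • ((θ * j) • wt) = j • wt := by rw [smul_smul, ← mul_assoc, hθθ, one_mul]
        rw [e3, hzw, e2, smul_sub θ (zr - (a + b)), e5]
        abel
      have e4 : ‖zr - w‖ = ‖θ • (zr - w)‖ := by rw [norm_smul, Real.norm_eq_abs, hθa, one_mul]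
      rw [e4, e1]
      refine (norm_add_le _ _).trans ?_
      refine (add_le_add_left (norm_add_le _ _) _).trans ?_
      rw [norm_smul, norm_smul, Real.norm_of_nonneg hσ.le, Real.norm_eq_abs, hθa, one_mul, hn]
      have e5 : σ * (r * (j / σ * qt ζ)) = r * (j * qt ζ) := by field_simp
      have := mul_le_mul_of_nonneg_left c1 hσ.le
      nlinarith
    -- lower bound via `q2`
    have d2 : ‖(a + b) - w‖ + r * (j * q2 ζ) ≤ ‖zr - w‖ + ε * r := by
      have e1 : ‖zr - w‖ = ‖nu (Z + (θ * j * r) • ζ) - f w‖ := by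
        have := h.symm.dist _ _ (norm_nu c4) hW1
        rwa [hgW] at this
      have e2 := hq2.le (θ • (Z - f w) + (j * r) • ζ)
      rw [map_add, hq2.2, map_smul, smul_eq_mul, norm_smul, Real.norm_eq_abs, hθa, one_mul] at e2
      have e3 : ‖Z - f w‖ = ‖(a + b) - w‖ := h.dist _ _ hab hw
      rw [e3] at e2
      have e4 : θ • (Z - f w) + (j * r) • ζ = θ • (nu (Z + (θ * j * r) • ζ) - f w)
          - θ • (nu (Z + (θ * j * r) • ζ) - (Z + (θ * j * r) • ζ)) := by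
        have : (j * r) • ζ = θ • ((θ * j * r) • ζ) := by
          rw [smul_smul, ← mul_assoc, ← mul_assoc, hθθ, one_mul]
        rw [this]; module
      have e5 : ‖θ • (Z - f w) + (j * r) • ζ‖ ≤ ‖zr - w‖ + ε * r := by
        rw [e4]
        refine (norm_sub_le _ _).trans ?_
        rw [norm_smul, norm_smul, Real.norm_eq_abs, hθa, one_mul, one_mul, e1]
        linarith
      linarith
    have d3 : r * (j * q2 ζ) ≤ r * (j * qt ζ) + (σ + 2) * ε * r := by linarith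
    have d4 : j * q2 ζ - j * qt ζ = 2 * (σ + 3) * ε := by rw [hε]; field_simp
    have d5 : 0 < ε * r := mul_pos hε0 c5
    nlinarith
  have k1 := key 1 (Or.inl rfl)
  have k2 := key (-1) (Or.inr rfl)
  linarith

end Doubling

end Crest.Agent.R074
end

-- ▼ part R074/Slice

/-!
Row 74 (S0099): SLICE LEMMA. If `p = ‖·‖` on a relatively open convex cone of the subspace `V`,
then for every `m` in the open ball there are a functional `q` and a constant `s` with
`p x - q (f x) = s` on the slice `S ∩ (m + V)`.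
-/

set_option autoImplicit false

namespace Crest.Agent.R074

open Metric Set Filter Topology

/-- a function which is locally constant on a set `D` near every point of a preconnected set
`P ⊆ closure D` is constant on `D ∩ P`. -/
theorem const_of_local {α β : Type*} [TopologicalSpace α] {P D : Set α} (hP : IsPreconnected P)
    (hPD : P ⊆ closure D) (val : α → β)
    (hloc : ∀ a ∈ P, ∃ U ∈ 𝓝 a, ∀ d₁ ∈ D ∩ U, ∀ d₂ ∈ D ∩ U, val d₁ = val d₂) :
    ∀ d₁ ∈ D ∩ P, ∀ d₂ ∈ D ∩ P, val d₁ = val d₂ := by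
  intro d₁ hd₁ d₂ hd₂
  by_contra hne
  set u : Set α := ⋃₀ {U | IsOpen U ∧ ∀ d ∈ D ∩ U, val d = val d₁} with hu
  set v : Set α := ⋃₀ {U | IsOpen U ∧ ∀ d ∈ D ∩ U, val d ≠ val d₁} with hv
  have huo : IsOpen u := isOpen_sUnion fun U hU => hU.1
  have hvo : IsOpen v := isOpen_sUnion fun U hU => hU.1
  have hcase : ∀ a ∈ P, ∃ U, IsOpen U ∧ a ∈ U ∧ ∀ d₁ ∈ D ∩ U, ∀ d₂ ∈ D ∩ U, val d₁ = val d₂ := by
    intro a ha
    obtain ⟨U, hU, hc⟩ := hloc a ha
    obtain ⟨U', hU'1, hU'2, hU'3⟩ := mem_nhds_iff.mp hU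
    exact ⟨U', hU'2, hU'3, fun d hd e he => hc d ⟨hd.1, hU'1 hd.2⟩ e ⟨he.1, hU'1 he.2⟩⟩
  have hcov : P ⊆ u ∪ v := by
    intro a ha
    obtain ⟨U, hUo, haU, hc⟩ := hcase a ha
    obtain ⟨d, hdU, hdD⟩ := mem_closure_iff.mp (hPD ha) U hUo haU
    by_cases hd : val d = val d₁
    · left
      exact ⟨U, ⟨hUo, fun e he => by rw [hc e he d ⟨hdD, hdU⟩, hd]⟩, haU⟩
    · right
      exact ⟨U, ⟨hUo, fun e he => by rw [hc e he d ⟨hdD, hdU⟩]; exact hd⟩, haU⟩
  have h1 : (P ∩ u).Nonempty := by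
    refine ⟨d₁, hd₁.2, ?_⟩
    obtain ⟨U, hUo, haU, hc⟩ := hcase d₁ hd₁.2
    exact ⟨U, ⟨hUo, fun e he => hc e he d₁ ⟨hd₁.1, haU⟩⟩, haU⟩
  have h2 : (P ∩ v).Nonempty := by
    refine ⟨d₂, hd₂.2, ?_⟩
    obtain ⟨U, hUo, haU, hc⟩ := hcase d₂ hd₂.2
    exact ⟨U, ⟨hUo, fun e he => by rw [hc e he d₂ ⟨hd₂.1, haU⟩]; exact fun h => hne h.symm⟩, haU⟩
  obtain ⟨a, haP, ⟨U, ⟨hUo, hUc⟩, haU⟩, ⟨W, ⟨hWo, hWc⟩, haW⟩⟩ := hP u v huo hvo hcov h1 h2
  obtain ⟨d, ⟨hdU, hdW⟩, hdD⟩ := mem_closure_iff.mp (hPD haP) (U ∩ W) (hUo.inter hWo) ⟨haU, haW⟩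
  exact hWc d ⟨hdD, hdW⟩ (hUc d ⟨hdD, hdU⟩)

variable {X Y : Type*} [NormedAddCommGroup X] [NormedSpace ℝ X] [NormedAddCommGroup Y]
  [NormedSpace ℝ Y] {f : X → Y} {g : Y → X}

/-- F1 for the functional `p` (canonical norming functionals at tops/bottoms of `p`-chords). -/
def CanonAt (f : X → Y) (p : X →L[ℝ] ℝ) : Prop :=
  ∃ qT qB : X → (Y →L[ℝ] ℝ), ∀ y w : X, ‖y‖ = 1 → ‖w‖ = 1 → y ≠ w → ‖y + w‖ < 2 →
    p (y - w) = ‖y - w‖ →
    (Smooth (f y) → Norming (qT y) (f y - f w)) ∧ (Smooth (f w) → Norming (qB w) (f y - f w)) ∧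
      (Smooth (f y) → Smooth (f w) → qT y = qB w)

omit [NormedSpace ℝ X] [NormedSpace ℝ Y] in
/-- continuity of `f ∘ x` for sphere valued `x` -/
theorem SI.continuousOn_comp (h : SI f g) {Z : Type*} [TopologicalSpace Z] {x : Z → X} {S : Set Z}
    (hx : ContinuousOn x S) (hx1 : ∀ t ∈ S, ‖x t‖ = 1) : ContinuousOn (fun t => f (x t)) S := by
  intro t ht
  rw [ContinuousWithinAt, tendsto_iff_norm_sub_tendsto_zero]
  have h1 := (tendsto_iff_norm_sub_tendsto_zero).mp (hx t ht)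
  refine h1.congr' ?_
  filter_upwards [self_mem_nhdsWithin] with t' ht'
  exact (h.dist _ _ (hx1 t' ht') (hx1 t ht)).symm

/-- for a fixed direction, the tops over generic points are `Y`-smooth -/
theorem residual_top_smooth [TopologicalSpace.SeparableSpace Y] (h : SI f g) {c : X}
    (hc : ‖c‖ = 1) : {m : X | ‖m‖ < 1 → Smooth (f (top c m))} ∈ residual X := by
  have : Nonempty Y := ⟨0⟩
  set D : ℕ → Y := TopologicalSpace.denseSeq Y with hDdef
  have hD : DenseRange D := TopologicalSpace.denseRange_denseSeq Y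
  have hsub : (⋂ n : ℕ, ⋂ k : ℕ, {m : X | (‖m‖ < 1 ∧ f (top c m) ∈ OV (D n) (1 / ((k : ℝ) + 1))) ∨
      1 < ‖m‖}) ⊆ {m : X | ‖m‖ < 1 → Smooth (f (top c m))} := by
    intro m hm hm1
    rw [smooth_iff_forall hD]
    intro n k
    simp only [mem_iInter, mem_ofPred_eq] at hm
    rcases hm n k with h1 | h1
    · exact h1.2
    · linarith
  refine Filter.mem_of_superset ?_ hsub
  rw [countable_iInter_mem]
  intro n
  rw [countable_iInter_mem]
  intro k
  have hcont : ContinuousOn (fun m : X => f (top c m)) (ball 0 1) :=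
    h.continuousOn_comp (continuousOn_top_right hc)
      (fun m hm => norm_top hc (by simpa using hm))
  apply residual_of_dense_open
  · have h1 : IsOpen (ball (0 : X) 1 ∩ (fun m : X => f (top c m)) ⁻¹'
        (OV (D n) (1 / ((k : ℝ) + 1)))) :=
      hcont.isOpen_inter_preimage isOpen_ball (isOpen_OV _ _)
    have h2 : IsOpen {m : X | 1 < ‖m‖} := isOpen_lt continuous_const continuous_norm
    have h3 := h1.union h2
    convert h3 using 1
    ext m
    simp only [mem_ofPred_eq, mem_union, mem_inter_iff, mem_ball_zero_iff, mem_preimage]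
  · rw [Metric.dense_iff]
    intro m0 r hr
    rcases lt_or_ge ‖m0‖ 1 with hm0 | hm0
    · have hy0 := norm_top hc hm0
      obtain ⟨y', hy'1, hy'2, hy'3⟩ := exists_OV_sphere (h.map _ hy0) (D n)
        (show (0 : ℝ) < 1 / ((k : ℝ) + 1) by positivity)
        (show 0 < min r (1 - ‖m0‖) from lt_min hr (by linarith))
      have hgy := h.imap y' hy'1
      have hd : ‖g y' - top c m0‖ = ‖y' - f (top c m0)‖ := by
        have := h.symm.dist y' (f (top c m0)) hy'1 (h.map _ hy0)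
        rwa [h.left _ hy0] at this
      set m : X := m0 + (g y' - top c m0) with hm
      have hmd : ‖m - m0‖ < min r (1 - ‖m0‖) := by
        rw [hm, add_sub_cancel_left, hd]; exact hy'2
      have hm1 : ‖m‖ < 1 := by
        have h1 := norm_add_le m0 (m - m0)
        rw [add_sub_cancel] at h1
        have h2 := min_le_right r (1 - ‖m0‖)
        linarith
      have htop : g y' = top c m := by
        apply eq_top hm1 hgy (tau_pos hc hm0).le
        rw [hm]; unfold top; abel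
      refine ⟨m, ?_, Or.inl ⟨hm1, ?_⟩⟩
      · rw [Metric.mem_ball, dist_eq_norm]; exact hmd.trans_le (min_le_left _ _)
      · rw [← htop, h.right y' hy'1]; exact hy'3
    · -- push outwards
      have hpos : 0 < ‖m0‖ := by linarith
      refine ⟨(1 + r / (2 * ‖m0‖)) • m0, ?_, Or.inr ?_⟩
      · rw [Metric.mem_ball, dist_eq_norm, add_smul, one_smul, add_sub_cancel_left, norm_smul,
          Real.norm_of_nonneg (by positivity)]
        have : r / (2 * ‖m0‖) * ‖m0‖ = r / 2 := by field_simp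
        rw [this]; linarith
      · show 1 < ‖(1 + r / (2 * ‖m0‖)) • m0‖
        rw [norm_smul, Real.norm_of_nonneg (by positivity)]
        have : 0 < r / (2 * ‖m0‖) := by positivity
        nlinarith

/-- the convex set of directions used in the slice lemma -/
def Dirs (p : X →L[ℝ] ℝ) (V : Submodule ℝ X) (c : X) (ε : ℝ) : Set X :=
  {c' | c' ∈ V ∧ p c' = 1 ∧ ‖c' - c‖ < ε}

theorem Dirs.convex (p : X →L[ℝ] ℝ) (V : Submodule ℝ X) (c : X) (ε : ℝ) :
    Convex ℝ (Dirs p V c ε) := by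
  have h1 : Convex ℝ (V : Set X) := V.convex
  have h2 : Convex ℝ {x : X | p x = 1} := by
    intro x hx y hy a b _ _ hab
    simp only [mem_ofPred_eq] at hx hy ⊢
    rw [map_add, map_smul, map_smul, hx, hy]; simpa using hab
  have h3 : Convex ℝ (ball c ε) := convex_ball c ε
  have e : Dirs p V c ε = (V : Set X) ∩ ({x : X | p x = 1} ∩ ball c ε) := by
    ext x
    simp [Dirs, mem_ball, dist_eq_norm]
  rw [e]
  exact h1.inter (h2.inter h3)

section Core

variable {p : X →L[ℝ] ℝ} {V : Submodule ℝ X} {c : X} {ε : ℝ}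

theorem Dirs.norm_eq (HF : ∀ h ∈ V, ‖h‖ ≤ ε → p (c + h) = ‖c + h‖) (hcV : c ∈ V) {c' : X}
    (hc' : c' ∈ Dirs p V c ε) : ‖c'‖ = 1 := by
  have := HF (c' - c) (V.sub_mem hc'.1 hcV) hc'.2.2.le
  rw [add_sub_cancel] at this
  rw [← this]; exact hc'.2.1

/-- the parameter set of chords over the slice of `m0` -/
def PP (p : X →L[ℝ] ℝ) (V : Submodule ℝ X) (c : X) (ε : ℝ) (m0 : X) : Set (X × X) :=
  {a | a.1 ∈ Dirs p V c ε ∧ a.2 - m0 ∈ V ∧ ‖a.2‖ < 1}

theorem PP.convex (p : X →L[ℝ] ℝ) (V : Submodule ℝ X) (c : X) (ε : ℝ) (m0 : X) :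
    Convex ℝ (PP p V c ε m0) := by
  have h1 : Convex ℝ {m : X | m - m0 ∈ V ∧ ‖m‖ < 1} := by
    intro x hx y hy a b ha hb hab
    refine ⟨?_, ?_⟩
    · have e : a • x + b • y - m0 = a • (x - m0) + b • (y - m0) := by
        have : m0 = a • m0 + b • m0 := by rw [← add_smul, hab, one_smul]
        nth_rewrite 1 [this]
        rw [smul_sub, smul_sub]; abel
      rw [e]; exact V.add_mem (V.smul_mem _ hx.1) (V.smul_mem _ hy.1)
    · have := (convex_ball (0 : X) 1) (by simpa using hx.2) (by simpa using hy.2) ha hb hab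
      simpa using this
  exact (Dirs.convex p V c ε).prod h1

variable (HF : ∀ h ∈ V, ‖h‖ ≤ ε → p (c + h) = ‖c + h‖) (hcV : c ∈ V)

include HF hcV

/-- near a point of the parameter set, tops and bottoms form `p`-chords -/
theorem PP.local_chord {m0 : X} {a0 : X × X} (ha0 : a0 ∈ PP p V c ε m0) :
    ∃ U ∈ 𝓝 a0, ∀ a1 ∈ PP p V c ε m0 ∩ U, ∀ a2 ∈ PP p V c ε m0 ∩ U,
      top a1.1 a1.2 ≠ top (-a2.1) a2.2 ∧ ‖top a1.1 a1.2 + top (-a2.1) a2.2‖ < 2 ∧
      p (top a1.1 a1.2 - top (-a2.1) a2.2) = ‖top a1.1 a1.2 - top (-a2.1) a2.2‖ := by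
  obtain ⟨c0, m⟩ := a0
  obtain ⟨hc0, hmV, hm1⟩ := ha0
  simp only at hc0 hmV hm1
  have hn0 : ‖c0‖ = 1 := Dirs.norm_eq HF hcV hc0
  have hn0' : ‖-c0‖ = 1 := by rw [norm_neg]; exact hn0
  set T0 := top c0 m with hT0
  set B0 := top (-c0) m with hB0
  set ρ : ℝ := tau c0 m + tau (-c0) m with hρ
  have hρ0 : 0 < ρ := add_pos (tau_pos hn0 hm1) (tau_pos hn0' hm1)
  have hTB : T0 - B0 = ρ • c0 := top_sub_top c0 m
  have hTBlt : ‖T0 + B0‖ < 2 := norm_top_add_top_lt hn0 hm1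
  set η : ℝ := ε - ‖c0 - c‖ with hη
  have hη0 : 0 < η := by have := hc0.2.2; linarith
  set κ : ℝ := min (min (ρ * η) ρ) (2 - ‖T0 + B0‖) / 2 with hκ
  have hκ0 : 0 < κ := by
    apply half_pos
    exact lt_min (lt_min (by positivity) hρ0) (by linarith)
  have hκ1 : 2 * κ ≤ ρ * η := by
    have : 2 * κ = min (min (ρ * η) ρ) (2 - ‖T0 + B0‖) := by rw [hκ]; ring
    rw [this]; exact (min_le_left _ _).trans (min_le_left _ _)
  have hκ2 : 2 * κ ≤ ρ := by
    have : 2 * κ = min (min (ρ * η) ρ) (2 - ‖T0 + B0‖) := by rw [hκ]; ring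
    rw [this]; exact (min_le_left _ _).trans (min_le_right _ _)
  have hκ3 : 2 * κ ≤ 2 - ‖T0 + B0‖ := by
    have : 2 * κ = min (min (ρ * η) ρ) (2 - ‖T0 + B0‖) := by rw [hκ]; ring
    rw [this]; exact min_le_right _ _
  -- continuity of tops and bottoms
  have hcT : ContinuousWithinAt (fun q : X × X => top q.1 q.2) {q | ‖q.1‖ = 1 ∧ ‖q.2‖ < 1}
      (c0, m) := continuousOn_top _ ⟨hn0, hm1⟩
  have hcB : ContinuousWithinAt (fun q : X × X => top (-q.1) q.2) {q | ‖q.1‖ = 1 ∧ ‖q.2‖ < 1}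
      (c0, m) := by
    have h1 : ContinuousOn (fun q : X × X => top (-q.1) q.2) {q | ‖q.1‖ = 1 ∧ ‖q.2‖ < 1} := by
      have h2 : ContinuousOn (fun q : X × X => ((-q.1, q.2) : X × X))
          {q | ‖q.1‖ = 1 ∧ ‖q.2‖ < 1} := by fun_prop
      refine (continuousOn_top (X := X)).comp h2 ?_
      intro q hq
      exact ⟨by simpa using hq.1, hq.2⟩
    exact h1 _ ⟨hn0, hm1⟩
  have heT : ∀ᶠ q in 𝓝[{q : X × X | ‖q.1‖ = 1 ∧ ‖q.2‖ < 1}] (c0, m), ‖top q.1 q.2 - T0‖ < κ := by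
    have := (tendsto_iff_norm_sub_tendsto_zero).mp hcT
    exact this.eventually_lt_const hκ0
  have heB : ∀ᶠ q in 𝓝[{q : X × X | ‖q.1‖ = 1 ∧ ‖q.2‖ < 1}] (c0, m),
      ‖top (-q.1) q.2 - B0‖ < κ := by
    have := (tendsto_iff_norm_sub_tendsto_zero).mp hcB
    exact this.eventually_lt_const hκ0
  obtain ⟨U, hU, hUm⟩ := mem_nhdsWithin_iff_exists_mem_nhds_inter.mp (heT.and heB)
  refine ⟨U, hU, ?_⟩
  intro a1 ha1 a2 ha2
  have h1 := hUm ⟨ha1.2, ⟨Dirs.norm_eq HF hcV ha1.1.1, ha1.1.2.2⟩⟩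
  have h2 := hUm ⟨ha2.2, ⟨Dirs.norm_eq HF hcV ha2.1.1, ha2.1.2.2⟩⟩
  obtain ⟨h1T, _⟩ := h1
  obtain ⟨_, h2B⟩ := h2
  set T1 := top a1.1 a1.2 with hT1
  set B2 := top (-a2.1) a2.2 with hB2
  have hw : ‖(T1 - B2) - ρ • c0‖ < 2 * κ := by
    have e : (T1 - B2) - ρ • c0 = (T1 - T0) - (B2 - B0) := by rw [← hTB]; abel
    rw [e]
    have := norm_sub_le (T1 - T0) (B2 - B0)
    linarith
  have hV1 : T1 - m0 ∈ V := by
    have e : T1 - m0 = (a1.2 - m0) + tau a1.1 a1.2 • a1.1 := by rw [hT1]; unfold top; abel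
    rw [e]; exact V.add_mem ha1.1.2.1 (V.smul_mem _ ha1.1.1.1)
  have hV2 : B2 - m0 ∈ V := by
    have e : B2 - m0 = (a2.2 - m0) + tau (-a2.1) a2.2 • (-a2.1) := by rw [hB2]; unfold top; abel
    rw [e]; exact V.add_mem ha2.1.2.1 (V.smul_mem _ (V.neg_mem ha2.1.1.1))
  have hVd : T1 - B2 ∈ V := by
    have e : T1 - B2 = (T1 - m0) - (B2 - m0) := by abel
    rw [e]; exact V.sub_mem hV1 hV2
  have hnpos : 0 < ‖T1 - B2‖ := by
    have h3 := norm_sub_norm_le (ρ • c0) (T1 - B2)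
    rw [norm_sub_rev (ρ • c0), norm_smul, hn0, mul_one, Real.norm_of_nonneg hρ0.le] at h3
    linarith
  refine ⟨fun h => ?_, ?_, ?_⟩
  · rw [h, sub_self, norm_zero] at hnpos
    exact lt_irrefl _ hnpos
  · have e : T1 + B2 = (T0 + B0) + ((T1 - T0) + (B2 - B0)) := by abel
    rw [e]
    have h3 := norm_add_le (T0 + B0) ((T1 - T0) + (B2 - B0))
    have h4 := norm_add_le (T1 - T0) (B2 - B0)
    linarith
  · set hh : X := ρ⁻¹ • (T1 - B2) - c with hhh
    have hhV : hh ∈ V := V.sub_mem (V.smul_mem _ hVd) hcV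
    have hhn : ‖hh‖ ≤ ε := by
      have e : hh = ρ⁻¹ • ((T1 - B2) - ρ • c0) + (c0 - c) := by
        rw [hhh, smul_sub ρ⁻¹ (T1 - B2), smul_smul, inv_mul_cancel₀ hρ0.ne', one_smul]; abel
      rw [e]
      refine (norm_add_le _ _).trans ?_
      rw [norm_smul, norm_inv, Real.norm_of_nonneg hρ0.le]
      have h3 : ρ⁻¹ * ‖(T1 - B2) - ρ • c0‖ ≤ ρ⁻¹ * (ρ * η) :=
        mul_le_mul_of_nonneg_left (by linarith) (by positivity)
      rw [← mul_assoc, inv_mul_cancel₀ hρ0.ne', one_mul] at h3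
      linarith
    have h3 := HF hh hhV hhn
    rw [hhh, add_sub_cancel, map_smul, norm_smul, norm_inv, Real.norm_of_nonneg hρ0.le,
      smul_eq_mul] at h3
    exact mul_left_cancel₀ (inv_ne_zero hρ0.ne') h3

/-- every point of the slice is, for some direction of `Dirs`, an end point of its segment -/
theorem exists_dir_end (hε : 0 < ε) (hc : ‖c‖ = 1) {m0 z : X} (hm0 : ‖m0‖ < 1)
    (hz : ‖z‖ = 1) (hzV : z - m0 ∈ V) :
    ∃ c' ∈ Dirs p V c ε, (∀ δ : ℝ, 0 < δ → 1 < ‖z + δ • c'‖) ∨ (∀ δ : ℝ, 0 < δ → 1 < ‖z + δ • (-c')‖) := by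
  by_contra hcon
  push Not at hcon
  have hpc : p c = 1 := by
    have := HF 0 V.zero_mem (by rw [norm_zero]; exact hε.le)
    rw [add_zero, hc] at this
    exact this
  -- `J z` vanishes on `Dirs`
  have hj : ∀ c' ∈ Dirs p V c ε, J z c' = 0 := by
    intro c' hc'
    obtain ⟨⟨δ1, hδ1, h1⟩, ⟨δ2, hδ2, h2⟩⟩ := hcon c' hc'
    have h3 := J_le z (z + δ1 • c')
    have h4 := J_le z (z + δ2 • (-c'))
    rw [map_add, map_smul, J_self, hz, smul_eq_mul] at h3 h4
    rw [map_neg] at h4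
    apply le_antisymm
    · nlinarith
    · nlinarith
  have hcD : c ∈ Dirs p V c ε := ⟨hcV, hpc, by rw [sub_self, norm_zero]; exact hε⟩
  have hjc := hj c hcD
  -- `J z` vanishes on `V`
  have hjV : ∀ v ∈ V, J z v = 0 := by
    intro v hv
    -- remove the `c`-component
    have key : ∀ w ∈ V, p w = 0 → J z w = 0 := by
      intro w hw hpw
      set t : ℝ := ε / (2 * (‖w‖ + 1)) with ht
      have ht0 : 0 < t := by positivity
      have hmem : c + t • w ∈ Dirs p V c ε := by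
        refine ⟨V.add_mem hcV (V.smul_mem _ hw), ?_, ?_⟩
        · rw [map_add, map_smul, hpw, hpc]; simp
        · rw [add_sub_cancel_left, norm_smul, Real.norm_of_nonneg ht0.le, ht, div_mul_eq_mul_div,
            div_lt_iff₀ (by positivity)]
          nlinarith [norm_nonneg w]
      have h1 := hj _ hmem
      rw [map_add, hjc, map_smul, smul_eq_mul, zero_add] at h1
      exact (mul_eq_zero.mp h1).resolve_left ht0.ne'
    have h1 := key (v - p v • c) (V.sub_mem hv (V.smul_mem _ hcV))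
      (by rw [map_sub, map_smul, hpc, smul_eq_mul, mul_one, sub_self])
    rw [map_sub, map_smul, hjc, smul_zero, sub_zero] at h1
    exact h1
  have h1 := hjV _ hzV
  rw [map_sub, J_self, hz] at h1
  have h2 := J_le z m0
  linarith

end Core

/-- the slice lemma at a generic point -/
theorem slice_generic (h : SI f g) {p : X →L[ℝ] ℝ} (hp : ‖p‖ ≤ 1) {V : Submodule ℝ X} {c : X}
    (hcV : c ∈ V) (hc : ‖c‖ = 1) {ε : ℝ} (hε : 0 < ε)
    (HF : ∀ h ∈ V, ‖h‖ ≤ ε → p (c + h) = ‖c + h‖) (hcan : CanonAt f p) {DV DC : Set X}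
    (hDV : (V : Set X) ⊆ closure (DV ∩ V)) (hDC : Dirs p V c ε ⊆ closure (DC ∩ Dirs p V c ε))
    {m0 : X} (hm0 : ‖m0‖ < 1)
    (hT : ∀ v ∈ DV, ∀ c' ∈ DC, ‖m0 + v‖ < 1 → Smooth (f (top c' (m0 + v))))
    (hB : ∀ v ∈ DV, ∀ c' ∈ DC, ‖m0 + v‖ < 1 → Smooth (f (top (-c') (m0 + v)))) :
    ∃ q s, CosetFun f p V m0 q s := by
  obtain ⟨qT, qB, hq⟩ := hcan
  set P : Set (X × X) := PP p V c ε m0 with hP
  set D : Set (X × X) := {a | a.1 ∈ DC ∩ Dirs p V c ε ∧ a.2 - m0 ∈ DV ∩ V ∧ ‖a.2‖ < 1} with hD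
  have hDP : D ⊆ P := fun a ha => ⟨ha.1.2, ha.2.1.2, ha.2.2⟩
  have hpc : p c = 1 := by
    have := HF 0 V.zero_mem (by rw [norm_zero]; exact hε.le)
    rw [add_zero, hc] at this
    exact this
  have hcD : c ∈ Dirs p V c ε := ⟨hcV, hpc, by rw [sub_self, norm_zero]; exact hε⟩
  have hPD : P ⊆ closure D := by
    rintro ⟨c1, m1⟩ ⟨h1, h2, h3⟩
    simp only at h1 h2 h3
    rw [Metric.mem_closure_iff]
    intro δ hδ
    obtain ⟨c2, hc2, hc2d⟩ := Metric.mem_closure_iff.mp (hDC h1) δ hδ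
    obtain ⟨v, hv, hvd⟩ := Metric.mem_closure_iff.mp (hDV h2) (min δ (1 - ‖m1‖))
      (lt_min hδ (by linarith))
    rw [dist_eq_norm] at hvd
    refine ⟨(c2, m0 + v), ⟨hc2, ?_, ?_⟩, ?_⟩
    · show m0 + v - m0 ∈ DV ∩ V
      rw [add_sub_cancel_left]; exact hv
    · show ‖m0 + v‖ < 1
      have e : m0 + v = m1 - (m1 - m0 - v) := by abel
      rw [e]
      refine (norm_sub_le _ _).trans_lt ?_
      have := min_le_right δ (1 - ‖m1‖)
      linarith
    · rw [Prod.dist_eq]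
      apply max_lt hc2d
      rw [dist_eq_norm]
      have e : m1 - (m0 + v) = m1 - m0 - v := by abel
      show ‖m1 - (m0 + v)‖ < δ
      rw [e]
      exact hvd.trans_le (min_le_left _ _)
  have hPc : IsPreconnected P := (PP.convex p V c ε m0).isPreconnected
  -- smoothness on `D`
  have hsT : ∀ a ∈ D, Smooth (f (top a.1 a.2)) := by
    rintro ⟨c1, m1⟩ ⟨h1, h2, h3⟩
    have := hT (m1 - m0) h2.1 c1 h1.1 (by rw [add_sub_cancel]; exact h3)
    rwa [add_sub_cancel] at this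
  have hsB : ∀ a ∈ D, Smooth (f (top (-a.1) a.2)) := by
    rintro ⟨c1, m1⟩ ⟨h1, h2, h3⟩
    have := hB (m1 - m0) h2.1 c1 h1.1 (by rw [add_sub_cancel]; exact h3)
    rwa [add_sub_cancel] at this
  have hnT : ∀ a ∈ P, ‖top a.1 a.2‖ = 1 := fun a ha =>
    norm_top (Dirs.norm_eq HF hcV ha.1) ha.2.2
  have hnB : ∀ a ∈ P, ‖top (-a.1) a.2‖ = 1 := fun a ha =>
    norm_top (by rw [norm_neg]; exact Dirs.norm_eq HF hcV ha.1) ha.2.2
  -- the locally constant value
  set val : X × X → (Y →L[ℝ] ℝ) × ℝ := fun a =>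
    (qT (top a.1 a.2), p (top a.1 a.2) - qT (top a.1 a.2) (f (top a.1 a.2))) with hval
  -- comparison of the values at a top and a bottom
  have hcmp : ∀ a1 ∈ D, ∀ a2 ∈ D, top a1.1 a1.2 ≠ top (-a2.1) a2.2 →
      ‖top a1.1 a1.2 + top (-a2.1) a2.2‖ < 2 →
      p (top a1.1 a1.2 - top (-a2.1) a2.2) = ‖top a1.1 a1.2 - top (-a2.1) a2.2‖ →
      val a1 = (qB (top (-a2.1) a2.2),
        p (top (-a2.1) a2.2) - qB (top (-a2.1) a2.2) (f (top (-a2.1) a2.2))) := by
    intro a1 ha1 a2 ha2 hne hlt hpp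
    obtain ⟨h1, h2, h3⟩ := hq _ _ (hnT a1 (hDP ha1)) (hnB a2 (hDP ha2)) hne hlt hpp
    have h4 := h3 (hsT a1 ha1) (hsB a2 ha2)
    have h5 := (h1 (hsT a1 ha1)).2
    rw [h.dist _ _ (hnT a1 (hDP ha1)) (hnB a2 (hDP ha2)), ← hpp, map_sub, map_sub] at h5
    simp only [hval]
    rw [Prod.mk.injEq]
    refine ⟨h4, ?_⟩
    rw [← h4]
    linarith
  have hloc : ∀ a ∈ P, ∃ U ∈ 𝓝 a, ∀ d₁ ∈ D ∩ U, ∀ d₂ ∈ D ∩ U, val d₁ = val d₂ := by
    intro a ha
    obtain ⟨U, hU, hUc⟩ := PP.local_chord HF hcV ha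
    refine ⟨U, hU, ?_⟩
    intro d1 hd1 d2 hd2
    obtain ⟨h1, h2, h3⟩ := hUc d1 ⟨hDP hd1.1, hd1.2⟩ d2 ⟨hDP hd2.1, hd2.2⟩
    obtain ⟨h4, h5, h6⟩ := hUc d2 ⟨hDP hd2.1, hd2.2⟩ d2 ⟨hDP hd2.1, hd2.2⟩
    rw [hcmp d1 hd1.1 d2 hd2.1 h1 h2 h3, hcmp d2 hd2.1 d2 hd2.1 h4 h5 h6]
  have hconst := const_of_local hPc hPD val hloc
  -- a base point
  have ha0 : ((c, m0) : X × X) ∈ P := ⟨hcD, by show m0 - m0 ∈ V; rw [sub_self]; exact V.zero_mem, hm0⟩
  obtain ⟨d0, hd0⟩ : D.Nonempty := by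
    have := hPD ha0
    by_contra hne
    rw [not_nonempty_iff_eq_empty] at hne
    rw [hne, closure_empty] at this
    exact this
  set q : Y →L[ℝ] ℝ := (val d0).1 with hqdef
  set s : ℝ := (val d0).2 with hsdef
  have hself : ∀ a ∈ P, top a.1 a.2 ≠ top (-a.1) a.2 ∧ ‖top a.1 a.2 + top (-a.1) a.2‖ < 2 ∧
      p (top a.1 a.2 - top (-a.1) a.2) = ‖top a.1 a.2 - top (-a.1) a.2‖ := by
    intro a ha
    obtain ⟨U, hU, hUc⟩ := PP.local_chord HF hcV ha
    exact hUc a ⟨ha, mem_of_mem_nhds hU⟩ a ⟨ha, mem_of_mem_nhds hU⟩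
  have hqn : ‖q‖ ≤ 1 := by
    obtain ⟨h1, h2, h3⟩ := hself d0 (hDP hd0)
    exact ((hq _ _ (hnT _ (hDP hd0)) (hnB _ (hDP hd0)) h1 h2 h3).1 (hsT _ hd0)).1
  have hTD : ∀ a ∈ D, p (top a.1 a.2) - q (f (top a.1 a.2)) = s := by
    intro a ha
    have h1 := hconst a ⟨ha, hDP ha⟩ d0 ⟨hd0, hDP hd0⟩
    have h2 : qT (top a.1 a.2) = q := by rw [hqdef, ← h1]
    rw [hsdef, ← h1]
    show _ = p (top a.1 a.2) - qT (top a.1 a.2) (f (top a.1 a.2))
    rw [h2]
  have hBD : ∀ a ∈ D, p (top (-a.1) a.2) - q (f (top (-a.1) a.2)) = s := by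
    intro a ha
    obtain ⟨h1, h2, h3⟩ := hself a (hDP ha)
    have h4 := hcmp a ha a ha h1 h2 h3
    have h5 := hconst a ⟨ha, hDP ha⟩ d0 ⟨hd0, hDP hd0⟩
    rw [h4] at h5
    have h6 : qB (top (-a.1) a.2) = q := by rw [hqdef, ← h5]
    rw [hsdef, ← h5]
    show _ = p (top (-a.1) a.2) - qB (top (-a.1) a.2) (f (top (-a.1) a.2))
    rw [h6]
  -- extension to `P`
  have hcT : ContinuousOn (fun a : X × X => top a.1 a.2) P := by
    refine (continuousOn_top (X := X)).mono ?_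
    intro a ha
    exact ⟨Dirs.norm_eq HF hcV ha.1, ha.2.2⟩
  have hcB : ContinuousOn (fun a : X × X => top (-a.1) a.2) P := by
    have h2 : ContinuousOn (fun q : X × X => ((-q.1, q.2) : X × X)) P := by fun_prop
    refine (continuousOn_top (X := X)).comp h2 ?_
    intro a ha
    exact ⟨by rw [norm_neg]; exact Dirs.norm_eq HF hcV ha.1, ha.2.2⟩
  have hext : ∀ x : X × X → X, ContinuousOn x P → (∀ a ∈ P, ‖x a‖ = 1) →
      (∀ a ∈ D, p (x a) - q (f (x a)) = s) → ∀ a ∈ P, p (x a) - q (f (x a)) = s := by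
    intro x hx hx1 hxD a ha
    have hF : ContinuousOn (fun a => p (x a) - q (f (x a))) P :=
      (p.continuous.comp_continuousOn hx).sub
        (q.continuous.comp_continuousOn (h.continuousOn_comp hx hx1))
    have h1 : Tendsto (fun a => p (x a) - q (f (x a))) (𝓝[D] a) (𝓝 (p (x a) - q (f (x a)))) :=
      (hF a ha).mono_left (nhdsWithin_mono _ hDP)
    have hne : (𝓝[D] a).NeBot := mem_closure_iff_nhdsWithin_neBot.mp (hPD ha)
    have h2 : Tendsto (fun a => p (x a) - q (f (x a))) (𝓝[D] a) (𝓝 s) := by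
      refine tendsto_const_nhds.congr' ?_
      filter_upwards [self_mem_nhdsWithin] with b hb
      exact (hxD b hb).symm
    exact tendsto_nhds_unique h1 h2
  have hTP := hext (fun a => top a.1 a.2) hcT hnT hTD
  have hBP := hext (fun a => top (-a.1) a.2) hcB hnB hBD
  refine ⟨q, s, hqn, ?_⟩
  intro z hz hzV
  obtain ⟨c', hc', hend⟩ := exists_dir_end HF hcV hε hc hm0 hz hzV
  have hc'1 : ‖c'‖ = 1 := Dirs.norm_eq HF hcV hc'
  -- approximation
  have happ : ∀ b : X, ‖b‖ = 1 → (∀ δ : ℝ, 0 < δ → 1 < ‖z + δ • b‖) →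
      (∀ σ : ℝ, 0 < σ → σ ≤ 1 → p (top b ((1 - σ) • z + σ • m0))
        - q (f (top b ((1 - σ) • z + σ • m0))) = s) → p z - q (f z) = s := by
    intro b hb hend hs
    have hlim : ∀ δ : ℝ, 0 < δ → |p z - q (f z) - s| ≤ 4 * δ := by
      intro δ hδ
      have h1 := hend δ hδ
      -- choose σ small
      have hcont : Continuous (fun σ : ℝ => ‖(1 - σ) • z + σ • m0 + δ • b‖) := by fun_prop
      have h2 : ∀ᶠ σ in 𝓝 (0 : ℝ), 1 < ‖(1 - σ) • z + σ • m0 + δ • b‖ := by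
        have := hcont.tendsto 0
        simp only [sub_zero, one_smul, zero_smul, add_zero] at this
        exact this.eventually_const_lt h1
      have h3 : ∀ᶠ σ in 𝓝 (0 : ℝ), σ * ‖z - m0‖ < δ := by
        have hc2 : Continuous (fun σ : ℝ => σ * ‖z - m0‖) := by fun_prop
        have := hc2.tendsto 0
        simp only [zero_mul] at this
        exact this.eventually_lt_const hδ
      have h4 : ∀ᶠ σ in 𝓝 (0 : ℝ), σ < 1 := eventually_lt_nhds one_pos
      obtain ⟨σ, ⟨⟨hσ1, hσ2⟩, hσ3⟩, hσ0⟩ :=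
        (((h2.and h3).and h4).filter_mono nhdsWithin_le_nhds |>.and
          (self_mem_nhdsWithin (s := Ioi (0 : ℝ)))).exists
      replace hσ0 : 0 < σ := hσ0
      set zσ : X := (1 - σ) • z + σ • m0 with hzσ
      have hzσ1 : ‖zσ‖ < 1 := by
        refine (norm_add_le _ _).trans_lt ?_
        rw [norm_smul, norm_smul, hz, Real.norm_of_nonneg (by linarith),
          Real.norm_of_nonneg hσ0.le]
        nlinarith
      have hτ : tau b zσ < δ := (tau_lt_iff hb hzσ1 hδ.le).mpr hσ1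
      have hτ0 := tau_pos hb hzσ1
      set y := top b zσ with hy
      have hy1 : ‖y‖ = 1 := norm_top hb hzσ1
      have hzy : ‖z - y‖ ≤ 2 * δ := by
        have e : z - y = σ • (z - m0) - tau b zσ • b := by
          rw [hy]; unfold top
          rw [hzσ, sub_smul, one_smul, smul_sub]; abel
        rw [e]
        refine (norm_sub_le _ _).trans ?_
        rw [norm_smul, norm_smul, hb, Real.norm_of_nonneg hσ0.le, Real.norm_of_nonneg hτ0.le]
        linarith
      have h5 := hs σ hσ0 hσ3.le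
      have h6 := Est.le_norm_of hp (z - y)
      have h7 := Est.le_norm_of hqn (f z - f y)
      rw [h.dist _ _ hz hy1, map_sub] at h7
      rw [map_sub] at h6
      have h8 : p y - q (f y) = s := h5
      rw [_root_.abs_le] at h6 h7 ⊢
      constructor <;> linarith
    have h0 : |p z - q (f z) - s| ≤ 0 := by
      apply le_of_forall_pos_le_add
      intro δ hδ
      have := hlim (δ / 4) (by positivity)
      linarith
    have := abs_nonpos_iff.mp h0
    linarith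
  have hmem : ∀ σ : ℝ, 0 < σ → σ ≤ 1 → ((c', (1 - σ) • z + σ • m0) : X × X) ∈ P := by
    intro σ hσ0 hσ1
    refine ⟨hc', ?_, ?_⟩
    · show (1 - σ) • z + σ • m0 - m0 ∈ V
      have e : (1 - σ) • z + σ • m0 - m0 = (1 - σ) • (z - m0) := by
        rw [sub_smul, one_smul, sub_smul, one_smul, smul_sub]; abel
      rw [e]; exact V.smul_mem _ hzV
    · show ‖(1 - σ) • z + σ • m0‖ < 1
      refine (norm_add_le _ _).trans_lt ?_
      rw [norm_smul, norm_smul, hz, Real.norm_of_nonneg (by linarith), Real.norm_of_nonneg hσ0.le]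
      nlinarith
  rcases hend with hend | hend
  · exact happ c' hc'1 hend (fun σ h0 h1 => hTP _ (hmem σ h0 h1))
  · exact happ (-c') (by rw [norm_neg]; exact hc'1) hend (fun σ h0 h1 => hBP _ (hmem σ h0 h1))

/-- SLICE LEMMA (F2). -/
theorem slice [TopologicalSpace.SeparableSpace X] [TopologicalSpace.SeparableSpace Y]
    [CompleteSpace X] (h : SI f g) {p : X →L[ℝ] ℝ} (hp : ‖p‖ ≤ 1) {V : Submodule ℝ X} {c : X}
    (hcV : c ∈ V) (hc : ‖c‖ = 1) {ε : ℝ} (hε : 0 < ε)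
    (HF : ∀ h ∈ V, ‖h‖ ≤ ε → p (c + h) = ‖c + h‖) (hcan : CanonAt f p) :
    ∀ m : X, ‖m‖ < 1 → ∃ q s, CosetFun f p V m q s := by
  obtain ⟨DV, hDV1, hDV2, hDV3⟩ :=
    (TopologicalSpace.IsSeparable.of_separableSpace (V : Set X)).exists_countable_dense_subset
  obtain ⟨DC, hDC1, hDC2, hDC3⟩ :=
    (TopologicalSpace.IsSeparable.of_separableSpace (Dirs p V c ε)).exists_countable_dense_subset
  -- generic points
  set G : Set X := {m | ∀ v ∈ DV, ∀ c' ∈ DC, (‖m + v‖ < 1 → Smooth (f (top c' (m + v)))) ∧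
    (‖m + v‖ < 1 → Smooth (f (top (-c') (m + v))))} with hG
  have hGres : G ∈ residual X := by
    have e : G = ⋂ v ∈ DV, ⋂ c' ∈ DC, {m | (‖m + v‖ < 1 → Smooth (f (top c' (m + v)))) ∧
        (‖m + v‖ < 1 → Smooth (f (top (-c') (m + v))))} := by
      ext m
      simp only [hG, mem_iInter, mem_ofPred_eq]
    rw [e, countable_bInter_mem hDV2]
    intro v hv
    rw [countable_bInter_mem hDC2]
    intro c' hc'
    have hc'1 : ‖c'‖ = 1 := Dirs.norm_eq HF hcV (hDC1 hc')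
    have htend : Tendsto (fun m : X => m + v) (residual X) (residual X) :=
      tendsto_residual_of_isOpenMap (by fun_prop) (isOpenMap_add_right v)
    have h1 := htend (residual_top_smooth h hc'1)
    have h2 := htend (residual_top_smooth h (c := -c') (by rw [norm_neg]; exact hc'1))
    exact Filter.inter_mem h1 h2
  have hGd : Dense G := dense_of_mem_residual hGres
  have hgen : ∀ m ∈ G, ‖m‖ < 1 → ∃ q s, CosetFun f p V m q s := by
    intro m hm hm1
    refine slice_generic h hp hcV hc hε HF hcan (DV := DV) (DC := DC) ?_ ?_ hm1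
      (fun v hv c' hc' => (hm v hv c' hc').1) (fun v hv c' hc' => (hm v hv c' hc').2)
    · rw [inter_eq_self_of_subset_left hDV1]; exact hDV3
    · rw [inter_eq_self_of_subset_left hDC1]; exact hDC3
  intro m hm
  -- approximate `m` by generic points
  have hex : ∀ n : ℕ, ∃ m' ∈ G, ‖m'‖ < 1 ∧ ‖m' - m‖ < 1 / ((n : ℝ) + 1) := by
    intro n
    have hr : 0 < min (1 - ‖m‖) (1 / ((n : ℝ) + 1)) := lt_min (by linarith) (by positivity)
    obtain ⟨m', hm'1, hm'2⟩ := (Metric.dense_iff.mp hGd) m _ hr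
    rw [Metric.mem_ball, dist_eq_norm] at hm'1
    refine ⟨m', hm'2, ?_, hm'1.trans_le (min_le_right _ _)⟩
    have h1 := norm_add_le m (m' - m)
    rw [add_sub_cancel] at h1
    have := min_le_left (1 - ‖m‖) (1 / ((n : ℝ) + 1))
    linarith
  choose mm hmG hm1 hmd using hex
  choose q s hqs using fun n => hgen (mm n) (hmG n) (hm1 n)
  have hsb : ∀ n, |s n| ≤ 2 := by
    intro n
    have h1 := (hqs n).rel (top c (mm n)) (norm_top hc (hm1 n)) (by
      unfold top; rw [add_sub_cancel_left]; exact V.smul_mem _ hcV)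
    have h2 := Est.le_norm_of hp (top c (mm n))
    have h3 := Est.le_norm_of (hqs n).norm_le (f (top c (mm n)))
    rw [norm_top hc (hm1 n)] at h2
    rw [h.map _ (norm_top hc (hm1 n))] at h3
    rw [← h1]
    rw [_root_.abs_le] at h2 h3 ⊢
    constructor <;> linarith
  have hU : (hyperfilter ℕ : Filter ℕ) ≤ atTop := by
    rw [← Nat.cofinite_eq_atTop]; exact hyperfilter_le_cofinite
  have hmt : Tendsto mm (hyperfilter ℕ) (𝓝 m) := by
    rw [tendsto_iff_norm_sub_tendsto_zero]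
    refine squeeze_zero (fun n => norm_nonneg _) (fun n => (hmd n).le) ?_
    exact tendsto_one_div_add_atTop_nhds_zero_nat.mono_left hU
  obtain ⟨q', s', hq', _, _⟩ := Est.QQ.closed h (hyperfilter ℕ) (fun n => (hqs n).qq) hmt hm hsb
  exact ⟨q', s', ⟨hq'.1, hq'.2⟩⟩

end Crest.Agent.R074
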