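import Crest.Agent.R074.Canon
import Crest.Agent.R074.Slice_Mg
import Crest.Agent.R074.LTA
import Crest.Agent.R074.Tau
import Crest.Agent.R074.Asm
import Crest.Agent.R074.Blowup

-- ▼ part R074/CanonSlice
section

/-!
Row 74 (S0099): the canonical functionals (module F1) deliver the hypothesis `CanonAt` of the
slice lemma (F2), for every functional `p` of norm at most one.
-/

set_option autoImplicit false

namespace Crest.Agent.R074

open Metric Set Filter Topology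

variable {X Y : Type*} [NormedAddCommGroup X] [NormedSpace ℝ X] [NormedAddCommGroup Y]
  [NormedSpace ℝ Y] {f : X → Y} {g : Y → X}

/-- `q` is the canonical functional at the top `x` of some `p`-chord. -/
def TopFun (f : X → Y) (g : Y → X) (p : X →L[ℝ] ℝ) (x : X) (q : Y →L[ℝ] ℝ) : Prop :=
  ∃ (Φ : Y →L[ℝ] ℝ) (w : X), IsPhi g p (f x) Φ ∧ Canon (f x) Φ q ∧ Chord p x w ∧
    q (f x - f w) = ‖x - w‖

theorem SI.topFun_norming (h : SI f g) (ho : ∀ x, ‖x‖ = 1 → f (-x) = -f x) {p : X →L[ℝ] ℝ}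
    (hp : ‖p‖ ≤ 1) {x w : X} (hc : Chord p x w) (hs : Smooth (f x)) {q : Y →L[ℝ] ℝ}
    (hq : TopFun f g p x q) : Norming q (f x - f w) := by
  obtain ⟨Φ, w', hΦ, hcan, hc', hqw'⟩ := hq
  refine ⟨hcan.norm_le, ?_⟩
  rw [h.canon_all ho hp hc' hs hΦ hcan hqw' hc, h.dist x w hc.top hc.bot]

theorem SI.exists_topFun (h : SI f g) (ho : ∀ x, ‖x‖ = 1 → f (-x) = -f x) {p : X →L[ℝ] ℝ}
    (hp : ‖p‖ ≤ 1) (hmid : ∀ y, ‖y‖ = 1 → Smooth y → MidAt g y) {x w : X} (hc : Chord p x w)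
    (hs : Smooth (f x)) : ∃ q, TopFun f g p x q := by
  obtain ⟨Φ, hΦ⟩ := h.exists_isPhi hp (h.map x hc.top) hs (hmid _ (h.map x hc.top) hs)
  obtain ⟨q, hq, hqw⟩ := h.exists_canon ho hp hc hs hΦ
  exact ⟨q, Φ, w, hΦ, hq, hc, hqw⟩

theorem SI.topFun_unique (h : SI f g) (ho : ∀ x, ‖x‖ = 1 → f (-x) = -f x) {p : X →L[ℝ] ℝ}
    {x : X} (hx : ‖x‖ = 1) {q q' : Y →L[ℝ] ℝ} (hq : TopFun f g p x q)
    (hq' : TopFun f g p x q') : q = q' := by
  obtain ⟨Φ, w, hΦ, hcan, hc, hqw⟩ := hq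
  obtain ⟨Φ', w', hΦ', hcan', hc', hqw'⟩ := hq'
  have e : Φ = Φ' := hΦ.unique (h.map x hx) hΦ'
  subst e
  exact h.canon_unique ho hc hc' hcan hqw hcan' hqw'

/-- the canonical functional at the top of a chord is the one at its bottom. -/
theorem SI.topFun_bot (h : SI f g) (ho : ∀ x, ‖x‖ = 1 → f (-x) = -f x) {p : X →L[ℝ] ℝ}
    (hp : ‖p‖ ≤ 1) (hmid : ∀ y, ‖y‖ = 1 → Smooth y → MidAt g y) {x w : X} (hc : Chord p x w)
    (hsx : Smooth (f x)) (hsw : Smooth (f w)) {q : Y →L[ℝ] ℝ} (hq : TopFun f g p x q) :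
    TopFun f g p (-w) q := by
  obtain ⟨Φw, hΦw⟩ := h.exists_isPhi hp (h.map w hc.bot) hsw (hmid _ (h.map w hc.bot) hsw)
  have hn := h.topFun_norming ho hp hc hsx hq
  obtain ⟨Φ, w', hΦ, hcan, hc', hqw'⟩ := hq
  have hqw : q (f x - f w) = ‖x - w‖ := by rw [hn.2, h.dist x w hc.top hc.bot]
  have hcw := h.canon_bot ho hp hc hsx hsw hΦ hΦw hcan hqw
  have hfw : f (-w) = -f w := ho w hc.bot
  have hfx : f (-x) = -f x := ho x hc.top
  refine ⟨Φw, -x, ?_, ⟨hcw.norm_le, ?_⟩, hc.neg, ?_⟩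
  · rw [hfw]
    exact h.isPhi_neg ho (h.map w hc.bot) hsw hΦw
  · intro al hal
    rw [hfw, hsw.J_neg, _root_.neg_apply, neg_eq_zero] at hal
    exact hcw.eq al hal
  · rw [hfw, hfx]
    have e1 : -f w - -f x = f x - f w := by abel
    have e2 : -w - -x = x - w := by abel
    rw [e1, e2]
    exact hqw

/-- F1 for every functional of norm at most one, from the midpoint-linearity of the blow-ups of
the inverse at smooth points (M2). -/
theorem SI.canonAt (h : SI f g) (ho : ∀ x, ‖x‖ = 1 → f (-x) = -f x) {p : X →L[ℝ] ℝ}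
    (hp : ‖p‖ ≤ 1) (hmid : ∀ y, ‖y‖ = 1 → Smooth y → MidAt g y) : CanonAt f p := by
  classical
  set qT : X → (Y →L[ℝ] ℝ) := fun x =>
    if hx : ∃ q, TopFun f g p x q then Classical.choose hx else 0 with hqT
  have hqTs : ∀ x w, Chord p x w → Smooth (f x) → TopFun f g p x (qT x) := by
    intro x w hc hs
    have hex := h.exists_topFun ho hp hmid hc hs
    have : qT x = Classical.choose hex := by rw [hqT]; exact dif_pos hex
    rw [this]
    exact Classical.choose_spec hex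
  refine ⟨qT, fun w => qT (-w), ?_⟩
  intro y w hy hw hne hlt heq
  have hc : Chord p y w := ⟨hy, hw, heq, hlt⟩
  have hfw : f (-w) = -f w := ho w hw
  have hfy : f (-y) = -f y := ho y hy
  refine ⟨?_, ?_, ?_⟩
  · intro hs
    exact h.topFun_norming ho hp hc hs (hqTs y w hc hs)
  · intro hs
    have hs' : Smooth (f (-w)) := by rw [hfw]; exact hs.neg
    have hn := h.topFun_norming ho hp hc.neg hs' (hqTs (-w) (-y) hc.neg hs')
    rw [hfw, hfy] at hn
    have e1 : -f w - -f y = f y - f w := by abel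
    rw [e1] at hn
    exact hn
  · intro hsy hsw
    have hs' : Smooth (f (-w)) := by rw [hfw]; exact hsw.neg
    have h1 := h.topFun_bot ho hp hmid hc hsy hsw (hqTs y w hc hsy)
    exact h.topFun_unique ho (x := -w) (by rw [norm_neg]; exact hw) h1
      (hqTs (-w) (-y) hc.neg hs')

/-- SLICE LEMMA (F2) with the M2 hypothesis on the inverse. -/
theorem SI.slice [TopologicalSpace.SeparableSpace X] [TopologicalSpace.SeparableSpace Y]
    [CompleteSpace X] (h : SI f g) (ho : ∀ x, ‖x‖ = 1 → f (-x) = -f x)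
    (hmid : ∀ y, ‖y‖ = 1 → Smooth y → MidAt g y) {p : X →L[ℝ] ℝ} (hp : ‖p‖ ≤ 1)
    {V : Submodule ℝ X} {c : X} (hcV : c ∈ V) (hc : ‖c‖ = 1) {ε : ℝ} (hε : 0 < ε)
    (HF : ∀ h ∈ V, ‖h‖ ≤ ε → p (c + h) = ‖c + h‖) :
    ∀ m : X, ‖m‖ < 1 → ∃ q s, CosetFun f p V m q s :=
  Crest.Agent.R074.slice h hp hcV hc hε HF (h.canonAt ho hp hmid)

end Crest.Agent.R074
end

-- ▼ part R074/LTAFin
section


/-!
Row 74 (S0099): assembly of the local Theorem A for generic `u` (helper29).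
-/

set_option autoImplicit false

namespace Crest.Agent.R074

open Metric Set Filter Topology

variable {X Y : Type*} [NormedAddCommGroup X] [NormedSpace ℝ X] [NormedAddCommGroup Y]
  [NormedSpace ℝ Y] {f : X → Y} {g : Y → X}

namespace Fin

/-- a slice functional norms the images of the chords of `p` in the slice -/
theorem cosetFun_norming (h : SI f g) {p : X →L[ℝ] ℝ} {V : Submodule ℝ X} {m : X}
    {q : Y →L[ℝ] ℝ} {s : ℝ} (hq : CosetFun f p V m q s) {a b : X} (ha : ‖a‖ = 1) (hb : ‖b‖ = 1)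
    (ham : a - m ∈ V) (hbm : b - m ∈ V) (hab : p (a - b) = ‖a - b‖) :
    Norming q (f a - f b) := by
  refine ⟨hq.norm_le, ?_⟩
  have h1 := hq.rel a ha ham
  have h2 := hq.rel b hb hbm
  rw [h.dist a b ha hb, ← hab, map_sub, map_sub]
  linarith

/-- a functional norming the middle of a flat segment norms its end -/
theorem norming_of_flat {q : Y →L[ℝ] ℝ} {x e : Y} (hq : Norming q x) (h1 : ‖x + e‖ = ‖x‖)
    (h2 : ‖x - e‖ = ‖x‖) : q e = 0 ∧ Norming q (x + e) := by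
  have h3 := hq.le (x + e)
  have h4 := hq.le (x - e)
  rw [map_add, hq.2, h1] at h3
  rw [map_sub, hq.2, h2] at h4
  have h5 : q e = 0 := by linarith
  refine ⟨h5, hq.1, ?_⟩
  rw [map_add, hq.2, h5, h1, add_zero]

/-- the doubling relation, from the agreement of `q₂` and `J (2 A - Z)` on `ker J Z`
(version with `A` in the role of the smooth end) -/
theorem rel_of_ker (h : SI f g) (ho : ∀ x, ‖x‖ = 1 → f (-x) = -f x) {p : X →L[ℝ] ℝ}
    {V : Submodule ℝ X} {m : X} {q q2 : Y →L[ℝ] ℝ} {s s2 : ℝ} (hq : CosetFun f p V m q s)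
    (hq2 : CosetFun f p V ((2 : ℝ) • m) q2 s2) {a b : X} (ha : ‖a‖ = 1) (hb : ‖b‖ = 1)
    (hz : ‖a + b‖ = 1) (ham : a - m ∈ V) (hbm : b - m ∈ V) (hab : p (a - b) = ‖a - b‖)
    (hs : Smooth ((2 : ℝ) • f a - f (a + b)))
    (hker : ∀ y, J (f (a + b)) y = 0 → q2 y = J ((2 : ℝ) • f a - f (a + b)) y) :
    ‖q2 - q‖ ≤ |2 * s - s2| := by
  have hn := cosetFun_norming h hq ha hb ham hbm hab
  have hfz : ‖f (a + b)‖ = 1 := h.map _ hz
  have hsum : ‖f a + f b‖ = 1 := by rw [h.norm_add ho ha hb, hz]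
  have hfl := h.symm.flat (h.odd_symm ho) (a := f a) (b := f b) (h.map a ha) (h.map b hb) hsum
  rw [h.left a ha, h.left b hb] at hfl
  obtain ⟨hD, hn2⟩ := norming_of_flat hn hfl.1 hfl.2
  have e1 : f a - f b + (f a + f b - f (a + b)) = (2 : ℝ) • f a - f (a + b) := by
    rw [two_smul]; abel
  rw [e1] at hn2
  have hqt : q = J ((2 : ℝ) • f a - f (a + b)) := hs.eq_J hn2
  have hzm : a + b - (2 : ℝ) • m ∈ V := by
    have := V.add_mem ham hbm
    rwa [show a - m + (b - m) = a + b - (2 : ℝ) • m by rw [two_smul]; abel] at this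
  have r1 := hq.rel a ha ham
  have r2 := hq.rel b hb hbm
  have r3 := hq2.rel (a + b) hz hzm
  have hk : q2 (f (a + b)) - q (f (a + b)) = 2 * s - s2 := by
    rw [map_sub, map_add] at hD
    rw [map_add] at r3
    linarith
  refine ContinuousLinearMap.opNorm_le_bound _ (abs_nonneg _) (fun y => ?_)
  have hJ : J (f (a + b)) (y - J (f (a + b)) y • f (a + b)) = 0 := by
    rw [map_sub, map_smul, J_self, hfz, smul_eq_mul, mul_one, sub_self]
  have h5 := hker _ hJ
  rw [← hqt] at h5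
  rw [map_sub, map_sub, map_smul, map_smul, smul_eq_mul, smul_eq_mul] at h5
  have h6 : (q2 - q) y = J (f (a + b)) y * (2 * s - s2) := by
    rw [_root_.sub_apply, ← hk]
    linarith
  rw [h6, Real.norm_eq_abs, abs_mul, mul_comm]
  exact mul_le_mul_of_nonneg_left (J_abs_le _ _) (abs_nonneg _)

theorem cosetFun_neg {p : X →L[ℝ] ℝ} {V : Submodule ℝ X} {m : X} {q : Y →L[ℝ] ℝ} {s : ℝ}
    (hq : CosetFun f p V m q s) : CosetFun f (-p) V m (-q) (-s) := by
  refine ⟨by rw [norm_neg]; exact hq.norm_le, fun x hx hxm => ?_⟩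
  have := hq.rel x hx hxm
  rw [_root_.neg_apply, _root_.neg_apply]
  linarith

theorem cosetFun_mono {p : X →L[ℝ] ℝ} {V W : Submodule ℝ X} (hVW : V ≤ W) {m m' : X}
    (hmm : m' - m ∈ W) {q : Y →L[ℝ] ℝ} {s : ℝ}
    (hq : CosetFun f p W m q s) : CosetFun f p V m' q s := by
  refine ⟨hq.norm_le, fun x hx hxm => hq.rel x hx ?_⟩
  have := W.add_mem (hVW hxm) hmm
  rwa [show x - m' + (m' - m) = x - m by abel] at this

/-- direction-independent form of the doubling lemma used here: every functional norming a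
chord from `z = a + b` in a direction of the half-open segment `[u, c₀)` agrees with the
functional of the middle chord on the kernel of `J (f z)`. -/
def DoubAt (f : X → Y) (u c0 : X) : Prop :=
  ∀ (a b : X) (r : ℝ), GoodT f a b → 0 < r → a - b = r • u →
    ∀ (w : X) (ρ s : ℝ), ‖w‖ = 1 → 0 < ρ → 0 ≤ s → s < 1 →
    (a + b - w = ρ • ((1 - s) • u + s • c0) ∨ w - (a + b) = ρ • ((1 - s) • u + s • c0)) →
    ∀ q2 : Y →L[ℝ] ℝ, (a + b - w = ρ • ((1 - s) • u + s • c0) → Norming q2 (f (a + b) - f w)) →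
      (w - (a + b) = ρ • ((1 - s) • u + s • c0) → Norming q2 (f w - f (a + b))) →
    (Smooth (f a) → Smooth ((2 : ℝ) • f a - f (a + b)) →
      ∀ y, J (f (a + b)) y = 0 → q2 y = J ((2 : ℝ) • f a - f (a + b)) y) ∧
    (Smooth (f b) → Smooth ((2 : ℝ) • f b - f (a + b)) →
      ∀ y, J (f (a + b)) y = 0 → q2 y = -J ((2 : ℝ) • f b - f (a + b)) y)

/-- the norm along the segment `[u, c0]` of a face -/
theorem norm_seg {p : X →L[ℝ] ℝ} (hp : ‖p‖ ≤ 1) {u c0 : X} (hu : u ∈ face p) (hc : c0 ∈ face p)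
    {s : ℝ} (hs0 : 0 ≤ s) (hs1 : s ≤ 1) : (1 - s) • u + s • c0 ∈ face p :=
  face_convex hp hu hc (by linarith) hs0 (by ring)

/-- existence of a proper chord from a smooth point -/
theorem exists_other_end {z c : X} (hz : ‖z‖ = 1) (hsz : Smooth z) (hc : ‖c‖ = 1)
    (hj : 0 < J z c) : ∃ ρ : ℝ, 0 < ρ ∧ ‖z - ρ • c‖ = 1 := by
  obtain ⟨δ, hδ, hd⟩ := hsz.deriv (-c) (ε := J z c / 2) (by linarith)
  have hδ' : 0 < min δ 1 := lt_min hδ one_pos
  have h1 := hd (min δ 1) (by rw [abs_of_pos hδ']; exact min_le_left _ _)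
  rw [map_neg, abs_of_pos hδ', hz] at h1
  have h2 : ‖z + min δ 1 • -c‖ < 1 := by nlinarith
  have h3 : 1 ≤ ‖z + (2 : ℝ) • -c‖ := by
    have h4 := norm_sub_le (z + (2 : ℝ) • -c) z
    rw [add_sub_cancel_left, norm_smul, norm_neg, hc, hz, Real.norm_of_nonneg (by norm_num)] at h4
    linarith
  obtain ⟨t, ht1, ht2, ht⟩ := Est.exists_unit_on_line (by linarith [min_le_right δ 1]) h2.le h3
  refine ⟨t, by linarith, ?_⟩
  rw [← ht, smul_neg, sub_eq_add_neg]

/-- the doubling relation for a good triangle -/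
theorem rel_good (h : SI f g) (ho : ∀ x, ‖x‖ = 1 → f (-x) = -f x) {u c0 : X} (hu1 : ‖u‖ = 1)
    (hc1 : ‖c0‖ = 1) (hc : J u c0 = 1) (hD : DoubAt f u c0) {V : Submodule ℝ X}
    (hV : V = Submodule.span ℝ {u, c0}) {m : X} (hm : ‖(2 : ℝ) • m‖ < 1) {q q2 : Y →L[ℝ] ℝ}
    {s s2 : ℝ} (hq : CosetFun f (J u) V m q s) (hq2 : CosetFun f (J u) V ((2 : ℝ) • m) q2 s2)
    {a b : X} {r : ℝ} (hT : GoodT f a b) (hr : 0 < r) (hab : a - b = r • u) (ham : a - m ∈ V) :
    ‖q2 - q‖ ≤ |2 * s - s2| := by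
  have huu : J u u = 1 := by rw [J_self, hu1]
  have huf : u ∈ face (J u) := ⟨hu1, huu⟩
  have hcf : c0 ∈ face (J u) := ⟨hc1, hc⟩
  have huV : u ∈ V := by rw [hV]; exact Submodule.subset_span (by simp)
  have hcV : c0 ∈ V := by rw [hV]; exact Submodule.subset_span (by simp)
  have hbm : b - m ∈ V := by
    have := V.sub_mem ham (V.smul_mem r huV)
    rwa [← hab, show a - m - (a - b) = b - m by abel] at this
  have hzm : a + b - (2 : ℝ) • m ∈ V := by
    have := V.add_mem ham hbm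
    rwa [show a - m + (b - m) = a + b - (2 : ℝ) • m by rw [two_smul]; abel] at this
  have hnab : J u (a - b) = ‖a - b‖ := by
    rw [hab, map_smul, norm_smul, hu1, huu, Real.norm_of_nonneg hr.le, smul_eq_mul]
  have hnba : (-J u) (b - a) = ‖b - a‖ := by
    rw [_root_.neg_apply, ← map_neg, neg_sub, hnab, norm_sub_rev]
  -- a direction which is not in the kernel of `J z`
  obtain ⟨σ, hσ0, hσ1, hσ⟩ : ∃ σ : ℝ, 0 ≤ σ ∧ σ < 1 ∧
      J (a + b) ((1 - σ) • u + σ • c0) ≠ 0 := by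
    by_contra hcon
    push Not at hcon
    have h0 := hcon 0 le_rfl one_pos
    have h1 := hcon (1 / 2) (by norm_num) (by norm_num)
    rw [sub_zero, one_smul, zero_smul, add_zero] at h0
    rw [map_add, map_smul, map_smul, h0, smul_zero, zero_add, smul_eq_mul] at h1
    have h1' : J (a + b) c0 = 0 := by linarith
    have hall : ∀ v ∈ V, J (a + b) v = 0 := by
      intro v hv
      rw [hV, Submodule.mem_span_pair] at hv
      obtain ⟨α, β, rfl⟩ := hv
      rw [map_add, map_smul, map_smul, h0, h1', smul_zero, smul_zero, add_zero]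
    have h2 := hall _ hzm
    rw [map_sub, J_self, hT.hab] at h2
    have h3 := J_le (a + b) ((2 : ℝ) • m)
    linarith
  have hcσ : (1 - σ) • u + σ • c0 ∈ face (J u) :=
    norm_seg (J_norm_le u) huf hcf hσ0 hσ1.le
  have hcσV : (1 - σ) • u + σ • c0 ∈ V :=
    V.add_mem (V.smul_mem _ huV) (V.smul_mem _ hcV)
  set c := (1 - σ) • u + σ • c0 with hcdef
  -- the other end
  obtain ⟨w, ρ, hw1, hρ, hw⟩ : ∃ (w : X) (ρ : ℝ), ‖w‖ = 1 ∧ 0 < ρ ∧
      (a + b - w = ρ • c ∨ w - (a + b) = ρ • c) := by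
    rcases lt_or_gt_of_ne hσ with hneg | hpos
    · obtain ⟨ρ, hρ, h1⟩ := exists_other_end (c := -c) hT.hab hT.sz (by rw [norm_neg]; exact hcσ.1)
        (by rw [map_neg]; linarith)
      exact ⟨a + b - ρ • -c, ρ, h1, hρ, Or.inr (by rw [smul_neg]; abel)⟩
    · obtain ⟨ρ, hρ, h1⟩ := exists_other_end hT.hab hT.sz hcσ.1 hpos
      exact ⟨a + b - ρ • c, ρ, h1, hρ, Or.inl (by abel)⟩
  have hnρ : J u (ρ • c) = ‖ρ • c‖ := by
    rw [map_smul, norm_smul, hcσ.1, hcσ.2, Real.norm_of_nonneg hρ.le, smul_eq_mul]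
  have hwm : w - (2 : ℝ) • m ∈ V := by
    rcases hw with hw | hw
    · have := V.sub_mem hzm (V.smul_mem ρ hcσV)
      rwa [← hw, show a + b - (2 : ℝ) • m - (a + b - w) = w - (2 : ℝ) • m by abel] at this
    · have := V.add_mem hzm (V.smul_mem ρ hcσV)
      rwa [← hw, show a + b - (2 : ℝ) • m + (w - (a + b)) = w - (2 : ℝ) • m by abel] at this
  have hN1 : a + b - w = ρ • c → Norming q2 (f (a + b) - f w) := fun e =>
    cosetFun_norming h hq2 hT.hab hw1 hzm hwm (by rw [e]; exact hnρ)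
  have hN2 : w - (a + b) = ρ • c → Norming q2 (f w - f (a + b)) := fun e =>
    cosetFun_norming h hq2 hw1 hT.hab hwm hzm (by rw [e]; exact hnρ)
  obtain ⟨hA, hB⟩ := hD a b r hT hr hab w ρ σ hw1 hρ hσ0 hσ1 hw q2 hN1 hN2
  rcases hT.or with ⟨h1, h2⟩ | ⟨h1, h2⟩
  · exact rel_of_ker h ho hq hq2 hT.ha hT.hb hT.hab ham hbm hnab h2 (hA h1 h2)
  · have hba : ‖b + a‖ = 1 := by rw [add_comm]; exact hT.hab
    have := rel_of_ker h ho (cosetFun_neg hq) (cosetFun_neg hq2) hT.hb hT.ha hba hbm ham hnba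
      (by rw [add_comm b a]; exact h2) (by
        intro y hy
        rw [add_comm b a] at hy ⊢
        rw [_root_.neg_apply, hB h1 h2 y hy, neg_neg])
    have e1 : -q2 - -q = -(q2 - q) := by abel
    have e2 : 2 * -s - -s2 = -(2 * s - s2) := by ring
    rwa [e1, e2, norm_neg, abs_neg] at this

/-- a span of finitely many points of a face contains a point near which (in the span) the norm
is equal to the functional -/
theorem face_span {ι : Type*} [Fintype ι] [Nonempty ι] {p : X →L[ℝ] ℝ} (hp : ‖p‖ ≤ 1)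
    (c : ι → X) (hc : ∀ i, c i ∈ face p) :
    ∃ (cb : X) (ε : ℝ), cb ∈ Submodule.span ℝ (Set.range c) ∧ ‖cb‖ = 1 ∧ 0 < ε ∧
      ∀ k ∈ Submodule.span ℝ (Set.range c), ‖k‖ ≤ ε → p (cb + k) = ‖cb + k‖ := by
  classical
  set F := Submodule.span ℝ (Set.range c) with hF
  have : FiniteDimensional ℝ F := FiniteDimensional.span_of_finite ℝ (Set.finite_range c)
  -- the surjection
  let Φ₀ : (ι → ℝ) →ₗ[ℝ] F := Fintype.linearCombination ℝ (fun i => (⟨c i, Submodule.subset_span ⟨i, rfl⟩⟩ : F))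
  let Φ : (ι → ℝ) →L[ℝ] F := LinearMap.toContinuousLinearMap Φ₀
  have hΦ : ∀ α : ι → ℝ, (Φ α : X) = ∑ i, α i • c i := by
    intro α
    show ((Φ₀ α : F) : X) = _
    simp [Φ₀, Fintype.linearCombination_apply]
  have hsurj : Function.Surjective Φ := by
    rintro ⟨k, hk⟩
    rw [hF, Submodule.mem_span_range_iff_exists_fun] at hk
    obtain ⟨α, hα⟩ := hk
    exact ⟨α, Subtype.ext (by rw [hΦ]; exact hα)⟩
  obtain ⟨C, hC, hpre⟩ := Φ.exists_preimage_norm_le hsurj
  set N : ℝ := (Fintype.card ι : ℝ) with hN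
  have hN0 : 0 < N := by rw [hN]; exact_mod_cast Fintype.card_pos
  have key : ∀ α : ι → ℝ, (∀ i, 0 ≤ α i) → p (∑ i, α i • c i) = ∑ i, α i ∧
      ‖∑ i, α i • c i‖ = ∑ i, α i := by
    intro α hα
    have h1 : p (∑ i, α i • c i) = ∑ i, α i := by
      rw [map_sum]
      refine Finset.sum_congr rfl fun i _ => ?_
      rw [map_smul, (hc i).2, smul_eq_mul, mul_one]
    refine ⟨h1, le_antisymm ?_ ?_⟩
    · refine (norm_sum_le _ _).trans (le_of_eq ?_)
      refine Finset.sum_congr rfl fun i _ => ?_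
      rw [norm_smul, (hc i).1, mul_one, Real.norm_of_nonneg (hα i)]
    · rw [← h1]
      exact apply_le_of_norm_le_one hp _
  refine ⟨∑ i, N⁻¹ • c i, N⁻¹ / C, ?_, ?_, by positivity, ?_⟩
  · exact Submodule.sum_mem _ fun i _ => Submodule.smul_mem _ _ (Submodule.subset_span ⟨i, rfl⟩)
  · rw [(key (fun _ => N⁻¹) (fun _ => by positivity)).2]
    rw [Finset.sum_const, Finset.card_univ, nsmul_eq_mul, ← hN, mul_inv_cancel₀ hN0.ne']
  · intro k hk hkε
    obtain ⟨α, hα, hαn⟩ := hpre ⟨k, hk⟩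
    have hk' : k = ∑ i, α i • c i := by rw [← hΦ, hα]
    have hαi : ∀ i, |α i| ≤ N⁻¹ := by
      intro i
      have h1 : ‖α i‖ ≤ ‖α‖ := norm_le_pi_norm α i
      rw [Real.norm_eq_abs] at h1
      have h2 : ‖(⟨k, hk⟩ : F)‖ = ‖k‖ := rfl
      rw [h2] at hαn
      have h3 : C * ‖k‖ ≤ N⁻¹ := by
        calc C * ‖k‖ ≤ C * (N⁻¹ / C) := mul_le_mul_of_nonneg_left hkε hC.le
          _ = N⁻¹ := by field_simp
      linarith
    have e : (∑ i, N⁻¹ • c i) + k = ∑ i, (N⁻¹ + α i) • c i := by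
      rw [hk', ← Finset.sum_add_distrib]
      refine Finset.sum_congr rfl fun i _ => ?_
      rw [add_smul]
    rw [e]
    have h4 := key (fun i => N⁻¹ + α i) (fun i => by linarith [(abs_le.mp (hαi i)).1])
    rw [h4.1, h4.2]

/-- all the halvings of `m` have a nice `u`-chord -/
def Nice (f : X → Y) (u m : X) : Prop :=
  ∀ n : ℕ, Smooth (f (top u (((1 : ℝ) / 2) ^ n • m)) - f (top (-u) (((1 : ℝ) / 2) ^ n • m)))

/-- the conclusion of `SI.residual_goodT` -/
def GoodDir (f : X → Y) (u : X) : Prop :=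
  ∀ (a b : X) (r : ℝ), ‖a‖ = 1 → ‖b‖ = 1 → ‖a + b‖ = 1 →
      ‖a - b‖ < 2 → 0 < r → a - b = r • u → ∀ ε : ℝ, 0 < ε →
      ∃ (a' b' : X) (r' : ℝ), GoodT f a' b' ∧ 0 < r' ∧ a' - b' = r' • u ∧
        ‖a' - a‖ < ε ∧ ‖b' - b‖ < ε

/-- existence of slice functionals -/
def SliceAt (f : X → Y) (p : X →L[ℝ] ℝ) : Prop :=
  ∀ (F : Submodule ℝ X) (cb : X) (ε : ℝ), cb ∈ F → ‖cb‖ = 1 → 0 < ε →
    (∀ k ∈ F, ‖k‖ ≤ ε → p (cb + k) = ‖cb + k‖) → ∀ m : X, ‖m‖ < 1 →
    ∃ (q : Y →L[ℝ] ℝ) (s : ℝ), CosetFun f p F m q s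

theorem exists_slice {p : X →L[ℝ] ℝ} (hp : ‖p‖ ≤ 1) (hS : SliceAt f p) {ι : Type*} [Fintype ι]
    [Nonempty ι] (c : ι → X) (hc : ∀ i, c i ∈ face p) {m : X} (hm : ‖m‖ < 1) :
    ∃ (q : Y →L[ℝ] ℝ) (s : ℝ), CosetFun f p (Submodule.span ℝ (Set.range c)) m q s := by
  obtain ⟨cb, ε, h1, h2, h3, h4⟩ := face_span hp c hc
  exact hS _ cb ε h1 h2 h3 h4 m hm

theorem unique_of_nice (h : SI f g) {u : X} (hu1 : ‖u‖ = 1) {V : Submodule ℝ X} (huV : u ∈ V)
    {m : X} (hm : ‖m‖ < 1) (hs : Smooth (f (top u m) - f (top (-u) m))) {q q' : Y →L[ℝ] ℝ}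
    {s s' : ℝ} (hq : CosetFun f (J u) V m q s) (hq' : CosetFun f (J u) V m q' s') :
    q = q' ∧ s = s' := by
  have hu1' : ‖-u‖ = 1 := by rw [norm_neg]; exact hu1
  have huu : J u u = 1 := by rw [J_self, hu1]
  have ht : ‖top u m‖ = 1 := norm_top hu1 hm
  have hb : ‖top (-u) m‖ = 1 := norm_top hu1' hm
  have htV : top u m - m ∈ V := by
    rw [show top u m - m = tau u m • u by unfold top; abel]
    exact V.smul_mem _ huV
  have hbV : top (-u) m - m ∈ V := by
    rw [show top (-u) m - m = (-tau (-u) m) • u by unfold top; rw [smul_neg, neg_smul]; abel]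
    exact V.smul_mem _ huV
  have hn : J u (top u m - top (-u) m) = ‖top u m - top (-u) m‖ := by
    rw [norm_top_sub_top hu1 hm, top_sub_top, map_smul, huu, smul_eq_mul, mul_one]
  have h1 := cosetFun_norming h hq ht hb htV hbV hn
  have h2 := cosetFun_norming h hq' ht hb htV hbV hn
  have h3 : q = q' := hs.unique h1 h2
  refine ⟨h3, ?_⟩
  rw [← hq.rel _ ht htV, ← hq'.rel _ ht htV, h3]

/-- the doubling relation at the nice cosets -/
theorem rel_nice (h : SI f g) (ho : ∀ x, ‖x‖ = 1 → f (-x) = -f x) {u c0 : X} (hu1 : ‖u‖ = 1)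
    (hc1 : ‖c0‖ = 1) (hc : J u c0 = 1) (hne : c0 ≠ u) (hD : DoubAt f u c0) (hG : GoodDir f u)
    (hS : SliceAt f (J u)) {V : Submodule ℝ X}
    (hV : V = Submodule.span ℝ {u, c0}) {m : X} (hm : ‖m‖ ≤ 1 / 8)
    (hs1 : Smooth (f (top u m) - f (top (-u) m)))
    (hs2 : Smooth (f (top u ((2 : ℝ) • m)) - f (top (-u) ((2 : ℝ) • m)))) {q q2 : Y →L[ℝ] ℝ}
    {s s2 : ℝ} (hq : CosetFun f (J u) V m q s) (hq2 : CosetFun f (J u) V ((2 : ℝ) • m) q2 s2) :
    ‖q2 - q‖ ≤ |2 * s - s2| := by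
  have huu : J u u = 1 := by rw [J_self, hu1]
  have huf : u ∈ face (J u) := ⟨hu1, huu⟩
  have hcf : c0 ∈ face (J u) := ⟨hc1, hc⟩
  have hu1' : ‖-u‖ = 1 := by rw [norm_neg]; exact hu1
  have huV : u ∈ V := by rw [hV]; exact Submodule.subset_span (by simp)
  have hcV : c0 ∈ V := by rw [hV]; exact Submodule.subset_span (by simp)
  have hm1 : ‖m‖ < 1 := by linarith
  have hm2 : ‖(2 : ℝ) • m‖ < 1 := by
    rw [norm_smul, Real.norm_of_nonneg (by norm_num)]; linarith
  -- the unit-sum chord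
  have hcne : ∀ t : ℝ, c0 ≠ t • u := by
    intro t e
    have := hc
    rw [e, map_smul, huu, smul_eq_mul, mul_one] at this
    rw [this, one_smul] at e
    exact hne e
  obtain ⟨e, κ, α, β, he1, hκ1, hκu, hκe, heq⟩ := exists_birkhoff hu1 hcne
  obtain ⟨t, ht0, ht1, hsum⟩ := exists_unitSum_coset (m := m) hu1 he1 hκ1 hκu hκe hm
  have heV : e ∈ V := by rw [heq]; exact V.add_mem (V.smul_mem _ huV) (V.smul_mem _ hcV)
  have hv0 : ‖m + t • e‖ < 1 := by
    have := norm_add_le m (t • e)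
    rw [norm_smul, he1, Real.norm_of_nonneg ht0] at this
    linarith
  set v := m + t • e with hv
  set a := top u v with ha
  set b := top (-u) v with hb
  have ha1 : ‖a‖ = 1 := norm_top hu1 hv0
  have hb1 : ‖b‖ = 1 := norm_top hu1' hv0
  have hab : a - b = (tau u v + tau (-u) v) • u := top_sub_top u v
  have hr : 0 < tau u v + tau (-u) v := add_pos (tau_pos hu1 hv0) (tau_pos hu1' hv0)
  have ham : a - m ∈ V := by
    have h1 : a - m = t • e + tau u v • u := by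
      rw [ha]; unfold top; rw [hv]; abel
    rw [h1]
    exact V.add_mem (V.smul_mem _ heV) (V.smul_mem _ huV)
  by_cases hlt : ‖a - b‖ < 2
  · -- generic case
    have hex : ∀ j : ℕ, ∃ (a' b' : X) (r' : ℝ), GoodT f a' b' ∧ 0 < r' ∧ a' - b' = r' • u ∧
        ‖a' - a‖ < rr j / 8 ∧ ‖b' - b‖ < rr j / 8 := fun j =>
      hG a b _ ha1 hb1 hsum hlt hr hab (rr j / 8) (by linarith [rr_pos j])
    choose a' b' r' hT hr' hab' hda hdb using hex
    have hrr1 : ∀ j, rr j ≤ 1 := by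
      intro j
      unfold rr
      rw [div_le_one (by positivity)]
      linarith [(Nat.cast_nonneg j : (0 : ℝ) ≤ j)]
    set μ : ℕ → X := fun j => m + (a' j - a) with hμ
    have hμn : ∀ j, ‖μ j‖ ≤ 1 / 4 := by
      intro j
      have h1 := norm_add_le m (a' j - a)
      have h2 := hda j
      have h3 := hrr1 j
      show ‖m + (a' j - a)‖ ≤ 1 / 4
      linarith
    have hμ1 : ∀ j, ‖μ j‖ < 1 := fun j => by linarith [hμn j]
    have hμ2 : ∀ j, ‖(2 : ℝ) • μ j‖ < 1 := fun j => by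
      rw [norm_smul, Real.norm_of_nonneg (by norm_num)]; linarith [hμn j]
    have hVr : V = Submodule.span ℝ (Set.range ![u, c0]) := by
      rw [hV]; congr 1; simp [Matrix.range_cons, Matrix.range_empty, Set.pair_comm]
    have hface2 : ∀ i : Fin 2, ![u, c0] i ∈ face (J u) := by
      intro i; fin_cases i
      · exact huf
      · exact hcf
    have hsl : ∀ m' : X, ‖m'‖ < 1 → ∃ (q : Y →L[ℝ] ℝ) (s : ℝ), CosetFun f (J u) V m' q s := by
      intro m' hm'
      rw [hVr]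
      exact exists_slice (J_norm_le u) hS ![u, c0] hface2 hm'
    choose qq ss hqq using fun j => hsl (μ j) (hμ1 j)
    choose qq2 ss2 hqq2 using fun j => hsl ((2 : ℝ) • μ j) (hμ2 j)
    have hrel : ∀ j, ‖qq2 j - qq j‖ ≤ |2 * ss j - ss2 j| := fun j => by
      refine rel_good h ho hu1 hc1 hc hD hV (hμ2 j) (hqq j) (hqq2 j) (hT j) (hr' j) (hab' j) ?_
      have e1 : a' j - μ j = a - m := by rw [hμ]; simp only; abel
      rw [e1]; exact ham
    have htend : Tendsto μ UU (𝓝 m) := by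
      have h1 : Tendsto (fun j => a' j - a) UU (𝓝 0) := by
        refine squeeze_zero_norm (fun j => (hda j).le) ?_
        have := rr_tendstoU.div_const 8
        simpa using this
      have := (tendsto_const_nhds (x := m)).add h1
      simpa using this
    have htend2 : Tendsto (fun j => (2 : ℝ) • μ j) UU (𝓝 ((2 : ℝ) • m)) := htend.const_smul 2
    have hbd1 : ∀ j, |ss j| ≤ 2 := fun j => by
      have := (hqq j).qq.abs_le_two h (J_norm_le u) hu1 huV huu (hμ1 j)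
      linarith [hμ1 j]
    have hbd2 : ∀ j, |ss2 j| ≤ 2 := fun j => by
      have := (hqq2 j).qq.abs_le_two h (J_norm_le u) hu1 huV huu (hμ2 j)
      linarith [hμ2 j]
    obtain ⟨q', s', hq', hqt, hst⟩ :=
      Est.QQ.closed h UU (fun j => (hqq j).qq) htend hm1 hbd1
    obtain ⟨q2', s2', hq2', hqt2, hst2⟩ :=
      Est.QQ.closed h UU (fun j => (hqq2 j).qq) htend2 hm2 hbd2
    obtain ⟨e1, e2⟩ := unique_of_nice h hu1 huV hm1 hs1 hq ⟨hq'.1, hq'.2⟩
    obtain ⟨e3, e4⟩ := unique_of_nice h hu1 huV hm2 hs2 hq2 ⟨hq2'.1, hq2'.2⟩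
    rw [e1, e2, e3, e4]
    refine ContinuousLinearMap.opNorm_le_bound _ (abs_nonneg _) (fun y => ?_)
    have t1 : Tendsto (fun j => ‖qq2 j y - qq j y‖) UU (𝓝 ‖q2' y - q' y‖) :=
      ((hqt2 y).sub (hqt y)).norm
    have t2 : Tendsto (fun j => |2 * ss j - ss2 j| * ‖y‖) UU (𝓝 (|2 * s' - s2'| * ‖y‖)) :=
      (((hst.const_mul 2).sub hst2).abs).mul_const _
    rw [_root_.sub_apply]
    refine le_of_tendsto_of_tendsto' t1 t2 fun j => ?_
    have h3 := (qq2 j - qq j).le_opNorm y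
    rw [_root_.sub_apply] at h3
    exact h3.trans (mul_le_mul_of_nonneg_right (hrel j) (norm_nonneg _))
  · -- the facet-like case
    have h2 : ‖a - b‖ = 2 := by
      apply le_antisymm
      · refine (norm_sub_le _ _).trans ?_
        rw [ha1, hb1]; norm_num
      · exact not_lt.mp hlt
    have hr2 : tau u v + tau (-u) v = 2 := by
      rw [← norm_top_sub_top hu1 hv0]; exact h2
    have haf : a ∈ face (J u) := by
      refine ⟨ha1, ?_⟩
      have h3 : J u a - J u b = 2 := by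
        rw [← map_sub, hab, map_smul, huu, hr2, smul_eq_mul, mul_one]
      have h4 := J_le u a
      have h5 := J_le u (-b)
      rw [norm_neg, hb1, map_neg] at h5
      rw [ha1] at h4
      linarith
    have hface3 : ∀ i : Fin 3, ![u, c0, a] i ∈ face (J u) := by
      intro i; fin_cases i
      · exact huf
      · exact hcf
      · exact haf
    obtain ⟨q', s', hq'⟩ := exists_slice (J_norm_le u) hS ![u, c0, a] hface3
      (m := 0) (by rw [norm_zero]; exact one_pos)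
    set F := Submodule.span ℝ (Set.range ![u, c0, a]) with hF
    have huF : u ∈ F := Submodule.subset_span ⟨0, rfl⟩
    have hcF : c0 ∈ F := Submodule.subset_span ⟨1, rfl⟩
    have haF : a ∈ F := Submodule.subset_span ⟨2, rfl⟩
    have hVF : V ≤ F := by
      rw [hV, Submodule.span_le]
      intro x hx
      rcases hx with rfl | hx
      · exact huF
      · rw [Set.mem_singleton_iff] at hx; rw [hx]; exact hcF
    have hmF : m ∈ F := by
      have := F.sub_mem haF (hVF ham)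
      rwa [show a - (a - m) = m by abel] at this
    have hs' : s' = 0 := by
      have h3 := hq'.rel u hu1 (by rw [sub_zero]; exact huF)
      have h4 := hq'.rel (-u) hu1' (by rw [sub_zero]; exact F.neg_mem huF)
      rw [ho u hu1, map_neg, map_neg] at h4
      linarith
    have hc1' : CosetFun f (J u) V m q' s' :=
      cosetFun_mono hVF (by rw [sub_zero]; exact hmF) hq'
    have hc2' : CosetFun f (J u) V ((2 : ℝ) • m) q' s' :=
      cosetFun_mono hVF (by rw [sub_zero]; exact F.smul_mem _ hmF) hq'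
    obtain ⟨e1, e2⟩ := unique_of_nice h hu1 huV hm1 hs1 hq hc1'
    obtain ⟨e3, e4⟩ := unique_of_nice h hu1 huV hm2 hs2 hq2 hc2'
    rw [e1, e2, e3, e4, hs', sub_self, norm_zero]
    exact abs_nonneg _

/-- `DoubAt` from helper401's `doubling` -/
theorem doubAt (h : SI f g) (ho : ∀ x, ‖x‖ = 1 → f (-x) = -f x)
    (hom : ∀ y, ‖y‖ = 1 → Smooth y → ∀ ζ, J y ζ = 0 → Hom g y ζ) {u c0 : X} (hu1 : ‖u‖ = 1)
    (hc1 : ‖c0‖ = 1) (hc : J u c0 = 1) : DoubAt f u c0 := by
  intro a b r hT hr hab w ρ s hw hρ hs0 hs1 hzw q2 hq1 hq2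
  have huf : u ∈ face (J u) := ⟨hu1, by rw [J_self, hu1]⟩
  have hcf : c0 ∈ face (J u) := ⟨hc1, hc⟩
  have hcs := norm_seg (J_norm_le u) huf hcf hs0 hs1.le
  have hnab : ‖a - b‖ = r := by rw [hab, norm_smul, hu1, mul_one, Real.norm_of_nonneg hr.le]
  set σ : ℝ := ρ * (1 - s) / r with hσ
  have hσ0 : 0 < σ := by rw [hσ]; apply div_pos (mul_pos hρ (by linarith)) hr
  set e : X := (ρ * s) • c0 with he
  have hsplit : ρ • ((1 - s) • u + s • c0) = σ • (a - b) + e := by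
    rw [hab, smul_add, smul_smul, smul_smul, smul_smul, he, hσ]
    congr 2
    field_simp
  have hnsplit : ‖ρ • ((1 - s) • u + s • c0)‖ = σ * ‖a - b‖ + ‖e‖ := by
    rw [norm_smul, hcs.1, hnab, he, norm_smul, hc1, Real.norm_of_nonneg hρ.le,
      Real.norm_of_nonneg (mul_nonneg hρ.le hs0), hσ]
    field_simp
    ring
  have hnzw : ‖a + b - w‖ = σ * ‖a - b‖ + ‖e‖ := by
    rcases hzw with h1 | h1
    · rw [h1]; exact hnsplit
    · rw [norm_sub_rev, h1]; exact hnsplit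
  obtain ⟨θ, hθ, h2, h3⟩ : ∃ θ : ℝ, (θ = 1 ∨ θ = -1) ∧
      θ • ((a + b) - w) = σ • (a - b) + e ∧ Norming q2 (θ • (f (a + b) - f w)) := by
    rcases hzw with h1 | h1
    · exact ⟨1, Or.inl rfl, by rw [one_smul, h1, hsplit], by rw [one_smul]; exact hq1 h1⟩
    · refine ⟨-1, Or.inr rfl, ?_, ?_⟩
      · rw [neg_one_smul, neg_sub, h1, hsplit]
      · rw [neg_one_smul, neg_sub]; exact hq2 h1
  constructor
  · intro hA hC y hy
    exact doubling h ho hT.ha hT.hb hT.hab hT.lt hT.sZ hA hC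
      (hom _ (h.map _ hT.hab) hT.sZ) (hom _ (h.map _ hT.ha) hA) hw hσ0 hθ h2 hnzw h3 hy
  · intro hB hC y hy
    have hba : b + a = a + b := add_comm b a
    have h4 := doubling h ho (a := b) (b := a) hT.hb hT.ha (by rw [hba]; exact hT.hab)
      (by rw [norm_sub_rev]; exact hT.lt) (by rw [hba]; exact hT.sZ) hB (by rw [hba]; exact hC)
      (by rw [hba]; exact hom _ (h.map _ hT.hab) hT.sZ) (hom _ (h.map _ hT.hb) hB) (w := w)
      (e := -e) (σ := σ) (θ := -θ) hw hσ0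
      (by rcases hθ with h5 | h5
          · right; rw [h5]
          · left; rw [h5, neg_neg])
      (by rw [hba, neg_smul, h2, neg_add, ← smul_neg, neg_sub])
      (by rw [hba, norm_neg, norm_sub_rev b a]; exact hnzw)
      (q2 := -q2) (by
        rw [hba, neg_smul]
        refine ⟨by rw [norm_neg]; exact h3.1, ?_⟩
        rw [_root_.neg_apply, map_neg, neg_neg, norm_neg]
        exact h3.2)
      (ζ := y) (by rw [hba]; exact hy)
    rw [hba, _root_.neg_apply] at h4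
    linarith

/-- LOCAL THEOREM A at a generic direction -/
theorem lta_u (h : SI f g) (ho : ∀ x, ‖x‖ = 1 → f (-x) = -f x) {u c0 : X} (hu1 : ‖u‖ = 1)
    (hu : Smooth u) (hfu : Smooth (f u))
    (hc1 : ‖c0‖ = 1) (hc : J u c0 = 1) (hne : c0 ≠ u) (hD : DoubAt f u c0) (hG : GoodDir f u)
    (hS : SliceAt f (J u))
    (hN : ∀ m : X, ‖m‖ < 1 → ∀ ε : ℝ, 0 < ε → ∃ m' : X, ‖m'‖ < 1 ∧ ‖m' - m‖ < ε ∧ Nice f u m')
    {x : X} (hx : ‖x‖ = 1) (hxu : ‖x - u‖ < 1 / 64) : J (f u) (f x) = J u x := by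
  have huu : J u u = 1 := by rw [J_self, hu1]
  have huf : u ∈ face (J u) := ⟨hu1, huu⟩
  have hcf : c0 ∈ face (J u) := ⟨hc1, hc⟩
  set V : Submodule ℝ X := Submodule.span ℝ {u, c0} with hV
  have huV : u ∈ V := by rw [hV]; exact Submodule.subset_span (by simp)
  have hVr : V = Submodule.span ℝ (Set.range ![u, c0]) := by
    rw [hV]; congr 1; simp [Matrix.range_cons, Matrix.range_empty, Set.pair_comm]
  have hface2 : ∀ i : Fin 2, ![u, c0] i ∈ face (J u) := by
    intro i; fin_cases i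
    · exact huf
    · exact hcf
  have hsl : ∀ m' : X, ‖m'‖ < 1 → ∃ (q : Y →L[ℝ] ℝ) (s : ℝ), CosetFun f (J u) V m' q s := by
    intro m' hm'
    rw [hVr]
    exact exists_slice (J_norm_le u) hS ![u, c0] hface2 hm'
  have hhalf : ∀ (k : ℕ) (m : X), ‖((1 : ℝ) / 2) ^ k • m‖ ≤ ‖m‖ := by
    intro k m
    rw [norm_smul, norm_pow, Real.norm_of_nonneg (by norm_num)]
    have : ((1 : ℝ) / 2) ^ k ≤ 1 := pow_le_one₀ (by norm_num) (by norm_num)
    nlinarith [norm_nonneg m]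
  have hsucc : ∀ (k : ℕ) (m : X), (2 : ℝ) • (((1 : ℝ) / 2) ^ (k + 1) • m)
      = ((1 : ℝ) / 2) ^ k • m := by
    intro k m
    rw [smul_smul]; congr 1; rw [pow_succ]; ring
  -- the relation
  let Q : X → (Y →L[ℝ] ℝ) → ℝ → Prop := fun m q s => ‖m‖ < 1 ∧
    ∃ (mm : ℕ → X) (k : ℕ → ℕ) (qq : ℕ → Y →L[ℝ] ℝ) (ss : ℕ → ℝ),
      (∀ i, ‖mm i‖ ≤ 1 / 4 ∧ Nice f u (mm i) ∧
        CosetFun f (J u) V (((1 : ℝ) / 2) ^ (k i) • mm i) (qq i) (ss i)) ∧
      Tendsto (fun i => ((1 : ℝ) / 2) ^ (k i) • mm i) UU (𝓝 m) ∧ ‖q‖ ≤ 1 ∧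
      (∀ y, Tendsto (fun i => qq i y) UU (𝓝 (q y))) ∧ Tendsto ss UU (𝓝 s)
  have hbd : ∀ {m : X} {q : Y →L[ℝ] ℝ} {s : ℝ}, ‖m‖ < 1 → CosetFun f (J u) V m q s → |s| ≤ 2 := by
    intro m q s hm hq
    have := hq.qq.abs_le_two h (J_norm_le u) hu1 huV huu hm
    linarith
  refine lta h ho hu1 hu hfu huV (eps0 := 1 / 4) (by norm_num) Q ?_ ?_ ?_ (m := x - u) ?_ hx
    (by rw [show x - (x - u) = u by abel]; exact huV)
  · -- (h1)
    rintro m q s ⟨hm, mm, k, qq, ss, hmm, ht, hq1, hqt, hst⟩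
    obtain ⟨q', s', hq', hqt', hst'⟩ := Est.QQ.closed h UU (fun i => (hmm i).2.2.qq) ht hm
      (fun i => hbd (by linarith [hhalf (k i) (mm i), (hmm i).1]) (hmm i).2.2)
    have e1 : q = q' := by
      ext y; exact tendsto_nhds_unique (hqt y) (hqt' y)
    have e2 : s = s' := tendsto_nhds_unique hst hst'
    rw [e1, e2]
    exact ⟨hq'.1, hq'.2⟩
  · -- (h2)
    intro m hm
    have hm1 : ‖m‖ < 1 := by linarith
    have hex : ∀ i : ℕ, ∃ m' : X, ‖m'‖ ≤ 1 / 4 ∧ ‖m' - m‖ < rr i ∧ Nice f u m' := by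
      intro i
      have hδ : 0 < min (rr i) (1 / 4 - ‖m‖) := lt_min (rr_pos i) (by linarith)
      obtain ⟨m', h1, h2, h3⟩ := hN m hm1 _ hδ
      refine ⟨m', ?_, h2.trans_le (min_le_left _ _), h3⟩
      have h4 := h2.trans_le (min_le_right _ _)
      have h5 := norm_sub_norm_le m' m
      linarith
    choose mm h1 h2 h3 using hex
    choose qq ss hqs using fun i => hsl (mm i) (by linarith [h1 i])
    have ht : Tendsto mm UU (𝓝 m) := by
      rw [tendsto_iff_norm_sub_tendsto_zero]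
      exact squeeze_zero (fun i => norm_nonneg _) (fun i => (h2 i).le) rr_tendstoU
    obtain ⟨q', s', hq', hqt', hst'⟩ := Est.QQ.closed h UU (fun i => (hqs i).qq) ht hm1
      (fun i => hbd (by linarith [h1 i]) (hqs i))
    refine ⟨q', s', hm1, mm, fun _ => 0, qq, ss, fun i => ⟨h1 i, h3 i, ?_⟩, ?_, hq'.1, hqt', hst'⟩
    · simpa using hqs i
    · simpa using ht
  · -- (h3)
    rintro m q2 s2 hm ⟨-, mm, k, qq2, ss2, hmm, ht, hq1, hqt2, hst2⟩
    have hm1 : ‖m‖ < 1 := by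
      rw [norm_smul, Real.norm_of_nonneg (by norm_num)] at hm
      linarith [norm_nonneg m]
    have hsmall : ∀ i, ‖((1 : ℝ) / 2) ^ (k i + 1) • mm i‖ ≤ 1 / 8 := by
      intro i
      have e := hsucc (k i) (mm i)
      have h1 := hhalf (k i) (mm i)
      rw [← e, norm_smul, Real.norm_of_nonneg (by norm_num)] at h1
      linarith [(hmm i).1]
    have ht' : Tendsto (fun i => ((1 : ℝ) / 2) ^ (k i + 1) • mm i) UU (𝓝 m) := by
      have h1 := ht.const_smul ((1 : ℝ) / 2)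
      have e1 : ((1 : ℝ) / 2) • (2 : ℝ) • m = m := by rw [smul_smul]; norm_num
      rw [e1] at h1
      refine h1.congr fun i => ?_
      rw [smul_smul, pow_succ]; congr 1; ring
    choose qq ss hqs using fun i => hsl (((1 : ℝ) / 2) ^ (k i + 1) • mm i)
      (by linarith [hsmall i])
    obtain ⟨q', s', hq', hqt', hst'⟩ := Est.QQ.closed h UU (fun i => (hqs i).qq) ht' hm1
      (fun i => hbd (by linarith [hsmall i]) (hqs i))
    refine ⟨q', s', ⟨hm1, mm, fun i => k i + 1, qq, ss,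
      fun i => ⟨(hmm i).1, (hmm i).2.1, hqs i⟩, ht', hq'.1, hqt', hst'⟩, ?_⟩
    have hrel : ∀ i, ‖qq2 i - qq i‖ ≤ |2 * ss i - ss2 i| := by
      intro i
      refine rel_nice h ho hu1 hc1 hc hne hD hG hS hV (hsmall i) ((hmm i).2.1 (k i + 1)) ?_
        (hqs i) ?_
      · rw [hsucc]; exact (hmm i).2.1 (k i)
      · rw [hsucc]; exact (hmm i).2.2
    refine ContinuousLinearMap.opNorm_le_bound _ (abs_nonneg _) (fun y => ?_)
    have t1 : Tendsto (fun j => ‖qq2 j y - qq j y‖) UU (𝓝 ‖q2 y - q' y‖) :=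
      ((hqt2 y).sub (hqt' y)).norm
    have t2 : Tendsto (fun j => |2 * ss j - ss2 j| * ‖y‖) UU (𝓝 (|2 * s' - s2| * ‖y‖)) :=
      (((hst'.const_mul 2).sub hst2).abs).mul_const _
    rw [_root_.sub_apply]
    refine le_of_tendsto_of_tendsto' t1 t2 fun j => ?_
    have h3 := (qq2 j - qq j).le_opNorm y
    rw [_root_.sub_apply] at h3
    exact h3.trans (mul_le_mul_of_nonneg_right (hrel j) (norm_nonneg _))
  · rw [lt_min_iff]
    exact ⟨by linarith, hxu⟩

end Fin

/-- LTA for generic `u`, from the blow-up statement M2 for `g` (midpoint form and homogeneity). -/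
theorem genLTA_of_mid [TopologicalSpace.SeparableSpace X] [TopologicalSpace.SeparableSpace Y]
    [CompleteSpace X] (h : SI f g) (ho : ∀ x, ‖x‖ = 1 → f (-x) = -f x)
    (hmid : ∀ y, ‖y‖ = 1 → Smooth y → MidAt g y)
    (hom : ∀ y, ‖y‖ = 1 → Smooth y → ∀ ζ, J y ζ = 0 → Hom g y ζ) : GenLTA f (1 / 64) := by
  filter_upwards [h.residual_joint, h.residual_goodT, h.residual_nice ho] with u h1 h2 h3
  refine ⟨h1.1, h1.2, ?_⟩
  by_cases hE : Expo (u : X)
  · exact Or.inl hE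
  · right
    unfold Expo at hE
    push Not at hE
    obtain ⟨c0, hc1, hc, hne⟩ := hE
    have hu1 : ‖(u : X)‖ = 1 := by simp
    intro x hx hxu
    refine Fin.lta_u h ho hu1 h1.1 h1.2 hc1 hc hne (Fin.doubAt h ho hom hu1 hc1 hc) h2 ?_ ?_ hx hxu
    · intro F cb ε hcb hcb1 hε HF m hm
      exact h.slice ho hmid (J_norm_le _) hcb hcb1 hε HF m hm
    · intro m hm ε hε
      exact exists_nice (u := (u : X)) h3 hm hε

end Crest.Agent.R074
end

-- ▼ part R074/HomM
section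

/-!
Row 74 (S0099): the bridge from the midpoint form of the blow-up (`MidAt`) to homogeneity
along rays (`Hom`), by a closed-subgroup argument (helper29).
-/

set_option autoImplicit false

namespace Crest.Agent.R074

open Metric Set Filter Topology Asymptotics

namespace HM

variable {X Y : Type*} [NormedAddCommGroup X] [NormedSpace ℝ X] [NormedAddCommGroup Y]
  [NormedSpace ℝ Y] {f : X → Y} {g : Y → X}

/-- displacement of `g` along the ray `y + r t α` -/
noncomputable def FF (g : Y → X) (y α : Y) (r t : ℝ) : X :=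
  g (Crest.Agent.R074.nu (y + (t * r) • α)) - g y

/-- `FF r t = t FF r 1 + o(r)` -/
def PP1 (g : Y → X) (y α : Y) (t : ℝ) : Prop :=
  ∀ ε : ℝ, 0 < ε → ∃ δ > 0, ∀ r : ℝ, 0 < r → r < δ →
    ‖FF g y α r t - t • FF g y α r 1‖ ≤ ε * r

theorem mid_rel {y α : Y} (hα : J y α = 0) (hmid : MidAt g y) (a b : ℝ) {ε : ℝ} (hε : 0 < ε) :
    ∃ δ > 0, ∀ r : ℝ, 0 < r → r < δ →
      ‖FF g y α r ((a + b) / 2) - (1 / 2 : ℝ) • (FF g y α r a + FF g y α r b)‖ ≤ ε * r := by
  obtain ⟨δ, hδ, hd⟩ := hmid (a • α) (b • α) (by rw [map_smul, hα, smul_zero])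
    (by rw [map_smul, hα, smul_zero]) ε hε
  refine ⟨δ, hδ, fun r hr hrδ => ?_⟩
  have h1 := hd r hr hrδ
  have e1 : y + r • ((1 / 2 : ℝ) • (a • α + b • α)) = y + ((a + b) / 2 * r) • α := by
    rw [← add_smul, smul_smul, smul_smul]; congr 2; ring
  have e2 : ∀ c : ℝ, y + r • (c • α) = y + (c * r) • α := fun c => by
    rw [smul_smul, mul_comm]
  rw [e1, e2, e2] at h1
  refine le_trans (le_of_eq ?_) h1
  congr 1
  unfold FF
  set A := g (Crest.Agent.R074.nu (y + ((a + b) / 2 * r) • α))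
  set B := g (Crest.Agent.R074.nu (y + (a * r) • α))
  set C := g (Crest.Agent.R074.nu (y + (b * r) • α))
  have e3 : g y = (1 / 2 : ℝ) • g y + (1 / 2 : ℝ) • g y := by rw [← add_smul]; norm_num
  calc A - g y - (1 / 2 : ℝ) • (B - g y + (C - g y))
      = A - g y - ((1 / 2 : ℝ) • (B + C) - ((1 / 2 : ℝ) • g y + (1 / 2 : ℝ) • g y)) := by
        congr 1
        rw [smul_add, smul_sub, smul_sub, smul_add]; abel
    _ = A - (1 / 2 : ℝ) • (B + C) := by rw [← e3]; abel

theorem pp_mid {y α : Y} (hα : J y α = 0) (hmid : MidAt g y) {a b : ℝ} (ha : PP1 g y α a)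
    (hb : PP1 g y α b) : PP1 g y α ((a + b) / 2) := by
  intro ε hε
  obtain ⟨δ1, hδ1, h1⟩ := ha (ε / 2) (by linarith)
  obtain ⟨δ2, hδ2, h2⟩ := hb (ε / 2) (by linarith)
  obtain ⟨δ3, hδ3, h3⟩ := mid_rel hα hmid a b (ε := ε / 2) (by linarith)
  refine ⟨min δ1 (min δ2 δ3), lt_min hδ1 (lt_min hδ2 hδ3), fun r hr hrδ => ?_⟩
  have k1 := h1 r hr (hrδ.trans_le (min_le_left _ _))
  have k2 := h2 r hr (hrδ.trans_le ((min_le_right _ _).trans (min_le_left _ _)))
  have k3 := h3 r hr (hrδ.trans_le ((min_le_right _ _).trans (min_le_right _ _)))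
  set A := FF g y α r a
  set B := FF g y α r b
  set C := FF g y α r ((a + b) / 2)
  set D := FF g y α r 1
  have e : C - ((a + b) / 2) • D = (C - (1 / 2 : ℝ) • (A + B)) + (1 / 2 : ℝ) • (A - a • D)
      + (1 / 2 : ℝ) • (B - b • D) := by
    rw [smul_add, smul_sub, smul_sub, smul_smul, smul_smul, add_div, add_smul]
    have e1 : (1 / 2 * a : ℝ) = a / 2 := by ring
    have e2 : (1 / 2 * b : ℝ) = b / 2 := by ring
    rw [e1, e2]; abel
  rw [e]
  refine (norm_add_le _ _).trans ?_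
  have h4 := norm_add_le (C - (1 / 2 : ℝ) • (A + B)) ((1 / 2 : ℝ) • (A - a • D))
  rw [norm_smul, Real.norm_of_nonneg (by norm_num : (0 : ℝ) ≤ 1 / 2)] at h4
  rw [norm_smul, Real.norm_of_nonneg (by norm_num : (0 : ℝ) ≤ 1 / 2)]
  linarith

theorem pp_refl {y α : Y} (hα : J y α = 0) (hmid : MidAt g y) {a b : ℝ} (ha : PP1 g y α a)
    (hc : PP1 g y α ((a + b) / 2)) : PP1 g y α b := by
  intro ε hε
  obtain ⟨δ1, hδ1, h1⟩ := ha (ε / 3) (by linarith)
  obtain ⟨δ2, hδ2, h2⟩ := hc (ε / 6) (by linarith)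
  obtain ⟨δ3, hδ3, h3⟩ := mid_rel hα hmid a b (ε := ε / 6) (by linarith)
  refine ⟨min δ1 (min δ2 δ3), lt_min hδ1 (lt_min hδ2 hδ3), fun r hr hrδ => ?_⟩
  have k1 := h1 r hr (hrδ.trans_le (min_le_left _ _))
  have k2 := h2 r hr (hrδ.trans_le ((min_le_right _ _).trans (min_le_left _ _)))
  have k3 := h3 r hr (hrδ.trans_le ((min_le_right _ _).trans (min_le_right _ _)))
  set A := FF g y α r a
  set B := FF g y α r b
  set C := FF g y α r ((a + b) / 2)
  set D := FF g y α r 1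
  have e : B - b • D = (2 : ℝ) • (C - ((a + b) / 2) • D) - (2 : ℝ) • (C - (1 / 2 : ℝ) • (A + B))
      - (A - a • D) := by
    rw [smul_sub, smul_sub, smul_smul, smul_smul]
    have e1 : (2 : ℝ) * ((a + b) / 2) = a + b := by ring
    have e2 : (2 : ℝ) * (1 / 2) = 1 := by norm_num
    rw [e1, e2, one_smul, add_smul]; abel
  rw [e]
  refine (norm_sub_le _ _).trans ?_
  have h4 := norm_sub_le ((2 : ℝ) • (C - ((a + b) / 2) • D)) ((2 : ℝ) • (C - (1 / 2 : ℝ) • (A + B)))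
  rw [norm_smul, norm_smul, Real.norm_of_nonneg (by norm_num : (0 : ℝ) ≤ 2)] at h4
  linarith

theorem ff_lip (h : SI f g) {y α : Y} (hy : ‖y‖ = 1) (hs : Smooth y) (hα : J y α = 0) (s t : ℝ)
    {ε : ℝ} (hε : 0 < ε) : ∃ δ > 0, ∀ r : ℝ, 0 < r → r < δ →
      ‖FF g y α r s - FF g y α r t‖ ≤ (|s - t| * ‖α‖ + ε) * r := by
  obtain ⟨δ1, hδ1, h1⟩ := hs.nu_approx hy (v := s • α) (by rw [map_smul, hα, smul_zero])
    (ε := ε / 2) (by linarith)
  obtain ⟨δ2, hδ2, h2⟩ := hs.nu_approx hy (v := t • α) (by rw [map_smul, hα, smul_zero])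
    (ε := ε / 2) (by linarith)
  refine ⟨min δ1 δ2, lt_min hδ1 hδ2, fun r hr hrδ => ?_⟩
  obtain ⟨n1, k1⟩ := h1 r hr (hrδ.trans_le (min_le_left _ _))
  obtain ⟨n2, k2⟩ := h2 r hr (hrδ.trans_le (min_le_right _ _))
  have e2 : ∀ c : ℝ, y + r • (c • α) = y + (c * r) • α := fun c => by
    rw [smul_smul, mul_comm]
  rw [e2] at n1 k1 n2 k2
  have e3 : FF g y α r s - FF g y α r t
      = g (Crest.Agent.R074.nu (y + (s * r) • α)) - g (Crest.Agent.R074.nu (y + (t * r) • α)) := by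
    unfold FF; abel
  rw [e3, h.symm.dist _ _ (Crest.Agent.R074.norm_nu n1) (Crest.Agent.R074.norm_nu n2)]
  set N1 := Crest.Agent.R074.nu (y + (s * r) • α)
  set N2 := Crest.Agent.R074.nu (y + (t * r) • α)
  have e4 : N1 - N2 = (N1 - (y + (s * r) • α)) - (N2 - (y + (t * r) • α)) + ((s - t) * r) • α := by
    rw [sub_mul, sub_smul]; abel
  rw [e4]
  have k3 := norm_add_le ((N1 - (y + (s * r) • α)) - (N2 - (y + (t * r) • α)))
    (((s - t) * r) • α)
  have k4 := norm_sub_le (N1 - (y + (s * r) • α)) (N2 - (y + (t * r) • α))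
  rw [norm_smul, Real.norm_eq_abs, abs_mul, abs_of_pos hr] at k3
  nlinarith

theorem pp_all (h : SI f g) {y α : Y} (hy : ‖y‖ = 1) (hs : Smooth y) (hα : J y α = 0)
    (hmid : MidAt g y) (t : ℝ) : PP1 g y α t := by
  have h0 : PP1 g y α 0 := by
    intro ε hε
    refine ⟨1, one_pos, fun r hr _ => ?_⟩
    have : FF g y α r 0 = 0 := by
      unfold FF
      rw [zero_mul, zero_smul, add_zero, Crest.Agent.R074.nu_of_norm_one hy, sub_self]
    rw [this, zero_smul, sub_zero, norm_zero]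
    positivity
  have h1 : PP1 g y α 1 := by
    intro ε hε
    refine ⟨1, one_pos, fun r hr _ => ?_⟩
    rw [one_smul, sub_self, norm_zero]
    positivity
  have hneg : ∀ a, PP1 g y α a → PP1 g y α (-a) := by
    intro a ha
    refine pp_refl hα hmid ha ?_
    rw [add_neg_cancel, zero_div]; exact h0
  have hhalf : ∀ a, PP1 g y α a → PP1 g y α (a / 2) := by
    intro a ha
    have := pp_mid hα hmid h0 ha
    rwa [zero_add] at this
  have hadd : ∀ a b, PP1 g y α a → PP1 g y α b → PP1 g y α (a + b) := by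
    intro a b ha hb
    refine pp_refl hα hmid h0 ?_
    rw [zero_add]
    exact pp_mid hα hmid ha hb
  let S : AddSubgroup ℝ :=
    { carrier := {t | PP1 g y α t}
      add_mem' := fun {a b} ha hb => hadd a b ha hb
      zero_mem' := h0
      neg_mem' := fun {a} ha => hneg a ha }
  have hpow : ∀ n : ℕ, ((1 : ℝ) / 2) ^ n ∈ S := by
    intro n
    induction n with
    | zero => rw [pow_zero]; exact h1
    | succ n ih =>
      have := hhalf _ ih
      show PP1 g y α _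
      rw [pow_succ]
      convert this using 1
      ring
  have hdense : Dense (S : Set ℝ) := by
    refine AddSubgroup.dense_of_not_isolated_zero S fun ε hε => ?_
    obtain ⟨n, hn⟩ := exists_pow_lt_of_lt_one hε (by norm_num : (1 : ℝ) / 2 < 1)
    exact ⟨_, hpow n, by positivity, hn⟩
  -- approximate `t`
  intro ε hε
  obtain ⟨δ3, hδ3, k3⟩ := ff_lip h hy hs hα 1 0 (ε := 1) one_pos
  set K : ℝ := ‖α‖ + 1 with hK
  have hK0 : 0 < K := by positivity
  obtain ⟨s, hsS, hst⟩ := hdense.exists_dist_lt t (ε := ε / (4 * K)) (by positivity)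
  rw [Real.dist_eq] at hst
  obtain ⟨δ1, hδ1, k1⟩ := (hsS : PP1 g y α s) (ε / 4) (by linarith)
  obtain ⟨δ2, hδ2, k2⟩ := ff_lip h hy hs hα t s (ε := ε / 4) (by linarith)
  refine ⟨min δ1 (min δ2 δ3), lt_min hδ1 (lt_min hδ2 hδ3), fun r hr hrδ => ?_⟩
  have j1 := k1 r hr (hrδ.trans_le (min_le_left _ _))
  have j2 := k2 r hr (hrδ.trans_le ((min_le_right _ _).trans (min_le_left _ _)))
  have j3 := k3 r hr (hrδ.trans_le ((min_le_right _ _).trans (min_le_right _ _)))
  have hF0 : FF g y α r 0 = 0 := by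
    unfold FF
    rw [zero_mul, zero_smul, add_zero, Crest.Agent.R074.nu_of_norm_one hy, sub_self]
  rw [hF0, sub_zero, sub_zero, abs_one, one_mul, ← hK] at j3
  set A := FF g y α r t
  set B := FF g y α r s
  set D := FF g y α r 1
  have e : A - t • D = (A - B) + (B - s • D) + (s - t) • D := by
    rw [sub_smul]; abel
  rw [e]
  have l1 := norm_add_le ((A - B) + (B - s • D)) ((s - t) • D)
  have l2 := norm_add_le (A - B) (B - s • D)
  rw [norm_smul, Real.norm_eq_abs, abs_sub_comm s t] at l1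
  have l3 : |t - s| * ‖D‖ ≤ ε / (4 * K) * (K * r) :=
    mul_le_mul hst.le j3 (norm_nonneg _) (by positivity)
  have l4 : ε / (4 * K) * (K * r) = ε / 4 * r := by field_simp
  have l5 : |t - s| * ‖α‖ ≤ ε / (4 * K) * K :=
    mul_le_mul hst.le (by rw [hK]; linarith) (norm_nonneg _) (by positivity)
  have l6 : ε / (4 * K) * K = ε / 4 := by field_simp
  have l7 : (|t - s| * ‖α‖ + ε / 4) * r ≤ (ε / 4 + ε / 4) * r :=
    mul_le_mul_of_nonneg_right (by linarith) hr.le
  linarith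

end HM

variable {X Y : Type*} [NormedAddCommGroup X] [NormedSpace ℝ X] [NormedAddCommGroup Y]
  [NormedSpace ℝ Y] {f : X → Y} {g : Y → X}

/-- homogeneity of the blow-up of `g` along rays at smooth points -/
theorem SI.homM (h : SI f g) (ho : ∀ x, ‖x‖ = 1 → f (-x) = -f x) {y : Y} (hy : ‖y‖ = 1)
    (hs : Smooth y) {α : Y} (hα : J y α = 0) : Hom g y α := by
  intro t
  rw [isLittleO_iff]
  intro ε hε
  obtain ⟨δ, hδ, hd⟩ := HM.pp_all h hy hs hα (h.symm.midAt (h.odd_symm ho) hy hs) t ε hε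
  filter_upwards [Ioo_mem_nhdsGT hδ] with r hr
  have h1 := hd r hr.1 hr.2
  rw [Real.norm_of_nonneg hr.1.le]
  unfold HM.FF at h1
  rw [one_mul] at h1
  exact h1

end Crest.Agent.R074
end

-- ▼ part R074/LTAStmt

/-!
Row 74 (S0099): the module statement `LTAStatement` of `Asm.lean` (helper29).
-/

set_option autoImplicit false

namespace Crest.Agent.R074

universe u v

/-- local Theorem A with a universal radius at every generic point -/
theorem ltaStatement : LTAStatement.{u, v} := by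
  intro X Y _ _ _ _ _ _ _ _ f g h ho _
  exact ⟨1 / 64, by norm_num,
    genLTA_of_mid h ho (fun y hy hs => h.symm.midAt (h.odd_symm ho) hy hs)
      (fun y hy hs ζ hζ => h.homM ho hy hs hζ)⟩

end Crest.Agent.R074
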