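import Crest.Agent.R074.Tau
import Crest.Agent.R074.Canon

/-!
Row 74 (S0099): transitivity lemma. A relatively open subset `F` of the sphere which is invariant
under all chord maps `x ↦ other end of the u-chord through x`, `u` in a nonempty relatively open
set of directions, is dense (separable Banach spaces).
-/

set_option autoImplicit false

namespace Crest.Agent.R074

open Metric Set Filter Topology

section Trans

variable {X : Type*} [NormedAddCommGroup X] [NormedSpace ℝ X]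

/-- `(x, y)` are the two ends of a nondegenerate chord of the unit ball of direction `u`
(`x` is the top end). -/
def UChord (u x y : X) : Prop :=
  ‖x‖ = 1 ∧ ‖y‖ = 1 ∧ ‖x + y‖ < 2 ∧ ∃ r : ℝ, 0 < r ∧ x - y = r • u

theorem UChord.symm {u x y : X} (h : UChord u x y) : UChord (-u) y x := by
  obtain ⟨h1, h2, h3, r, hr, h4⟩ := h
  refine ⟨h2, h1, by rwa [add_comm], r, hr, ?_⟩
  rw [smul_neg, ← h4]; abel

theorem UChord.neg {u x y : X} (h : UChord u x y) : UChord u (-y) (-x) := by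
  obtain ⟨h1, h2, h3, r, hr, h4⟩ := h
  refine ⟨by rwa [norm_neg], by rwa [norm_neg], ?_, r, hr, ?_⟩
  · have e : -y + -x = -(x + y) := by abel
    rw [e, norm_neg]; exact h3
  · rw [← h4]; abel

theorem uchord_top {u v : X} (hu : ‖u‖ = 1) (hv : ‖v‖ < 1) : UChord u (top u v) (top (-u) v) := by
  have hu' : ‖-u‖ = 1 := by rw [norm_neg]; exact hu
  exact ⟨norm_top hu hv, norm_top hu' hv, norm_top_add_top_lt hu hv, _,
    add_pos (tau_pos hu hv) (tau_pos hu' hv), top_sub_top u v⟩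

theorem UChord.eq_top {u x y : X} (h : UChord u x y) :
    x = top u ((1 / 2 : ℝ) • (x + y)) ∧ y = top (-u) ((1 / 2 : ℝ) • (x + y)) := by
  obtain ⟨h1, h2, h3, r, hr, h4⟩ := h
  exact chord_eq_top h1 h2 h3 hr.le h4


theorem tr_norm_smul_nu {v : X} (hv : v ≠ 0) : ‖v‖ • nu v = v := by
  unfold nu
  rw [smul_smul, mul_inv_cancel₀ (norm_ne_zero_iff.mpr hv), one_smul]

theorem tr_nu_smul {v : X} {r : ℝ} (hr : 0 < r) : nu (r • v) = nu v := by
  unfold nu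
  rw [norm_smul, Real.norm_of_nonneg hr.le, smul_smul, mul_inv, mul_comm r⁻¹, mul_assoc,
    inv_mul_cancel₀ hr.ne', mul_one]

theorem tr_continuousAt_nu {v : X} (hv : v ≠ 0) : ContinuousAt (nu : X → X) v := by
  unfold nu
  exact (continuous_norm.continuousAt.inv₀ (norm_ne_zero_iff.mpr hv)).smul continuousAt_id

/-- two unit vectors, not in a common face and distinct, are the ends of a nondegenerate chord of
direction `nu (x - y)` -/
theorem uchord_nu {x y : X} (hx : ‖x‖ = 1) (hy : ‖y‖ = 1) (h2 : ‖x + y‖ < 2) (hne : x ≠ y) :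
    UChord (nu (x - y)) x y :=
  ⟨hx, hy, h2, ‖x - y‖, norm_pos_iff.mpr (sub_ne_zero.mpr hne),
    (tr_norm_smul_nu (sub_ne_zero.mpr hne)).symm⟩

theorem UChord.ne {u x y : X} (h : UChord u x y) : x ≠ y := by
  rintro rfl
  obtain ⟨h1, -, h3, -⟩ := h
  rw [← two_smul ℝ x, norm_smul, h1] at h3
  norm_num at h3

theorem UChord.nu_eq {u x y : X} (h : UChord u x y) (hu : ‖u‖ = 1) : nu (x - y) = u := by
  obtain ⟨-, -, -, r, hr, h4⟩ := h
  rw [h4, tr_nu_smul hr, nu_of_norm_one hu]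

/-- a functional vanishing on a nonempty relatively open subset of the sphere vanishes -/
theorem eq_zero_of_open_directions {O : Set X} {u₀ : X} (hu₀ : ‖u₀‖ = 1) {ε : ℝ} (hε : 0 < ε)
    (hO : ∀ u, ‖u‖ = 1 → ‖u - u₀‖ < ε → u ∈ O) (p : X →L[ℝ] ℝ) (hp : ∀ u ∈ O, p u = 0) :
    p = 0 := by
  ext v
  have hne : u₀ ≠ 0 := by
    intro h; rw [h, norm_zero] at hu₀; norm_num at hu₀
  have h0 : p u₀ = 0 := hp _ (hO _ hu₀ (by simpa using hε))
  -- choose small t with nu (u₀ + t v) near u₀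
  have hcont : ContinuousAt (fun t : ℝ => nu (u₀ + t • v)) 0 := by
    have h1 : ContinuousAt (fun t : ℝ => u₀ + t • v) 0 := by fun_prop
    have h2 : ContinuousAt (nu : X → X) (u₀ + (0 : ℝ) • v) := by
      rw [zero_smul, add_zero]; exact tr_continuousAt_nu hne
    exact ContinuousAt.comp (f := fun t : ℝ => u₀ + t • v) h2 h1
  have hcont2 : ContinuousAt (fun t : ℝ => ‖u₀ + t • v‖) 0 := by fun_prop
  rw [Metric.continuousAt_iff] at hcont
  obtain ⟨δ, hδ, h3⟩ := hcont ε hε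
  have h4 : ∀ᶠ t : ℝ in 𝓝 0, 0 < ‖u₀ + t • v‖ := by
    apply hcont2.eventually_const_lt
    show 0 < ‖u₀ + (0 : ℝ) • v‖
    rw [zero_smul, add_zero, hu₀]; norm_num
  obtain ⟨δ', hδ', h5⟩ := Metric.eventually_nhds_iff.mp h4
  set t : ℝ := min δ δ' / 2 with ht
  have hm : 0 < min δ δ' := lt_min hδ hδ'
  have ht0 : 0 < t := by positivity
  have htd : dist t 0 < δ := by
    rw [Real.dist_eq, sub_zero, abs_of_pos ht0]
    have := min_le_left δ δ'
    linarith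
  have htd' : dist t 0 < δ' := by
    rw [Real.dist_eq, sub_zero, abs_of_pos ht0]
    have := min_le_right δ δ'
    linarith
  have h6 := h3 htd
  have h7 := h5 htd'
  simp only [zero_smul, add_zero, nu_of_norm_one hu₀] at h6
  rw [dist_eq_norm] at h6
  have h8 : u₀ + t • v ≠ 0 := norm_pos_iff.mp h7
  have h9 := hp _ (hO _ (norm_nu h8) h6)
  unfold nu at h9
  rw [map_smul, map_add, map_smul, h0, smul_eq_mul, smul_eq_mul, zero_add] at h9
  rcases mul_eq_zero.mp h9 with h10 | h10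
  · exact absurd h10 (inv_ne_zero h7.ne')
  · rcases mul_eq_zero.mp h10 with h11 | h11
    · exact absurd h11 ht0.ne'
    · simpa using h11

/-- a smooth unit point `b` with `J b u ≠ 0` is an end of a nondegenerate `u`-chord -/
theorem Smooth.exists_chord {b u : X} (hb : ‖b‖ = 1) (hs : Smooth b) (hu : ‖u‖ = 1)
    (hJ : J b u ≠ 0) : (∃ v : X, ‖v‖ < 1 ∧ b = top u v) ∨ (∃ v : X, ‖v‖ < 1 ∧ b = top (-u) v) := by
  have key : ∀ w : X, ‖w‖ = 1 → 0 < J b w → ∃ v : X, ‖v‖ < 1 ∧ b = top w v := by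
    intro w hw hJw
    obtain ⟨δ, hδ, hd⟩ := hs.deriv w (half_pos hJw)
    have h1 := hd (-δ) (by rw [abs_neg, abs_of_pos hδ])
    rw [abs_neg, abs_of_pos hδ, hb] at h1
    have h2 : ‖b + (-δ) • w‖ < 1 := by
      have : 0 < δ * J b w := mul_pos hδ hJw
      nlinarith
    refine ⟨b + (-δ) • w, h2, ?_⟩
    apply R074.eq_top h2 hb hδ.le
    rw [add_assoc, ← add_smul, neg_add_cancel, zero_smul, add_zero]
  rcases lt_or_gt_of_ne hJ with h | h
  · right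
    exact key (-u) (by rw [norm_neg]; exact hu) (by rw [map_neg]; linarith)
  · left
    exact key u hu h

/-- one point outside `F` on the top side of the `u`-chords: then all of them are outside. -/
theorem top_not_mem_of {F O : Set X}
    (hF : ∀ x ∈ F, ‖x‖ = 1 → ∃ ε : ℝ, 0 < ε ∧ ∀ y, ‖y‖ = 1 → ‖y - x‖ < ε → y ∈ F)
    (hO : ∀ x ∈ O, ‖x‖ = 1 → ∃ ε : ℝ, 0 < ε ∧ ∀ y, ‖y‖ = 1 → ‖y - x‖ < ε → y ∈ O)
    (hinv : ∀ u ∈ O, ∀ x y, UChord u x y → (x ∈ F ↔ y ∈ F))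
    {u : X} (hu : ‖u‖ = 1) (huO : u ∈ O) {v₀ : X} (hv₀ : ‖v₀‖ < 1) (h₀ : top u v₀ ∉ F) :
    ∀ v : X, ‖v‖ < 1 → top u v ∉ F := by
  have hu' : ‖-u‖ = 1 := by rw [norm_neg]; exact hu
  set S : Set X := top u '' ball 0 1 with hS
  have hSpre : IsPreconnected S := isPreconnected_top hu
  have hSn : ∀ x ∈ S, ‖x‖ = 1 := by
    rintro x ⟨v, hv, rfl⟩
    exact norm_top hu (by simpa using hv)
  -- open sets
  set A : Set X := {x | ∃ x' ∈ F, ‖x'‖ = 1 ∧ ∃ ε : ℝ, (∀ y, ‖y‖ = 1 → ‖y - x'‖ < ε → y ∈ F) ∧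
    ‖x - x'‖ < ε} with hA
  set B : Set X := {x | ∃ x' : X, ∃ ε : ℝ, (∀ y, ‖y‖ = 1 → ‖y - x'‖ < ε → y ∉ F) ∧
    ‖x - x'‖ < ε} with hB
  have hAo : IsOpen A := by
    rw [Metric.isOpen_iff]
    rintro x ⟨x', hx', hn, ε, h1, h2⟩
    refine ⟨ε - ‖x - x'‖, by linarith, ?_⟩
    intro y hy
    rw [mem_ball, dist_eq_norm] at hy
    refine ⟨x', hx', hn, ε, h1, ?_⟩
    have e : y - x' = (y - x) + (x - x') := by abel
    rw [e]
    linarith [norm_add_le (y - x) (x - x')]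
  have hBo : IsOpen B := by
    rw [Metric.isOpen_iff]
    rintro x ⟨x', ε, h1, h2⟩
    refine ⟨ε - ‖x - x'‖, by linarith, ?_⟩
    intro y hy
    rw [mem_ball, dist_eq_norm] at hy
    refine ⟨x', ε, h1, ?_⟩
    have e : y - x' = (y - x) + (x - x') := by abel
    rw [e]
    linarith [norm_add_le (y - x) (x - x')]
  -- points of S outside F are in B
  have hSB : ∀ x ∈ S, x ∉ F → x ∈ B := by
    rintro x ⟨v, hv, rfl⟩ hxF
    have hv1 : ‖v‖ < 1 := by simpa using hv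
    have hc := uchord_top hu hv1
    set x := top u v with hx
    set w := top (-u) v with hw
    have hwF : w ∉ F := fun h => hxF ((hinv u huO _ _ hc).mpr h)
    have hne : x - w ≠ 0 := sub_ne_zero.mpr hc.ne
    obtain ⟨ε, hε, hOε⟩ := hO u huO hu
    have hcont : ContinuousAt (fun y : X => nu (y - w)) x :=
      ContinuousAt.comp (f := fun y : X => y - w) (tr_continuousAt_nu hne) (by fun_prop)
    rw [Metric.continuousAt_iff] at hcont
    obtain ⟨δ, hδ, h3⟩ := hcont ε hε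
    have hcont2 : ContinuousAt (fun y : X => ‖y + w‖) x := by fun_prop
    have h4 : ∀ᶠ y : X in 𝓝 x, ‖y + w‖ < 2 := hcont2.eventually_lt_const hc.2.2.1
    have h4' : ∀ᶠ y : X in 𝓝 x, y - w ≠ 0 := by
      have : ContinuousAt (fun y : X => y - w) x := by fun_prop
      exact this.eventually_ne hne
    obtain ⟨δ', hδ', h5⟩ := Metric.eventually_nhds_iff.mp (h4.and h4')
    refine ⟨x, min δ δ', ?_, ?_⟩
    · intro y hy hyx
      have hy1 : dist y x < δ := by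
        rw [dist_eq_norm]; exact hyx.trans_le (min_le_left _ _)
      have hy2 : dist y x < δ' := by
        rw [dist_eq_norm]; exact hyx.trans_le (min_le_right _ _)
      have h6 := h3 hy1
      obtain ⟨h7, h8⟩ := h5 hy2
      rw [hc.nu_eq hu, dist_eq_norm] at h6
      have hcy := uchord_nu hy hc.2.1 h7 (sub_ne_zero.mp h8)
      have hmem := hOε _ (norm_nu h8) h6
      intro hyF
      exact hwF ((hinv _ hmem _ _ hcy).mp hyF)
    · rw [sub_self, norm_zero]; exact lt_min hδ hδ'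
  have hSA : ∀ x ∈ S, x ∈ F → x ∈ A := by
    intro x hx hxF
    obtain ⟨ε, hε, h1⟩ := hF x hxF (hSn x hx)
    exact ⟨x, hxF, hSn x hx, ε, h1, by simpa using hε⟩
  have hcov : S ⊆ A ∪ B := by
    intro x hx
    by_cases hxF : x ∈ F
    · exact Or.inl (hSA x hx hxF)
    · exact Or.inr (hSB x hx hxF)
  intro v hv hmem
  have hvS : top u v ∈ S := ⟨v, by simpa using hv, rfl⟩
  have hv₀S : top u v₀ ∈ S := ⟨v₀, by simpa using hv₀, rfl⟩
  obtain ⟨x, hxS, hxA, hxB⟩ := hSpre A B hAo hBo hcov ⟨_, hvS, hSA _ hvS hmem⟩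
    ⟨_, hv₀S, hSB _ hv₀S h₀⟩
  obtain ⟨x', -, -, ε, h1, h2⟩ := hxA
  obtain ⟨x'', ε', h3, h4⟩ := hxB
  exact h3 x (hSn x hxS) h4 (h1 x (hSn x hxS) h2)

/-- if one end point of a nondegenerate `u`-chord is outside `F`, then all end points of all
nondegenerate `u`-chords are outside `F`. -/
theorem ends_not_mem_of {F O : Set X}
    (hF : ∀ x ∈ F, ‖x‖ = 1 → ∃ ε : ℝ, 0 < ε ∧ ∀ y, ‖y‖ = 1 → ‖y - x‖ < ε → y ∈ F)
    (hO : ∀ x ∈ O, ‖x‖ = 1 → ∃ ε : ℝ, 0 < ε ∧ ∀ y, ‖y‖ = 1 → ‖y - x‖ < ε → y ∈ O)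
    (hinv : ∀ u ∈ O, ∀ x y, UChord u x y → (x ∈ F ↔ y ∈ F))
    {u : X} (hu : ‖u‖ = 1) (huO : u ∈ O) {b : X} (hb : b ∉ F)
    (hbu : (∃ v : X, ‖v‖ < 1 ∧ b = top u v) ∨ (∃ v : X, ‖v‖ < 1 ∧ b = top (-u) v)) :
    ∀ v : X, ‖v‖ < 1 → top u v ∉ F ∧ top (-u) v ∉ F := by
  have h1 : ∃ v₀ : X, ‖v₀‖ < 1 ∧ top u v₀ ∉ F := by
    rcases hbu with ⟨v, hv, rfl⟩ | ⟨v, hv, rfl⟩
    · exact ⟨v, hv, hb⟩
    · exact ⟨v, hv, fun h => hb ((hinv u huO _ _ (uchord_top hu hv)).mp h)⟩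
  obtain ⟨v₀, hv₀, h2⟩ := h1
  have h3 := top_not_mem_of hF hO hinv hu huO hv₀ h2
  intro v hv
  exact ⟨h3 v hv, fun h => h3 v hv ((hinv u huO _ _ (uchord_top hu hv)).mpr h)⟩

/-- TRANSITIVITY LEMMA -/
theorem trans_dense [TopologicalSpace.SeparableSpace X] [CompleteSpace X] {F O : Set X}
    (hF : ∀ x ∈ F, ‖x‖ = 1 → ∃ ε : ℝ, 0 < ε ∧ ∀ y, ‖y‖ = 1 → ‖y - x‖ < ε → y ∈ F)
    (hO : ∀ x ∈ O, ‖x‖ = 1 → ∃ ε : ℝ, 0 < ε ∧ ∀ y, ‖y‖ = 1 → ‖y - x‖ < ε → y ∈ O)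
    (hinv : ∀ u ∈ O, ∀ x y, UChord u x y → (x ∈ F ↔ y ∈ F))
    {z u₀ : X} (hz : ‖z‖ = 1) (hzF : z ∈ F) (hu₀ : ‖u₀‖ = 1) (hu₀O : u₀ ∈ O)
    {b : X} (hb : ‖b‖ = 1) {ε : ℝ} (hε : 0 < ε) : ∃ y ∈ F, ‖y‖ = 1 ∧ ‖y - b‖ < ε := by
  have hid : SI (fun x : X => x) (fun x : X => x) :=
    ⟨fun _ h => h, fun _ h => h, fun _ _ => rfl, fun _ _ => rfl, fun _ _ _ _ => rfl⟩
  by_contra hcon
  push Not at hcon
  obtain ⟨b₁, hb₁, hb₁b, hb₁s, -⟩ := hid.exists_joint hb hε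
  have hb₁F : b₁ ∉ F := fun h => absurd (hcon b₁ h hb₁) (not_le.mpr hb₁b)
  have hb₁0 : b₁ ≠ 0 := by
    intro h; rw [h, norm_zero] at hb₁; norm_num at hb₁
  -- a direction u ∈ O with J b₁ u ≠ 0
  obtain ⟨ε₀, hε₀, hOε₀⟩ := hO u₀ hu₀O hu₀
  have h1 : ∃ u ∈ O, ‖u‖ = 1 ∧ J b₁ u ≠ 0 := by
    by_contra h
    push Not at h
    have h2 : J b₁ = 0 := by
      apply eq_zero_of_open_directions (O := O ∩ {u | ‖u‖ = 1}) hu₀ hε₀
      · intro u hu huu
        exact ⟨hOε₀ u hu huu, hu⟩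
      · rintro u ⟨hu, hu'⟩
        exact h u hu hu'
    have h3 := J_self b₁
    rw [h2, hb₁] at h3
    simp at h3
  obtain ⟨u, huO, hu, hJ⟩ := h1
  -- neighbourhood of directions
  obtain ⟨ε₁, hε₁, hOε₁⟩ := hO u huO hu
  have hcont : ContinuousAt (fun w : X => J b₁ w) u := by fun_prop
  obtain ⟨ε₂, hε₂, hne⟩ := Metric.eventually_nhds_iff.mp (hcont.eventually_ne hJ)
  have hall : ∀ w : X, ‖w‖ = 1 → ‖w - u‖ < min ε₁ ε₂ →
      ∀ v : X, ‖v‖ < 1 → top w v ∉ F ∧ top (-w) v ∉ F := by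
    intro w hw hwu
    have hwO := hOε₁ w hw (hwu.trans_le (min_le_left _ _))
    have hJw : J b₁ w ≠ 0 := hne (by rw [dist_eq_norm]; exact hwu.trans_le (min_le_right _ _))
    exact ends_not_mem_of hF hO hinv hw hwO hb₁F (hb₁s.exists_chord hb₁ hw hJw)
  -- a smooth point of F
  obtain ⟨ε₃, hε₃, hFε₃⟩ := hF z hzF hz
  obtain ⟨z₁, hz₁, hz₁z, hz₁s, -⟩ := hid.exists_joint hz hε₃
  have hz₁F : z₁ ∈ F := hFε₃ z₁ hz₁ hz₁z
  have h4 : J z₁ = 0 := by
    apply eq_zero_of_open_directions (O := {w | ‖w‖ = 1 ∧ ‖w - u‖ < min ε₁ ε₂}) hu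
      (lt_min hε₁ hε₂)
    · intro w hw hwu
      exact ⟨hw, hwu⟩
    · rintro w ⟨hw, hwu⟩
      by_contra hJw
      rcases hz₁s.exists_chord hz₁ hw hJw with ⟨v, hv, h5⟩ | ⟨v, hv, h5⟩
      · exact (hall w hw hwu v hv).1 (h5 ▸ hz₁F)
      · exact (hall w hw hwu v hv).2 (h5 ▸ hz₁F)
  have h5 := J_self z₁
  rw [h4, hz₁] at h5
  simp at h5

end Trans

end Crest.Agent.R074
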