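import Crest.Agent.R074.Sep
import Crest.Agent.R074.HLin_Mg
import Crest.Agent.R074.Asm
import Crest.Agent.R074.LTAStmt
import Crest.Agent.R074.CaseBFin
import Crest.Agent.R074.Trans
import Crest.Agent.R074.Flat
import Crest.Agent.R074.Canon
import Crest.Agent.R074.Tau
import Crest.Agent.R074.MixedInitOne
import Crest.Agent.R074.Blowup
import Mathlib

-- ▼ part R074/SepMain
section

/-!
Row 74 (S0099), separable reduction, part 2: the theorem of Tingley for all real Banach spaces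
follows from the property (H) (additivity on unit triangles) for separable infinite-dimensional
spaces.
-/

set_option autoImplicit false

namespace Crest.Agent.R074

open Metric Set Filter Topology TopologicalSpace

universe u v

/-- The separable infinite-dimensional problem, in the universes of `X` and `Y`: every surjective
sphere isometry between separable infinite-dimensional Banach spaces is additive on unit
triangles. -/
def SepH : Prop :=
  ∀ (X : Type u) (Y : Type v) [NormedAddCommGroup X] [NormedSpace ℝ X] [CompleteSpace X]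
    [SeparableSpace X] [NormedAddCommGroup Y] [NormedSpace ℝ Y] [CompleteSpace Y]
    [SeparableSpace Y] (f : X → Y) (g : Y → X), ¬ FiniteDimensional ℝ X →
    ¬ FiniteDimensional ℝ Y → SI f g →
    ∀ z w : X, ‖z‖ = 1 → ‖w‖ = 1 → ‖z + w‖ = 1 → f (z + w) = f z + f w

/-- sufficient: a linear extension in the separable infinite-dimensional case -/
theorem sepH_of_linear
    (H : ∀ (X : Type u) (Y : Type v) [NormedAddCommGroup X] [NormedSpace ℝ X] [CompleteSpace X]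
      [SeparableSpace X] [NormedAddCommGroup Y] [NormedSpace ℝ Y] [CompleteSpace Y]
      [SeparableSpace Y] (f : X → Y) (g : Y → X), ¬ FiniteDimensional ℝ X →
      ¬ FiniteDimensional ℝ Y → SI f g → ∃ T : X ≃ₗᵢ[ℝ] Y, ∀ x, ‖x‖ = 1 → T x = f x) :
    SepH.{u, v} := by
  intro X Y _ _ _ _ _ _ _ _ f g hX hY h z w hz hw hzw
  obtain ⟨T, hT⟩ := H X Y f g hX hY h
  rw [← hT _ hzw, ← hT _ hz, ← hT _ hw, map_add]

/-- a sphere isometry with a finite-dimensional target has a finite-dimensional source -/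
theorem SI.infdim {X : Type u} {Y : Type v} [NormedAddCommGroup X] [NormedSpace ℝ X]
    [NormedAddCommGroup Y] [NormedSpace ℝ Y] {f : X → Y} {g : Y → X} (h : SI f g)
    (hX : ¬ FiniteDimensional ℝ X) : ¬ FiniteDimensional ℝ Y := by
  intro hY
  have hne : Nontrivial X := by
    by_contra hcon
    rw [not_nontrivial_iff_subsingleton] at hcon
    exact hX inferInstance
  obtain ⟨x0, hx0⟩ := exists_ne (0 : X)
  have hx0' : ‖‖x0‖⁻¹ • x0‖ = 1 := by
    rw [norm_smul, norm_inv, norm_norm, inv_mul_cancel₀ (norm_ne_zero_iff.mpr hx0)]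
  have hne' : Nontrivial Y := by
    refine ⟨⟨f (‖x0‖⁻¹ • x0), 0, ?_⟩⟩
    intro h0
    have := h.map _ hx0'
    rw [h0, norm_zero] at this
    exact zero_ne_one this
  obtain ⟨T, -⟩ := tingley_findim h.symm
  exact hX (LinearEquiv.finiteDimensional T.toLinearEquiv)

/-- (H) for all infinite-dimensional Banach spaces from the separable ones -/
theorem SepH.additive (H : SepH.{u, v}) {X : Type u} {Y : Type v} [NormedAddCommGroup X]
    [NormedSpace ℝ X] [CompleteSpace X] [NormedAddCommGroup Y] [NormedSpace ℝ Y]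
    [CompleteSpace Y] {f : X → Y} {g : Y → X} (h : SI f g) (hX : ¬ FiniteDimensional ℝ X)
    {z w : X} (hz : ‖z‖ = 1) (hw : ‖w‖ = 1) (hzw : ‖z + w‖ = 1) : f (z + w) = f z + f w := by
  obtain ⟨A, hA, hAinf⟩ := exists_countable_infdim hX
  have hA' : IsSeparable (A ∪ {z, w}) :=
    (hA.union (Set.Finite.countable (by simp))).isSeparable
  obtain ⟨P, Q, hAP, hPc, hQc, hPs, hQs, h0, cf, -⟩ := h.exists_separable_restr hA'
  have hPinf : ¬ FiniteDimensional ℝ P := hAinf P (subset_union_left.trans hAP)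
  have hzP : z ∈ P := hAP (Or.inr (Or.inl rfl))
  have hwP : w ∈ P := hAP (Or.inr (Or.inr rfl))
  have key := H P Q (restr f P Q) (restr g Q P) hPinf (h0.infdim hPinf) h0 ⟨z, hzP⟩ ⟨w, hwP⟩
    hz hw hzw
  have key' := congrArg (fun q : Q => (q : Y)) key
  simp only [Submodule.coe_add] at key'
  rw [cf ⟨z, hzP⟩ hz, cf ⟨w, hwP⟩ hw, cf (⟨z, hzP⟩ + ⟨w, hwP⟩) hzw] at key'
  exact key'

/-- Tingley's theorem for all real Banach spaces, in the form of `SI`, from the separable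
infinite-dimensional case -/
theorem SepH.tingley (H : SepH.{u, v}) {X : Type u} {Y : Type v} [NormedAddCommGroup X]
    [NormedSpace ℝ X] [CompleteSpace X] [Nontrivial X] [NormedAddCommGroup Y] [NormedSpace ℝ Y]
    [CompleteSpace Y] {f : X → Y} {g : Y → X} (h : SI f g) :
    ∃ T : X ≃ₗᵢ[ℝ] Y, ∀ x, ‖x‖ = 1 → T x = f x := by
  by_cases hX : FiniteDimensional ℝ X
  · exact tingley_findim h
  · exact Far.hlin h (fun z w hz hw hzw => H.additive h hX hz hw hzw) hX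

/-- a surjective isometry of unit spheres as an `SI` pair of ambient functions -/
theorem SepH.exists_SI {X : Type u} {Y : Type v} [NormedAddCommGroup X] [NormedAddCommGroup Y]
    (f : Metric.sphere (0 : X) 1 → Metric.sphere (0 : Y) 1) (hf₁ : Isometry f)
    (hf₂ : Function.Surjective f) :
    ∃ (F : X → Y) (G : Y → X), SI F G ∧ ∀ x : Metric.sphere (0 : X) 1, F x = f x := by
  classical
  have hn : ∀ {Z : Type _} [NormedAddCommGroup Z] {x : Z}, ‖x‖ = 1 →
      x ∈ Metric.sphere (0 : Z) 1 := fun {Z} _ {x} hx => by simpa using hx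
  have hnY : ∀ {x : Y}, ‖x‖ = 1 → x ∈ Metric.sphere (0 : Y) 1 := fun {x} hx => by simpa using hx
  obtain ⟨k, hk⟩ : ∃ k : Metric.sphere (0 : Y) 1 → Metric.sphere (0 : X) 1,
      Function.RightInverse k f := hf₂.hasRightInverse
  have hkl : Function.LeftInverse k f := fun x => hf₁.injective (hk (f x))
  let F : X → Y := fun x => if h : ‖x‖ = 1 then (f ⟨x, hn h⟩ : Y) else 0
  let G : Y → X := fun y => if h : ‖y‖ = 1 then (k ⟨y, hnY h⟩ : X) else 0
  have hF : ∀ x (h : ‖x‖ = 1), F x = (f ⟨x, hn h⟩ : Y) := fun x h => dif_pos h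
  have hG : ∀ y (h : ‖y‖ = 1), G y = (k ⟨y, hnY h⟩ : X) := fun y h => dif_pos h
  have n1 : ∀ x : Metric.sphere (0 : X) 1, ‖(x : X)‖ = 1 := fun x => by simp
  have n2 : ∀ x : Metric.sphere (0 : Y) 1, ‖(x : Y)‖ = 1 := fun x => by simp
  have mF : ∀ x, ‖x‖ = 1 → ‖F x‖ = 1 := fun x hx => by rw [hF x hx]; exact n2 _
  have mG : ∀ y, ‖y‖ = 1 → ‖G y‖ = 1 := fun y hy => by rw [hG y hy]; exact n1 _
  refine ⟨F, G, ⟨mF, mG, ?_, ?_, ?_⟩, ?_⟩
  · intro x hx
    rw [hG _ (mF x hx)]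
    have : (⟨F x, hnY (mF x hx)⟩ : Metric.sphere (0 : Y) 1) = f ⟨x, hn hx⟩ :=
      Subtype.ext (hF x hx)
    rw [this, hkl]
  · intro y hy
    rw [hF _ (mG y hy)]
    have : (⟨G y, hn (mG y hy)⟩ : Metric.sphere (0 : X) 1) = k ⟨y, hnY hy⟩ :=
      Subtype.ext (hG y hy)
    rw [this, hk]
  · intro x x' hx hx'
    rw [hF x hx, hF x' hx', ← dist_eq_norm, ← dist_eq_norm]
    exact hf₁.dist_eq ⟨x, hn hx⟩ ⟨x', hn hx'⟩
  · intro x
    rw [hF _ (n1 x)]

/-- S0099 in the form of the template, from the separable infinite-dimensional case -/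
theorem SepH.final (H : SepH.{u, v}) {X : Type u} {Y : Type v} [NormedAddCommGroup X]
    [NormedSpace ℝ X] [CompleteSpace X] [Nontrivial X] [NormedAddCommGroup Y] [NormedSpace ℝ Y]
    [CompleteSpace Y]
    (f : Metric.sphere (0 : X) 1 → Metric.sphere (0 : Y) 1) (hf₁ : Isometry f)
    (hf₂ : Function.Surjective f) :
    ∃ T : X ≃ₗᵢ[ℝ] Y, (∀ x : Metric.sphere (0 : X) 1, T x = f x) ∧
      ∀ T' : X →ₗ[ℝ] Y, (∀ x : Metric.sphere (0 : X) 1, T' x = f x) → ∀ x : X, T' x = T x := by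
  obtain ⟨F, G, hFG, hF⟩ := SepH.exists_SI f hf₁ hf₂
  obtain ⟨T, hT⟩ := H.tingley hFG
  have n1 : ∀ x : Metric.sphere (0 : X) 1, ‖(x : X)‖ = 1 := fun x => by simp
  have hTf : ∀ x : Metric.sphere (0 : X) 1, T x = f x := fun x => by
    rw [hT _ (n1 x), hF x]
  refine ⟨T, hTf, fun T' hT' x => ?_⟩
  by_cases hx : x = 0
  · rw [hx, map_zero, map_zero]
  · have hx0 : ‖x‖ ≠ 0 := norm_ne_zero_iff.mpr hx
    have hs : ‖‖x‖⁻¹ • x‖ = 1 := by
      rw [norm_smul, norm_inv, norm_norm, inv_mul_cancel₀ hx0]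
    have hs' : ‖x‖⁻¹ • x ∈ Metric.sphere (0 : X) 1 := by simpa using hs
    have e1 := hT' ⟨_, hs'⟩
    rw [← hTf ⟨_, hs'⟩] at e1
    have e2 : x = ‖x‖ • (‖x‖⁻¹ • x) := by rw [smul_smul, mul_inv_cancel₀ hx0, one_smul]
    calc T' x = ‖x‖ • T' (‖x‖⁻¹ • x) := by rw [← map_smul, ← e2]
      _ = ‖x‖ • T (‖x‖⁻¹ • x) := by rw [show T' (‖x‖⁻¹ • x) = T (‖x‖⁻¹ • x) from e1]
      _ = T x := by rw [← map_smul, ← e2]

end Crest.Agent.R074
end

-- ▼ part R074/SepRed
section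

/-!
Row 74 (S0099): the separable reduction in the form used by `Asm.lean`.
-/

set_option autoImplicit false

universe u v

namespace Crest.Agent.R074

/-- the separable reduction -/
theorem sepRed : SepRedStatement.{u, v} := by
  intro H X Y _ _ _ _ _ _ f g h
  have H' : SepH.{u, v} := sepH_of_linear fun X Y _ _ _ _ _ _ _ _ f g _ _ h => H X Y f g h
  rcases subsingleton_or_nontrivial X with hX | hX
  · exact ext_of_subsingleton h
  · exact H'.tingley h

end Crest.Agent.R074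
end

-- ▼ part R074/Final
section

/-!
Row 74 (S0099): everything except the mixed case.
-/

set_option autoImplicit false

universe u v

namespace Crest.Agent.R074

theorem final_of_caseC (hC : CaseCStatement.{u, v}) {X : Type u} {Y : Type v}
    [NormedAddCommGroup X] [NormedSpace ℝ X] [CompleteSpace X] [Nontrivial X]
    [NormedAddCommGroup Y] [NormedSpace ℝ Y] [CompleteSpace Y] [Nontrivial Y]
    (f : Metric.sphere (0 : X) 1 → Metric.sphere (0 : Y) 1) (hf₁ : Isometry f)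
    (hf₂ : Function.Surjective f) :
    ∃ T : X ≃ₗᵢ[ℝ] Y, (∀ x : Metric.sphere (0 : X) 1, T x = f x) ∧
      ∀ T' : X →ₗ[ℝ] Y, (∀ x : Metric.sphere (0 : X) 1, T' x = f x) → ∀ x : X, T' x = T x :=
  assembly ltaStatement caseBStatement hC sepRed f hf₁ hf₂

end Crest.Agent.R074
end

-- ▼ part R074/Gen
section

/-!
Row 74 (S0099): genericity along chords. For a fixed end `x` of a nondegenerate chord, the
direction map `y ↦ nu (y - x)` is continuous and open, so residual sets of directions pull back to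
residual sets of points.
-/

set_option autoImplicit false

namespace Crest.Agent.R074

open Metric Set Filter Topology

section General

/-- preimages of residual sets under a map which is continuous and open on an open set `D` -/
theorem residual_preimage_of_openAt {Z W : Type*} [TopologicalSpace Z] [TopologicalSpace W]
    {φ : Z → W} {D : Set Z} (hD : IsOpen D) (hc : ContinuousOn φ D)
    (hop : ∀ z ∈ D, ∀ N ∈ 𝓝 z, φ '' N ∈ 𝓝 (φ z)) {R : Set W} (hR : R ∈ residual W) :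
    {z | z ∈ D → φ z ∈ R} ∈ residual Z := by
  rw [mem_residual_iff] at hR
  obtain ⟨S, hSo, hSd, hSc, hS⟩ := hR
  have hmem : (⋂ t ∈ S, {z | z ∈ D → φ z ∈ t}) ∈ residual Z := by
    rw [countable_bInter_mem hSc]
    intro t ht
    have hA : IsOpen (D ∩ φ ⁻¹' t) := hc.isOpen_inter_preimage hD (hSo t ht)
    have hB : IsOpen (closure D)ᶜ := isClosed_closure.isOpen_compl
    have hdense : Dense (D ∩ φ ⁻¹' t ∪ (closure D)ᶜ) := by
      rw [dense_iff_inter_open]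
      intro N hN hNne
      by_cases hND : (N ∩ D).Nonempty
      · obtain ⟨z, hzN, hzD⟩ := hND
        have h1 : φ '' (N ∩ D) ∈ 𝓝 (φ z) := hop z hzD _ ((hN.inter hD).mem_nhds ⟨hzN, hzD⟩)
        obtain ⟨O, hO1, hO2, hO3⟩ := mem_nhds_iff.mp h1
        obtain ⟨w, hwO, hwt⟩ := (hSd t ht).inter_open_nonempty O hO2 ⟨_, hO3⟩
        obtain ⟨z', ⟨hz'N, hz'D⟩, hz'⟩ := hO1 hwO
        refine ⟨z', hz'N, Or.inl ⟨hz'D, ?_⟩⟩
        show φ z' ∈ t
        rw [hz']; exact hwt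
      · obtain ⟨z, hz⟩ := hNne
        refine ⟨z, hz, Or.inr ?_⟩
        intro hzc
        exact hND (mem_closure_iff.mp hzc N hN hz)
    refine Filter.mem_of_superset (residual_of_dense_open (hA.union hB) hdense) ?_
    rintro z (⟨-, hz⟩ | hz) hzD
    · exact hz
    · exact absurd (subset_closure hzD) hz
  refine Filter.mem_of_superset hmem ?_
  intro z hz hzD
  apply hS
  intro t ht
  have := mem_iInter₂.mp hz t ht
  exact this hzD

end General

section Ends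

variable {X : Type*} [NormedAddCommGroup X] [NormedSpace ℝ X]

/-- for every direction `u` near the direction of a nondegenerate chord `(y, x)` there is a chord
`(y', x)` of direction `u` with `y'` near `y`. -/
theorem exists_end_of_dir {x y : X} (hx : ‖x‖ = 1) (hy : ‖y‖ = 1) (hlt : ‖y + x‖ < 2)
    (hne : y ≠ x) {ε : ℝ} (hε : 0 < ε) :
    ∃ δ > 0, ∀ u : X, ‖u‖ = 1 → ‖u - nu (y - x)‖ < δ → ∃ y' : X, ‖y' - y‖ < ε ∧ UChord u y' x := by
  have hne' : y - x ≠ 0 := sub_ne_zero.mpr hne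
  set u₀ := nu (y - x) with hu₀
  have hu₀n : ‖u₀‖ = 1 := norm_nu hne'
  set s : ℝ := ‖y - x‖ / 2 with hs
  have hs0 : 0 < s := by
    have := norm_pos_iff.mpr hne'
    positivity
  -- the middle of the chord
  have hm : x + s • u₀ = (1 / 2 : ℝ) • (y + x) := by
    have h1 : s • u₀ = (1 / 2 : ℝ) • (y - x) := by
      rw [hs, hu₀, nu, smul_smul]
      congr 1
      have := norm_pos_iff.mpr hne'
      field_simp
    rw [h1]
    module
  have hmlt : ‖x + s • u₀‖ < 1 := by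
    rw [hm, norm_smul, Real.norm_of_nonneg (by norm_num)]; linarith
  have hy_top : top u₀ (x + s • u₀) = y := by
    symm
    apply eq_top hmlt hy hs0.le
    rw [hm]
    have h1 : s • u₀ = (1 / 2 : ℝ) • (y - x) := by
      rw [hs, hu₀, nu, smul_smul]
      congr 1
      have := norm_pos_iff.mpr hne'
      field_simp
    rw [h1]
    module
  -- continuity of u ↦ top u (x + s u)
  have hcont : ContinuousWithinAt (fun u : X => top u (x + s • u))
      {u : X | ‖u‖ = 1 ∧ ‖x + s • u‖ < 1} u₀ := by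
    have h1 := (continuousOn_top (X := X)) (u₀, x + s • u₀) ⟨hu₀n, hmlt⟩
    have h2 : ContinuousWithinAt (fun u : X => ((u, x + s • u) : X × X))
        {u : X | ‖u‖ = 1 ∧ ‖x + s • u‖ < 1} u₀ := by fun_prop
    exact ContinuousWithinAt.comp (g := fun q : X × X => top q.1 q.2)
      (f := fun u : X => ((u, x + s • u) : X × X)) h1 h2 (fun u hu => hu)
  have hev : ∀ᶠ u : X in 𝓝 u₀, ‖x + s • u‖ < 1 := by
    have : ContinuousAt (fun u : X => ‖x + s • u‖) u₀ := by fun_prop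
    exact this.eventually_lt_const hmlt
  rw [Metric.continuousWithinAt_iff] at hcont
  obtain ⟨δ₁, hδ₁, h1⟩ := hcont ε hε
  obtain ⟨δ₂, hδ₂, h2⟩ := Metric.eventually_nhds_iff.mp hev
  refine ⟨min δ₁ δ₂, lt_min hδ₁ hδ₂, ?_⟩
  intro u hu huu
  have hu1 : dist u u₀ < δ₁ := by
    rw [dist_eq_norm]; exact huu.trans_le (min_le_left _ _)
  have hu2 : dist u u₀ < δ₂ := by
    rw [dist_eq_norm]; exact huu.trans_le (min_le_right _ _)
  have h3 := h2 hu2
  have h4 := h1 ⟨hu, h3⟩ hu1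
  rw [hy_top, dist_eq_norm] at h4
  refine ⟨top u (x + s • u), h4, ?_⟩
  have h5 := uchord_top hu h3
  have h6 : top (-u) (x + s • u) = x := by
    symm
    apply eq_top h3 hx hs0.le
    rw [smul_neg, add_neg_cancel_right]
  rwa [h6] at h5

/-- GENERICITY: near any `y₀` forming a nondegenerate chord with a fixed `x` there is `y`, jointly
smooth, whose direction from `x` is in a given residual set. -/
theorem SI.exists_gen {Y : Type*} [NormedAddCommGroup Y] [NormedSpace ℝ Y]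
    [TopologicalSpace.SeparableSpace X] [TopologicalSpace.SeparableSpace Y] [CompleteSpace X]
    {f : X → Y} {g : Y → X} (h : SI f g) {R : Set X}
    (hR : {u : sphere (0 : X) 1 | (u : X) ∈ R} ∈ residual (sphere (0 : X) 1))
    {x y₀ : X} (hx : ‖x‖ = 1) (hy₀ : ‖y₀‖ = 1) (hlt : ‖y₀ + x‖ < 2) (hne : y₀ ≠ x)
    {ε : ℝ} (hε : 0 < ε) :
    ∃ y : X, ‖y‖ = 1 ∧ ‖y - y₀‖ < ε ∧ ‖y + x‖ < 2 ∧ y ≠ x ∧ Smooth y ∧ Smooth (f y) ∧
      nu (y - x) ∈ R := by
  classical
  have : CompleteSpace (sphere (0 : X) 1) := isClosed_sphere.completeSpace_coe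
  set D : Set (sphere (0 : X) 1) := {y | ‖(y : X) + x‖ < 2 ∧ (y : X) ≠ x} with hDdef
  have hD : IsOpen D := by
    have h1 : IsOpen {y : sphere (0 : X) 1 | ‖(y : X) + x‖ < 2} :=
      isOpen_lt (by fun_prop) continuous_const
    have h2 : IsOpen {y : sphere (0 : X) 1 | (y : X) ≠ x} :=
      isOpen_ne_fun continuous_subtype_val continuous_const
    exact h1.inter h2
  -- the direction map
  let φ : sphere (0 : X) 1 → sphere (0 : X) 1 := fun y =>
    if hy : (y : X) - x ≠ 0 then ⟨nu ((y : X) - x), by simpa using norm_nu hy⟩ else y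
  have hφ : ∀ y : sphere (0 : X) 1, (y : X) ≠ x → (φ y : X) = nu ((y : X) - x) := by
    intro y hy
    have hy' : (y : X) - x ≠ 0 := sub_ne_zero.mpr hy
    show ((if hy : (y : X) - x ≠ 0 then (⟨nu ((y : X) - x), by simpa using norm_nu hy⟩ :
      sphere (0 : X) 1) else y : sphere (0 : X) 1) : X) = nu ((y : X) - x)
    rw [dif_pos hy']
  have hcφ : ContinuousOn φ D := by
    rw [Topology.IsInducing.subtypeVal.continuousOn_iff]
    have h1 : ContinuousOn (fun y : sphere (0 : X) 1 => nu ((y : X) - x)) D := by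
      intro y hy
      have hy' : (y : X) - x ≠ 0 := sub_ne_zero.mpr hy.2
      have h2 : ContinuousAt (fun y : sphere (0 : X) 1 => nu ((y : X) - x)) y :=
        ContinuousAt.comp (g := (nu : X → X)) (f := fun y : sphere (0 : X) 1 => (y : X) - x)
          (tr_continuousAt_nu hy') (by fun_prop)
      exact h2.continuousWithinAt
    refine h1.congr ?_
    intro y hy
    exact hφ y hy.2
  have hop : ∀ z ∈ D, ∀ N ∈ 𝓝 z, φ '' N ∈ 𝓝 (φ z) := by
    intro z hz N hN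
    obtain ⟨ε', hε', hball⟩ := Metric.mem_nhds_iff.mp hN
    have hzn : ‖(z : X)‖ = 1 := by simp
    obtain ⟨δ, hδ, h1⟩ := exists_end_of_dir hx hzn hz.1 hz.2 hε'
    rw [Metric.mem_nhds_iff]
    refine ⟨δ, hδ, ?_⟩
    intro w hw
    have hwn : ‖(w : X)‖ = 1 := by simp
    rw [mem_ball, Subtype.dist_eq, dist_eq_norm, hφ z hz.2] at hw
    obtain ⟨y', hy'1, hy'2⟩ := h1 w hwn hw
    have hy'n : ‖y'‖ = 1 := hy'2.1
    refine ⟨⟨y', by simpa using hy'n⟩, hball ?_, ?_⟩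
    · rw [mem_ball, Subtype.dist_eq, dist_eq_norm]; exact hy'1
    · apply Subtype.ext
      rw [hφ _ hy'2.ne]
      exact hy'2.nu_eq hwn
  have hres := Filter.inter_mem (residual_preimage_of_openAt hD hcφ hop hR) h.residual_joint
  have hd : Dense _ := dense_of_mem_residual hres
  -- use density in the open set D ∩ ball
  have hopen : IsOpen (D ∩ {y : sphere (0 : X) 1 | ‖(y : X) - y₀‖ < ε}) :=
    hD.inter (isOpen_lt (by fun_prop) continuous_const)
  obtain ⟨y, ⟨hyD, hyε⟩, hyR, hys⟩ := hd.inter_open_nonempty _ hopen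
    ⟨⟨y₀, by simpa using hy₀⟩, ⟨hlt, hne⟩, by simpa using hε⟩
  refine ⟨y, by simp, hyε, hyD.1, hyD.2, hys.1, hys.2, ?_⟩
  have := hyR hyD
  rw [mem_ofPred_eq, hφ y hyD.2] at this
  exact this

end Ends

end Crest.Agent.R074
end

-- ▼ part R074/MixedDefs
section

/-!
Row 74 (S0099), mixed case (C): common definitions.
-/

set_option autoImplicit false

namespace Crest.Agent.R074

variable {X Y : Type*} [NormedAddCommGroup X] [NormedSpace ℝ X] [NormedAddCommGroup Y]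
  [NormedSpace ℝ Y]

/-- near `x` (on the sphere) `f = T + τ`, oriented -/
def AffAt (f : X → Y) (T : X →L[ℝ] Y) (τ : Y) (x : X) : Prop :=
  ∃ ε : ℝ, 0 < ε ∧ ∀ x' : X, ‖x'‖ = 1 → ‖x' - x‖ < ε →
    f x' = T x' + τ ∧ (Smooth x' → Smooth (f x') → 0 < J (f x') (T x'))

/-- near `s` the sphere is flat in direction `v` -/
def VFlat (v s : X) : Prop :=
  ∃ ρ : ℝ, 0 < ρ ∧ ∀ s' : X, ‖s'‖ = 1 → ‖s' - s‖ < ρ → ∀ t : ℝ, |t| < ρ → ‖s' + t • v‖ = 1

end Crest.Agent.R074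
end

-- ▼ part R074/MixedSel
section

/-!
Row 74 (S0099): mixed case, selection lemma. If the norm is flat in the direction `v` near some
point of the sphere and the good set is not dense, then there is a chord with direction outside the
closure of the good set, flat at its top end and not flat at its bottom end.
-/

set_option autoImplicit false

namespace Crest.Agent.R074

open Metric Set Filter Topology

section MixedSel

variable {X : Type*} [NormedAddCommGroup X] [NormedSpace ℝ X]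

theorem VFlat.neg {v s : X} (h : VFlat v s) : VFlat v (-s) := by
  obtain ⟨ρ, hρ, h1⟩ := h
  refine ⟨ρ, hρ, fun s' hs' hs t ht => ?_⟩
  have h2 : ‖-s' - s‖ < ρ := by
    have e : -s' - s = -(s' - -s) := by abel
    rw [e, norm_neg]; exact hs
  have h3 := h1 (-s') (by rwa [norm_neg]) h2 (-t) (by rwa [abs_neg])
  have e : -s' + (-t) • v = -(s' + t • v) := by rw [neg_smul]; abel
  rwa [e, norm_neg] at h3

theorem VFlat.nhds {v s : X} (h : VFlat v s) :
    ∃ ε : ℝ, 0 < ε ∧ ∀ y, ‖y‖ = 1 → ‖y - s‖ < ε → VFlat v y := by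
  obtain ⟨ρ, hρ, h1⟩ := h
  refine ⟨ρ / 2, half_pos hρ, fun y _ hys => ⟨ρ / 2, half_pos hρ, fun s' hs' hsy t ht => ?_⟩⟩
  apply h1 s' hs' _ t (by linarith)
  have := norm_add_le (s' - y) (y - s)
  rw [sub_add_sub_cancel] at this
  linarith

/-- at an exposed unit point the norm is flat in no nonzero direction -/
theorem Expo.not_vflat {u v : X} (hu : ‖u‖ = 1) (hE : Expo u) (hf : VFlat v u) : v = 0 := by
  obtain ⟨ρ, hρ, h1⟩ := hf
  have h2 : ∀ t : ℝ, |t| < ρ → ‖u + t • v‖ = 1 := fun t ht => h1 u hu (by simpa using hρ) t ht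
  have habs : |ρ / 2| < ρ := by rw [abs_of_pos (half_pos hρ)]; linarith
  have h3 := h2 (ρ / 2) habs
  have h4 := h2 (-(ρ / 2)) (by rwa [abs_neg])
  have h5 := J_le u (u + (ρ / 2) • v)
  have h6 := J_le u (u + (-(ρ / 2)) • v)
  rw [map_add, map_smul, J_self, hu, h3, smul_eq_mul] at h5
  rw [map_add, map_smul, J_self, hu, h4, smul_eq_mul] at h6
  have h7 : J u v = 0 := by
    have : 0 < ρ / 2 := half_pos hρ
    apply le_antisymm
    · by_contra hc
      push Not at hc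
      nlinarith
    · by_contra hc
      push Not at hc
      nlinarith
  have h8 := hE (u + (ρ / 2) • v) h3 (by rw [map_add, map_smul, J_self, hu, h7]; simp)
  have h9 : (ρ / 2) • v = 0 := by simpa using h8
  rcases smul_eq_zero.mp h9 with h10 | h10
  · linarith
  · exact h10

/-- selection of a chord with bad direction, flat at the top and not flat at the bottom -/
theorem exists_vflat_chord {Y : Type*} [NormedAddCommGroup Y] [NormedSpace ℝ Y]
    [TopologicalSpace.SeparableSpace X] [CompleteSpace X] {f : X → Y} {ε : ℝ}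
    {v s₀ : X} (hv : v ≠ 0) (hs₀ : ‖s₀‖ = 1) (hfl : VFlat v s₀)
    {p : X} (hp : ‖p‖ = 1) (hpG : p ∉ closure (GoodSet f ε)) (hgen : GenLTA f ε) :
    ∃ u x y : X, UChord u x y ∧ ‖u‖ = 1 ∧ u ∉ closure (GoodSet f ε) ∧ VFlat v x ∧
      ¬ VFlat v y := by
  by_contra hcon
  push Not at hcon
  set F : Set X := {x | VFlat v x} with hF
  set O : Set X := {u | ‖u‖ = 1 ∧ u ∉ closure (GoodSet f ε)} with hO
  have hFo : ∀ x ∈ F, ‖x‖ = 1 → ∃ ε : ℝ, 0 < ε ∧ ∀ y, ‖y‖ = 1 → ‖y - x‖ < ε → y ∈ F :=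
    fun x hx _ => VFlat.nhds hx
  have hOo : ∀ x ∈ O, ‖x‖ = 1 → ∃ ε : ℝ, 0 < ε ∧ ∀ y, ‖y‖ = 1 → ‖y - x‖ < ε → y ∈ O := by
    intro x hx _
    have h1 : (closure (GoodSet f ε))ᶜ ∈ 𝓝 x := isClosed_closure.isOpen_compl.mem_nhds hx.2
    obtain ⟨δ, hδ, h2⟩ := Metric.mem_nhds_iff.mp h1
    refine ⟨δ, hδ, fun y hy hyx => ⟨hy, ?_⟩⟩
    exact h2 (by rw [mem_ball, dist_eq_norm]; exact hyx)
  have hinv : ∀ u ∈ O, ∀ x y, UChord u x y → (x ∈ F ↔ y ∈ F) := by
    intro u hu x y hc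
    constructor
    · intro hx
      exact hcon u x y hc hu.1 hu.2 hx
    · intro hy
      have h1 := hcon u (-y) (-x) hc.neg hu.1 hu.2 (VFlat.neg hy)
      have h2 := h1.neg
      rwa [neg_neg] at h2
  obtain ⟨δ, hδ, hOδ⟩ := hOo p ⟨hp, hpG⟩ hp
  obtain ⟨y, hyF, hy, hyp⟩ := trans_dense hFo hOo hinv hs₀ hfl hp ⟨hp, hpG⟩ hp (half_pos hδ)
  obtain ⟨η, hη, hFη⟩ := hFo y hyF hy
  -- a generic point near `y`
  have : CompleteSpace (sphere (0 : X) 1) := isClosed_sphere.completeSpace_coe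
  have hdense := dense_of_mem_residual hgen
  have hm : 0 < min η (δ / 2) := lt_min hη (half_pos hδ)
  let U : Set (sphere (0 : X) 1) := {x | (x : X) ∈ ball y (min η (δ / 2))}
  have hU : IsOpen U := isOpen_ball.preimage continuous_subtype_val
  have hUne : U.Nonempty := ⟨⟨y, by simpa using hy⟩, by simpa [U] using ⟨hη, hδ⟩⟩
  obtain ⟨u, huU, hu⟩ := hdense.inter_open_nonempty U hU hUne
  have hu1 : ‖(u : X)‖ = 1 := by simpa using u.2
  have huy : ‖(u : X) - y‖ < min η (δ / 2) := by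
    have : (u : X) ∈ ball y (min η (δ / 2)) := huU
    rwa [mem_ball, dist_eq_norm] at this
  have huF : VFlat v (u : X) := hFη u hu1 (huy.trans_le (min_le_left _ _))
  have huO : (u : X) ∈ O := by
    apply hOδ u hu1
    have h1 := norm_add_le ((u : X) - y) (y - p)
    rw [sub_add_sub_cancel] at h1
    have h2 := huy.trans_le (min_le_right _ _)
    linarith
  rcases hu.2.2 with h1 | h1
  · exact hv (h1.not_vflat hu1 huF)
  · exact huO.2 (subset_closure (show (u : X) ∈ GoodSet f ε from ⟨hu1, hu.1, hu.2.1, h1⟩))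

/-- if `J s v = 0` for all smooth `s` near `y`, then the norm is flat at `y` in direction `v` -/
theorem vflat_of_smooth [TopologicalSpace.SeparableSpace X] [CompleteSpace X] {v y : X}
    (hy : ‖y‖ = 1) {δ : ℝ} (hδ : 0 < δ)
    (hJ : ∀ s : X, ‖s‖ = 1 → ‖s - y‖ < δ → Smooth s → J s v = 0) : VFlat v y := by
  have hid : SI (fun x : X => x) (fun x : X => x) :=
    ⟨fun _ h => h, fun _ h => h, fun _ _ => rfl, fun _ _ => rfl, fun _ _ _ _ => rfl⟩
  set K : Set ((X →L[ℝ] ℝ) × (X →L[ℝ] ℝ)) :=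
    {k | ∃ s : X, ‖s‖ = 1 ∧ ‖s - y‖ < δ ∧ Smooth s ∧ k = (J s, J s)} with hK
  have hLA : LA (fun x : X => x) (fun x : X => x) y δ K :=
    { si := hid
      hy := hy
      n1 := by rintro _ ⟨s, -, -, -, rfl⟩; exact J_norm_le s
      n2 := by rintro _ ⟨s, -, -, -, rfl⟩; exact J_norm_le s
      eq := by rintro _ ⟨s, -, -, -, rfl⟩ x _ _; rfl
      dense := by
        intro s hs hsy η hη
        have hm : 0 < min η (δ - ‖s - y‖) := lt_min hη (by linarith)
        obtain ⟨s₁, hs₁, hs₁s, hs₁S, -⟩ := hid.exists_joint hs hm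
        refine ⟨(J s₁, J s₁), ⟨s₁, hs₁, ?_, hs₁S, rfl⟩, ?_⟩
        · have h1 := norm_add_le (s₁ - s) (s - y)
          rw [sub_add_sub_cancel] at h1
          have h2 := hs₁s.trans_le (min_le_right _ _)
          linarith
        · have h1 := J_abs_le s₁ (s₁ - s)
          rw [map_sub, J_self, hs₁] at h1
          have h2 := hs₁s.trans_le (min_le_left _ _)
          have h3 := (abs_le.mp h1).2
          show 1 - η < J s₁ s
          linarith }
  have hvK : v ∈ kerX K := by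
    rintro _ ⟨s, hs, hsy, hsS, rfl⟩
    exact hJ s hs hsy hsS
  refine ⟨δ / (1 + 2 * ‖v‖ + 1), by positivity, fun s' hs' hsy t ht => ?_⟩
  apply hLA.norm_add hs' (Submodule.smul_mem _ t hvK)
  rw [norm_smul, Real.norm_eq_abs]
  have hpos : 0 < 1 + 2 * ‖v‖ + 1 := by positivity
  have h1 : |t| * (2 * ‖v‖) ≤ δ / (1 + 2 * ‖v‖ + 1) * (2 * ‖v‖) :=
    mul_le_mul_of_nonneg_right ht.le (by positivity)
  have h2 : δ / (1 + 2 * ‖v‖ + 1) * (1 + 2 * ‖v‖ + 1) = δ := div_mul_cancel₀ _ hpos.ne'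
  have h3 : 0 < δ / (1 + 2 * ‖v‖ + 1) := by positivity
  nlinarith

/-- the form used in the mixed case -/
theorem exists_smooth_J_ne [TopologicalSpace.SeparableSpace X] [CompleteSpace X] {v y : X}
    (hy : ‖y‖ = 1) (hnf : ¬ VFlat v y) {δ : ℝ} (hδ : 0 < δ) :
    ∃ s : X, ‖s‖ = 1 ∧ ‖s - y‖ < δ ∧ Smooth s ∧ J s v ≠ 0 := by
  by_contra hcon
  push Not at hcon
  exact hnf (vflat_of_smooth hy hδ hcon)

end MixedSel

end Crest.Agent.R074
end

-- ▼ part R074/Expo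
section

/-!
Row 74 (S0099): transfer of exposedness. If `x` is smooth, `x - y` is smooth and exposed, then
every norming functional of `f x - f y` is exposed (its face is a point).
-/

set_option autoImplicit false

namespace Crest.Agent.R074

open Metric Set Filter Topology

section Expo

variable {X Y : Type*} [NormedAddCommGroup X] [NormedSpace ℝ X] [NormedAddCommGroup Y]
  [NormedSpace ℝ Y] {f : X → Y} {g : Y → X}

theorem EP.norm_smul_nu {z : X} (hz : z ≠ 0) : ‖z‖ • nu z = z := by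
  rw [nu, smul_smul, mul_inv_cancel₀ (norm_ne_zero_iff.mpr hz), one_smul]

theorem EP.nu_smul {z : X} {r : ℝ} (hr : 0 < r) (hz : ‖z‖ = 1) : nu (r • z) = z := by
  rw [nu, norm_smul, hz, mul_one, Real.norm_of_nonneg hr.le, smul_smul, inv_mul_cancel₀ hr.ne',
    one_smul]

/-- two nondegenerate chords from the same top in the same direction have the same bottom -/
theorem EP.chord_bot_unique {x y w u : X} (hx : ‖x‖ = 1) (hy : ‖y‖ = 1) (hw : ‖w‖ = 1)
    (h1 : ‖x + y‖ < 2) (h2 : ‖x + w‖ < 2) {r s : ℝ} (hr : 0 ≤ r) (hs : 0 ≤ s)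
    (hu : ‖u‖ = 1) (hxy : x - y = r • u) (hxw : x - w = s • u) : y = w := by
  have hu' : ‖-u‖ = 1 := by rw [norm_neg]; exact hu
  obtain ⟨-, e1⟩ := chord_eq_top hx hy h1 hr hxy
  obtain ⟨-, e2⟩ := chord_eq_top hx hw h2 hs hxw
  have m1 : ‖(1 / 2 : ℝ) • (x + y)‖ < 1 := by
    rw [norm_smul, Real.norm_of_nonneg (by norm_num)]; linarith
  have m2 : ‖(1 / 2 : ℝ) • (x + w)‖ < 1 := by
    rw [norm_smul, Real.norm_of_nonneg (by norm_num)]; linarith
  have e3 : (1 / 2 : ℝ) • (x + w) = (1 / 2 : ℝ) • (x + y) + ((s - r) / 2) • (-u) := by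
    have hy' : y = x - r • u := by rw [← hxy]; abel
    have hw' : w = x - s • u := by rw [← hxw]; abel
    rw [hy', hw']
    module
  rw [e3] at e2 m2
  rw [e1, e2, top_add_smul hu' m1 m2]

/-- (E') transfer of exposedness -/
theorem SI.exposed_transfer (h : SI f g) (ho : ∀ x, ‖x‖ = 1 → f (-x) = -f x)
    (hmf : ∀ x, ‖x‖ = 1 → Smooth x → MidAt f x) {x y : X} (hx : ‖x‖ = 1) (hy : ‖y‖ = 1)
    (hlt : ‖x + y‖ < 2) (hne : x ≠ y) (hsx : Smooth x) (hs : Smooth (x - y))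
    (hexp : ∀ c, ‖c‖ = 1 → J (x - y) c = 1 → c = nu (x - y)) {q : Y →L[ℝ] ℝ} (hq : ‖q‖ ≤ 1)
    (hqn : q (f x - f y) = ‖x - y‖) : ∀ ζ, ‖ζ‖ = 1 → q ζ = 1 → ζ = nu (f x - f y) := by
  have hog := h.odd_symm ho
  have hfx := h.map x hx
  have hfy := h.map y hy
  have hxy0 : x - y ≠ 0 := sub_ne_zero.mpr hne
  have hr : 0 < ‖x - y‖ := norm_pos_iff.mpr hxy0
  have hdist : ‖f x - f y‖ = ‖x - y‖ := h.dist x y hx hy
  have hfxy0 : f x - f y ≠ 0 := by
    intro h0; rw [h0, norm_zero] at hdist; rw [← hdist] at hr; exact lt_irrefl _ hr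
  have hltf : ‖f x + f y‖ < 2 := by rw [h.norm_add ho hx hy]; exact hlt
  -- the canonical functional of `g` at `f x`
  obtain ⟨Φ, hΦ⟩ := h.symm.exists_isPhi (p := q) hq hx hsx (hmf x hx hsx)
  have hch : Chord q (f x) (f y) := ⟨hfx, hfy, by rw [hqn, hdist], hltf⟩
  have hgf : g (f x) = x := h.left x hx
  have hgfy : g (f y) = y := h.left y hy
  have hsx' : Smooth (g (f x)) := by rw [hgf]; exact hsx
  have hΦ' : IsPhi f q (g (f x)) Φ := by rw [hgf]; exact hΦ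
  obtain ⟨p, hp, hpe⟩ := h.symm.exists_canon hog hq hch hsx' hΦ'
  have hpe' := hpe
  rw [hgf, hgfy, hdist] at hpe'
  have hpJ : p = J (x - y) := hs.eq_J ⟨hp.norm_le, hpe'⟩
  -- every `q`-chord from `f x` ends at `f y`
  have key : ∀ W : Y, Chord q (f x) W → W ≠ f x → W = f y := by
    intro W hW hWne
    have h1 := h.symm.canon_all hog hq hch hsx' hΦ' hp hpe hW
    rw [hgf] at h1
    have hgW := h.imap W hW.bot
    have hfgW : f (g W) = W := h.right W hW.bot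
    have hd : ‖f x - W‖ = ‖x - g W‖ := by
      have := h.dist x (g W) hx hgW
      rwa [hfgW] at this
    have hne' : x - g W ≠ 0 := by
      intro h0
      have : x = g W := sub_eq_zero.mp h0
      exact hWne (by rw [this, hfgW])
    have hc : nu (x - g W) = nu (x - y) := by
      apply hexp _ (norm_nu hne')
      rw [nu, map_smul, ← hpJ, h1, hd, smul_eq_mul,
        inv_mul_cancel₀ (norm_ne_zero_iff.mpr hne')]
    have hlt' : ‖x + g W‖ < 2 := by
      have := h.norm_add ho hx hgW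
      rw [hfgW] at this
      rw [← this]; exact hW.lt
    have e := EP.chord_bot_unique hx hy hgW hlt hlt' (norm_nonneg (x - y)) (norm_nonneg (x - g W))
      (norm_nu hxy0) (EP.norm_smul_nu hxy0).symm (by rw [← hc]; exact (EP.norm_smul_nu hne').symm)
    rw [e, hfgW]
  -- now the face
  intro ζ hζ hqζ
  set ω := nu (f x - f y) with hω
  have hω1 : ‖ω‖ = 1 := norm_nu hfxy0
  have hqω : q ω = 1 := by
    rw [hω, nu, map_smul, hqn, hdist, smul_eq_mul, inv_mul_cancel₀ hr.ne']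
  set r := ‖x - y‖ with hrdef
  have hr2 : r ≤ 2 := by
    rw [hrdef]; have := norm_sub_le x y; rw [hx, hy] at this; linarith
  set M := (1 / 2 : ℝ) • (f x + f y) with hM
  have hM1 : ‖M‖ < 1 := by
    rw [hM, norm_smul, Real.norm_of_nonneg (by norm_num)]; linarith
  set t := (1 - ‖M‖) / 4 with ht
  have ht0 : 0 < t := by rw [ht]; linarith
  have ht1 : t ≤ 1 := by rw [ht]; linarith [norm_nonneg M]
  set ωt := (1 - t) • ω + t • ζ with hωt
  have hωt1 : ‖ωt‖ = 1 := by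
    apply le_antisymm
    · rw [hωt]
      refine (norm_add_le _ _).trans ?_
      rw [norm_smul, norm_smul, Real.norm_of_nonneg (by linarith), Real.norm_of_nonneg ht0.le,
        hω1, hζ]
      linarith
    · have h1 : q ωt = 1 := by
        rw [hωt, map_add, map_smul, map_smul, hqω, hqζ, smul_eq_mul, smul_eq_mul]; ring
      have h2 := apply_le_of_norm_le_one hq ωt
      rw [h1] at h2; exact h2
  have hqωt : q ωt = 1 := by
    rw [hωt, map_add, map_smul, map_smul, hqω, hqζ, smul_eq_mul, smul_eq_mul]; ring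
  set v := f x - (r / 2) • ωt with hv
  have hfxM : f x = M + (r / 2) • ω := by
    have h1 : r • ω = f x - f y := by
      rw [hω, ← hdist]; exact EP.norm_smul_nu hfxy0
    have h2 : (r / 2) • ω = (1 / 2 : ℝ) • (r • ω) := by rw [smul_smul]; congr 1; ring
    rw [h2, h1, hM]
    module
  have hvM : v = M + ((r / 2) * t) • (ω - ζ) := by
    rw [hv, hfxM, hωt]
    module
  have hv1 : ‖v‖ < 1 := by
    rw [hvM]
    refine (norm_add_le _ _).trans_lt ?_
    have h0 : ‖((r / 2) * t) • (ω - ζ)‖ = r / 2 * t * ‖ω - ζ‖ := by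
      rw [norm_smul, Real.norm_of_nonneg (by positivity)]
    rw [h0]
    have h1 : ‖ω - ζ‖ ≤ 2 := by
      have := norm_sub_le ω ζ; rw [hω1, hζ] at this; linarith
    have h2 : r / 2 * t * ‖ω - ζ‖ ≤ 1 * t * 2 := by
      have h3 : r / 2 * t ≤ 1 * t := mul_le_mul_of_nonneg_right (by linarith) ht0.le
      exact mul_le_mul h3 h1 (norm_nonneg _) (by positivity)
    have h4 : t * 4 = 1 - ‖M‖ := by rw [ht]; ring
    linarith
  have htop : f x = top ωt v := by
    apply eq_top hv1 hfx (r := r / 2) (by positivity)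
    rw [hv]; abel
  have hωt' : ‖-ωt‖ = 1 := by rw [norm_neg]; exact hωt1
  have hsub := top_sub_top ωt v
  have hpos : 0 < tau ωt v + tau (-ωt) v := add_pos (tau_pos hωt1 hv1) (tau_pos hωt' hv1)
  have hW : Chord q (f x) (top (-ωt) v) := by
    refine ⟨hfx, norm_top hωt' hv1, ?_, ?_⟩
    · rw [htop, hsub, map_smul, hqωt, norm_smul, hωt1, Real.norm_of_nonneg hpos.le, smul_eq_mul]
    · rw [htop]; exact norm_top_add_top_lt hωt1 hv1
  have hWne : top (-ωt) v ≠ f x := by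
    intro h0
    rw [← h0] at htop
    rw [← htop, sub_self] at hsub
    have h1 : ‖(tau ωt v + tau (-ωt) v) • ωt‖ = 0 := by rw [← hsub, norm_zero]
    rw [norm_smul, hωt1, mul_one, Real.norm_of_nonneg hpos.le] at h1
    exact hpos.ne' h1
  have hWy := key _ hW hWne
  rw [hWy, ← htop] at hsub
  have hωωt : ω = ωt := by rw [hω, hsub, EP.nu_smul hpos hωt1]
  have h1 : t • (ζ - ω) = 0 := by
    have : ωt - ω = t • (ζ - ω) := by rw [hωt]; module
    rw [← this, ← hωωt, sub_self]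
  rcases smul_eq_zero.mp h1 with h2 | h2
  · exact absurd h2 ht0.ne'
  · exact sub_eq_zero.mp h2

end Expo

end Crest.Agent.R074
end

-- ▼ part R074/Prop2
section

/-!
Row 74 (S0099): propagation of local linearity along exposed smooth chords (P2).
-/

set_option autoImplicit false

namespace Crest.Agent.R074

open Metric Set Filter Topology

section Prop2

variable {X Y : Type*} [NormedAddCommGroup X] [NormedSpace ℝ X] [NormedAddCommGroup Y]
  [NormedSpace ℝ Y] {f : X → Y} {g : Y → X}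

/-- `J x (x - y) > 0` for nondegenerate chords -/
theorem P2.J_pos {x y : X} (hx : ‖x‖ = 1) (hlt : ‖x + y‖ < 2) : 0 < J x (x - y) := by
  have h1 := J_le x (x + y)
  rw [map_add, J_self, hx] at h1
  rw [map_sub, J_self, hx]
  linarith

/-- along a tangent ray, local linearity gives the tangent vector `T v` -/
theorem P2.tangent (_h : SI f g) {T : X →L[ℝ] Y} {τ : Y} {x : X} (hx : ‖x‖ = 1)
    (hsx : Smooth x) (hloc : ∃ ε : ℝ, 0 < ε ∧ ∀ x', ‖x'‖ = 1 → ‖x' - x‖ < ε → f x' = T x' + τ)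
    {v : X} (hv : J x v = 0) {ε : ℝ} (hε : 0 < ε) : ∃ δ : ℝ, 0 < δ ∧ ∀ r : ℝ, 0 < r → r < δ →
      x + r • v ≠ 0 ∧ ‖nu (x + r • v) - (x + r • v)‖ ≤ ε * r ∧
      f (nu (x + r • v)) = T (nu (x + r • v)) + τ ∧
      ‖f (nu (x + r • v)) - (f x + r • T v)‖ ≤ ‖T‖ * (ε * r) := by
  obtain ⟨ε₀, hε₀, hl⟩ := hloc
  obtain ⟨δ, hδ, hd⟩ := hsx.nu_approx hx hv hε
  have hc : 0 < 2 * ‖v‖ + 1 := by positivity
  refine ⟨min δ (ε₀ / (2 * ‖v‖ + 1)), lt_min hδ (div_pos hε₀ hc), fun r hr hrδ => ?_⟩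
  obtain ⟨h0, h1⟩ := hd r hr (hrδ.trans_le (min_le_left _ _))
  have h2 : r < ε₀ / (2 * ‖v‖ + 1) := hrδ.trans_le (min_le_right _ _)
  have h3 : f (nu (x + r • v)) = T (nu (x + r • v)) + τ := by
    apply hl _ (norm_nu h0)
    refine (norm_nu_sub_le h0 hx).trans_lt ?_
    rw [add_sub_cancel_left, norm_smul, Real.norm_of_nonneg hr.le]
    rw [lt_div_iff₀ hc] at h2
    linarith
  have hfx : f x = T x + τ := hl x hx (by simpa using hε₀)
  refine ⟨h0, h1, h3, ?_⟩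
  have e : f (nu (x + r • v)) - (f x + r • T v) = T (nu (x + r • v) - (x + r • v)) := by
    rw [h3, hfx, map_sub, map_add, map_smul]; abel
  rw [e]
  exact (T.le_opNorm _).trans (mul_le_mul_of_nonneg_left h1 (norm_nonneg _))

/-- `J (f x) ∘ T` vanishes on `ker J x` -/
theorem P2.J_T (h : SI f g) {T : X →L[ℝ] Y} {τ : Y} {x : X} (hx : ‖x‖ = 1)
    (hsx : Smooth x) (hloc : ∃ ε : ℝ, 0 < ε ∧ ∀ x', ‖x'‖ = 1 → ‖x' - x‖ < ε → f x' = T x' + τ)
    {v : X} (hv : J x v = 0) : J (f x) (T v) = 0 := by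
  have hfx := h.map x hx
  have key : ∀ w : X, J x w = 0 → J (f x) (T w) ≤ 0 := by
    intro w hw
    apply le_of_forall_pos_le_add
    intro ε hε
    have hT1 : 0 < ‖T‖ + 1 := by positivity
    obtain ⟨δ, hδ, hd⟩ := P2.tangent h hx hsx hloc hw (ε := ε / (‖T‖ + 1)) (by positivity)
    have hr : 0 < δ / 2 := by positivity
    obtain ⟨h0, -, -, h3⟩ := hd (δ / 2) hr (by linarith)
    have h4 := J_le (f x) (f (nu (x + (δ / 2) • w)))
    rw [h.map _ (norm_nu h0)] at h4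
    have h5 := J_le (f x) (-(f (nu (x + (δ / 2) • w)) - (f x + (δ / 2) • T w)))
    rw [norm_neg, map_neg, map_sub, map_add, map_smul, J_self, hfx, smul_eq_mul] at h5
    have h6 : ‖T‖ * (ε / (‖T‖ + 1) * (δ / 2)) ≤ ε * (δ / 2) := by
      have : ‖T‖ * (ε / (‖T‖ + 1) * (δ / 2)) = (‖T‖ / (‖T‖ + 1)) * (ε * (δ / 2)) := by
        field_simp
      rw [this]
      have h7 : ‖T‖ / (‖T‖ + 1) ≤ 1 := (div_le_one hT1).mpr (by linarith)
      calc (‖T‖ / (‖T‖ + 1)) * (ε * (δ / 2)) ≤ 1 * (ε * (δ / 2)) :=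
            mul_le_mul_of_nonneg_right h7 (by positivity)
        _ = ε * (δ / 2) := one_mul _
    have h8 : (δ / 2) * J (f x) (T w) ≤ (δ / 2) * ε := by nlinarith
    have := le_of_mul_le_mul_left h8 hr
    linarith
  apply le_antisymm (key v hv)
  have := key (-v) (by rw [map_neg, hv, neg_zero])
  rw [map_neg, map_neg] at this
  linarith

/-- `J (f x) ∘ T = J (f x) (T x) • J x` -/
theorem P2.J_T_eq (h : SI f g) {T : X →L[ℝ] Y} {τ : Y} {x : X} (hx : ‖x‖ = 1)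
    (hsx : Smooth x) (hloc : ∃ ε : ℝ, 0 < ε ∧ ∀ x', ‖x'‖ = 1 → ‖x' - x‖ < ε → f x' = T x' + τ)
    (v : X) : J (f x) (T v) = J (f x) (T x) * J x v := by
  have hv : J x (v - (J x v) • x) = 0 := by
    rw [map_sub, map_smul, J_self, hx, smul_eq_mul, mul_one, sub_self]
  have h1 := P2.J_T h hx hsx hloc hv
  rw [map_sub, map_smul, map_sub, map_smul, smul_eq_mul] at h1
  linarith

/-- orientation at the bottom of a chord -/
theorem SI.orient_bot (h : SI f g) (ho : ∀ x, ‖x‖ = 1 → f (-x) = -f x) {T : X →L[ℝ] Y}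
    {τ : Y} {x y : X} (hx : ‖x‖ = 1) (hy : ‖y‖ = 1) (hlt : ‖x + y‖ < 2)
    (hsy : Smooth y) (hfx : f x = T x + τ)
    (hloc : ∃ ε : ℝ, 0 < ε ∧ ∀ y', ‖y'‖ = 1 → ‖y' - y‖ < ε → f y' = T y' + τ) :
    0 < J (f y) (T y) := by
  have hfy : f y = T y + τ := by
    obtain ⟨ε, hε, hl⟩ := hloc
    exact hl y hy (by simpa using hε)
  have hlt' : ‖y + x‖ < 2 := by rw [add_comm]; exact hlt
  have h1 : 0 < J (f y) (f y - f x) := h.J_chord_pos ho hy hx hlt'
  have h2 : 0 < J y (y - x) := P2.J_pos hy hlt'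
  have h3 : f y - f x = T (y - x) := by rw [hfx, hfy, map_sub]; abel
  rw [h3, P2.J_T_eq h hy hsy hloc] at h1
  exact (pos_iff_pos_of_mul_pos h1).mpr h2

/-- first order behaviour of `g` at `f x` along `T ξ` -/
theorem P2.blow (h : SI f g) {T : X →L[ℝ] Y} {τ : Y} {x : X} (hx : ‖x‖ = 1)
    (hsx : Smooth x) (hsfx : Smooth (f x))
    (hloc : ∃ ε : ℝ, 0 < ε ∧ ∀ x', ‖x'‖ = 1 → ‖x' - x‖ < ε → f x' = T x' + τ)
    {ξ : X} (hξ : J x ξ = 0) {ε : ℝ} (hε : 0 < ε) : ∃ δ : ℝ, 0 < δ ∧ ∀ r : ℝ, 0 < r → r < δ →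
      ‖g (nu (f x + r • T ξ)) - (x + r • ξ)‖ ≤ ε * r := by
  have hfx := h.map x hx
  have hT3 : 0 < ‖T‖ + 2 := by positivity
  set e := ε / (‖T‖ + 2) with he
  have he0 : 0 < e := by rw [he]; positivity
  obtain ⟨δ₁, hδ₁, h1⟩ := P2.tangent h hx hsx hloc hξ he0
  obtain ⟨δ₂, hδ₂, h2⟩ := hsfx.nu_approx hfx (P2.J_T h hx hsx hloc hξ) he0
  refine ⟨min δ₁ δ₂, lt_min hδ₁ hδ₂, fun r hr hrδ => ?_⟩
  obtain ⟨a1, a2, a3, a4⟩ := h1 r hr (hrδ.trans_le (min_le_left _ _))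
  obtain ⟨b1, b2⟩ := h2 r hr (hrδ.trans_le (min_le_right _ _))
  set y := nu (f x + r • T ξ) with hy
  set x' := nu (x + r • ξ) with hx'
  have hy1 : ‖y‖ = 1 := norm_nu b1
  have hx1 : ‖x'‖ = 1 := norm_nu a1
  have h3 : ‖g y - x'‖ = ‖y - f x'‖ := by
    have := h.symm.dist y (f x') hy1 (h.map x' hx1)
    rwa [h.left x' hx1] at this
  have h4 : ‖y - f x'‖ ≤ e * r + ‖T‖ * (e * r) := by
    have e1 : y - f x' = (y - (f x + r • T ξ)) - (f x' - (f x + r • T ξ)) := by abel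
    rw [e1]
    exact (norm_sub_le _ _).trans (add_le_add b2 a4)
  have h5 : ‖g y - (x + r • ξ)‖ ≤ ‖g y - x'‖ + ‖x' - (x + r • ξ)‖ := by
    have e1 : g y - (x + r • ξ) = (g y - x') + (x' - (x + r • ξ)) := by abel
    rw [e1]; exact norm_add_le _ _
  have h6 : (‖T‖ + 2) * (e * r) = ε * r := by
    rw [he]; field_simp
  calc ‖g y - (x + r • ξ)‖ ≤ ‖g y - x'‖ + ‖x' - (x + r • ξ)‖ := h5
    _ ≤ (e * r + ‖T‖ * (e * r)) + e * r := by rw [h3]; exact add_le_add h4 a2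
    _ = (‖T‖ + 2) * (e * r) := by ring
    _ = ε * r := h6

/-- (P2) propagation along exposed chords -/
theorem SI.propagate (h : SI f g) (ho : ∀ x, ‖x‖ = 1 → f (-x) = -f x)
    (hmf : ∀ x, ‖x‖ = 1 → Smooth x → MidAt f x)
    {T : X →L[ℝ] Y} (hT : Function.Surjective T) {τ : Y} {x y : X} (hx : ‖x‖ = 1)
    (hy : ‖y‖ = 1) (hlt : ‖x + y‖ < 2) (hne : x ≠ y) (hsx : Smooth x) (hsfx : Smooth (f x))
    (hs : Smooth (x - y)) (hexp : ∀ c, ‖c‖ = 1 → J (x - y) c = 1 → c = nu (x - y))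
    (hloc : ∃ ε : ℝ, 0 < ε ∧ ∀ x', ‖x'‖ = 1 → ‖x' - x‖ < ε → f x' = T x' + τ)
    (hor : 0 < J (f x) (T x))
    (hnorm : ∃ ε : ℝ, 0 < ε ∧ ∀ ξ : X, ‖ξ - nu (x - y)‖ < ε → ‖T ξ‖ = ‖ξ‖) :
    f y = T y + τ := by
  have hfx := h.map x hx
  have hfy := h.map y hy
  have hxy0 : x - y ≠ 0 := sub_ne_zero.mpr hne
  have hr : 0 < ‖x - y‖ := norm_pos_iff.mpr hxy0
  have hdist : ‖f x - f y‖ = ‖x - y‖ := h.dist x y hx hy
  have hfxy0 : f x - f y ≠ 0 := by
    intro h0; rw [h0, norm_zero] at hdist; rw [← hdist] at hr; exact lt_irrefl _ hr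
  set u := nu (x - y) with hu
  have hu1 : ‖u‖ = 1 := norm_nu hxy0
  set p := J (x - y) with hp
  have hp1 : ‖p‖ ≤ 1 := J_norm_le _
  have hpxy : p (x - y) = ‖x - y‖ := J_self _
  have hpu : p u = 1 := by
    rw [hu, nu, map_smul, hpxy, smul_eq_mul, inv_mul_cancel₀ hr.ne']
  have hxu : x - y = ‖x - y‖ • u := (EP.norm_smul_nu hxy0).symm
  set d := J (f x) (T x) with hd
  have hJT : ∀ v, J (f x) (T v) = d * J x v := P2.J_T_eq h hx hsx hloc
  -- the blow-up of `g` at `f x`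
  have hmid : MidAt g (f x) := by
    intro al be hal hbe ε hε
    obtain ⟨a, rfl⟩ := hT al
    obtain ⟨b, rfl⟩ := hT be
    rw [hJT] at hal hbe
    have ha : J x a = 0 := by
      rcases mul_eq_zero.mp hal with h1 | h1
      · exact absurd h1 hor.ne'
      · exact h1
    have hb : J x b = 0 := by
      rcases mul_eq_zero.mp hbe with h1 | h1
      · exact absurd h1 hor.ne'
      · exact h1
    have hab : J x ((1 / 2 : ℝ) • (a + b)) = 0 := by
      rw [map_smul, map_add, ha, hb, add_zero, smul_zero]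
    obtain ⟨δ₁, hδ₁, h1⟩ := P2.blow h hx hsx hsfx hloc ha (ε := ε / 2) (by positivity)
    obtain ⟨δ₂, hδ₂, h2⟩ := P2.blow h hx hsx hsfx hloc hb (ε := ε / 2) (by positivity)
    obtain ⟨δ₃, hδ₃, h3⟩ := P2.blow h hx hsx hsfx hloc hab (ε := ε / 2) (by positivity)
    refine ⟨min δ₁ (min δ₂ δ₃), lt_min hδ₁ (lt_min hδ₂ hδ₃), fun r hr hrδ => ?_⟩
    have b1 := h1 r hr (hrδ.trans_le (min_le_left _ _))
    have b2 := h2 r hr (hrδ.trans_le ((min_le_right _ _).trans (min_le_left _ _)))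
    have b3 := h3 r hr (hrδ.trans_le ((min_le_right _ _).trans (min_le_right _ _)))
    have e1 : (1 / 2 : ℝ) • (T a + T b) = T ((1 / 2 : ℝ) • (a + b)) := by
      rw [map_smul, map_add]
    rw [e1]
    set A := g (nu (f x + r • T a))
    set B := g (nu (f x + r • T b))
    set C := g (nu (f x + r • T ((1 / 2 : ℝ) • (a + b))))
    have e2 : C - (1 / 2 : ℝ) • (A + B) = (C - (x + r • ((1 / 2 : ℝ) • (a + b))))
        - (1 / 2 : ℝ) • ((A - (x + r • a)) + (B - (x + r • b))) := by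
      module
    rw [e2]
    refine (norm_sub_le _ _).trans ?_
    rw [norm_smul, Real.norm_of_nonneg (by norm_num : (0 : ℝ) ≤ 1 / 2)]
    have h4 := norm_add_le (A - (x + r • a)) (B - (x + r • b))
    linarith
  obtain ⟨Φ, hΦ⟩ := h.exists_isPhi hp1 hfx hsfx hmid
  have hch : Chord p x y := ⟨hx, hy, hpxy, hlt⟩
  obtain ⟨q, hq, hqxy⟩ := h.exists_canon ho hp1 hch hsfx hΦ
  -- `Φ (T ξ) = p ξ`
  have hΦT : ∀ ξ, J x ξ = 0 → Φ (T ξ) = p ξ := by
    intro ξ hξ
    have hlim := hΦ.lim (T ξ) (by rw [hJT, hξ, mul_zero])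
    refine tendsto_nhds_unique hlim ?_
    rw [Metric.tendsto_nhds]
    intro ε hε
    obtain ⟨δ, hδ, hb⟩ := P2.blow h hx hsx hsfx hloc hξ (ε := ε / 2) (by positivity)
    refine eventually_rr hδ (P := fun r => Dist.dist (dq g p (f x) (T ξ) r) (p ξ) < ε) ?_
    intro r hr hrδ
    have h1 := hb r hr hrδ
    have h2 : dq g p (f x) (T ξ) r - p ξ = p (g (nu (f x + r • T ξ)) - (x + r • ξ)) / r := by
      unfold dq
      rw [h.left x hx, map_sub, map_add, map_smul, smul_eq_mul]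
      field_simp
      ring
    rw [Real.dist_eq, h2, abs_div, abs_of_pos hr, div_lt_iff₀ hr]
    refine (abs_apply_le_of_norm_le_one hp1 _).trans_lt (h1.trans_lt ?_)
    exact mul_lt_mul_of_pos_right (by linarith) hr
  -- `T` is isometric near `u`
  obtain ⟨ε₁, hε₁, hiso⟩ := hnorm
  have hTu : ‖T u‖ = 1 := by rw [hiso u (by simpa using hε₁), hu1]
  have hsu : Smooth u := by
    rw [hu, nu]; exact hs.smul (inv_pos.mpr hr)
  have hJu : J u = p := by
    rw [hu, nu]; exact hs.J_smul (inv_pos.mpr hr)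
  -- functionals of norm `≤ 1` on `Y`
  have hsub : ∀ φ : Y →L[ℝ] ℝ, ‖φ‖ ≤ 1 → φ (T u) ≤ 1 := by
    intro φ hφ
    have := apply_le_of_norm_le_one hφ (T u)
    rwa [hTu] at this
  -- for `q₀` norming `T u`, `q₀ ∘ T = p`
  have hq₀T : ∀ v, J (T u) (T v) = p v := by
    have key : ∀ v, J (T u) (T v) ≤ p v := by
      intro v
      apply le_of_forall_pos_le_add
      intro ε hε
      obtain ⟨δ, hδ, hder⟩ := hsu.deriv v hε
      have hv1 : 0 < ‖v‖ + 1 := by positivity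
      set t := min δ (ε₁ / (‖v‖ + 1)) / 2 with ht
      have hm : 0 < min δ (ε₁ / (‖v‖ + 1)) := lt_min hδ (div_pos hε₁ hv1)
      have ht0 : 0 < t := by rw [ht]; linarith
      have ht1 : t ≤ δ := by
        rw [ht]; have := min_le_left δ (ε₁ / (‖v‖ + 1)); linarith
      have ht2 : t < ε₁ / (‖v‖ + 1) := by
        rw [ht]; have := min_le_right δ (ε₁ / (‖v‖ + 1)); linarith
      have h1 := hder t (by rw [abs_of_pos ht0]; exact ht1)
      rw [abs_of_pos ht0, hu1, hJu] at h1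
      have h2 : ‖T (u + t • v)‖ = ‖u + t • v‖ := by
        apply hiso
        rw [add_sub_cancel_left, norm_smul, Real.norm_of_nonneg ht0.le]
        rw [lt_div_iff₀ hv1] at ht2
        nlinarith [norm_nonneg v]
      have h3 := J_le (T u) (T (u + t • v))
      rw [h2, map_add, map_add, map_smul, map_smul, J_self, hTu, smul_eq_mul] at h3
      have h4 : t * J (T u) (T v) ≤ t * (p v + ε) := by linarith
      exact le_of_mul_le_mul_left h4 ht0
    intro v
    apply le_antisymm (key v)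
    have := key (-v)
    rw [map_neg, map_neg, map_neg] at this
    linarith
  -- `q ∘ T - p = c J x`
  set c := q (T x) - p x with hc
  have hqT : ∀ v, q (T v) = p v + c * J x v := by
    intro v
    have hv : J x (v - (J x v) • x) = 0 := by
      rw [map_sub, map_smul, J_self, hx, smul_eq_mul, mul_one, sub_self]
    have h1 := hq.eq (T (v - (J x v) • x)) (by rw [hJT, hv, mul_zero])
    rw [hΦT _ hv] at h1
    rw [map_sub, map_smul, map_sub, map_smul, map_sub, map_smul, smul_eq_mul, smul_eq_mul] at h1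
    rw [hc]
    linarith
  -- signs
  have hJxu : 0 < J x u := by
    have h1 := P2.J_pos hx hlt
    rw [hxu, map_smul, smul_eq_mul] at h1
    exact (pos_iff_pos_of_mul_pos h1).mp hr
  have hc1 : c ≤ 0 := by
    have h1 := hsub q hq.norm_le
    rw [hqT, hpu] at h1
    by_contra hcon
    push Not at hcon
    have := mul_pos hcon hJxu
    linarith
  have hc2 : 0 ≤ c := by
    obtain ⟨ξ, hξ⟩ := hT (f x - f y)
    have h1 : 0 < J (f x) (f x - f y) := h.J_chord_pos ho hx hy hlt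
    rw [← hξ, hJT] at h1
    have h2 : 0 < J x ξ := (pos_iff_pos_of_mul_pos h1).mp hor
    have h3 : J (T u) (T ξ) ≤ q (T ξ) := by
      rw [hξ, hqxy, ← hdist]; exact J_le _ _
    rw [hq₀T, hqT] at h3
    by_contra hcon
    push Not at hcon
    have := mul_neg_of_neg_of_pos hcon h2
    linarith
  have hc0 : c = 0 := le_antisymm hc1 hc2
  have hqTu : q (T u) = 1 := by rw [hqT, hpu, hc0, zero_mul, add_zero]
  have hfin := h.exposed_transfer ho hmf hx hy hlt hne hsx hs hexp hq.norm_le hqxy (T u) hTu hqTu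
  have h1 : f x - f y = T (x - y) := by
    rw [hxu, map_smul, hfin, ← hdist, EP.norm_smul_nu hfxy0]
  have h2 : f x = T x + τ := by
    obtain ⟨ε, hε, hl⟩ := hloc
    exact hl x hx (by simpa using hε)
  have h3 : f y = f x - T (x - y) := by rw [← h1]; abel
  rw [h3, h2, map_sub]; abel

end Prop2

end Crest.Agent.R074
end

-- ▼ part R074/MixedEnd
section

/-!
Row 74 (S0099), mixed case (C): the end game. An affine piece `f = T + τ` (oriented) together with
an open set of directions on which `T` is isometric and where exposed smooth points are residual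
gives the linear extension (transitivity of chords).
-/

set_option autoImplicit false

namespace Crest.Agent.R074

open Metric Set Filter Topology

section MixedEnd

variable {X Y : Type*} [NormedAddCommGroup X] [NormedSpace ℝ X] [NormedAddCommGroup Y]
  [NormedSpace ℝ Y] {f : X → Y} {g : Y → X}

/-- `AffAt` is an open condition -/
theorem AffAt.nhds {T : X →L[ℝ] Y} {τ : Y} {x : X} (hA : AffAt f T τ x) :
    ∃ ε : ℝ, 0 < ε ∧ ∀ x' : X, ‖x'‖ = 1 → ‖x' - x‖ < ε → AffAt f T τ x' := by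
  obtain ⟨ε, hε, h1⟩ := hA
  refine ⟨ε / 2, by positivity, fun x' _ hx'x => ⟨ε / 2, by positivity, fun x'' hx'' h2 => ?_⟩⟩
  apply h1 x'' hx''
  have e : x'' - x = (x'' - x') + (x' - x) := by abel
  rw [e]
  have := norm_add_le (x'' - x') (x' - x)
  linarith

/-- `AffAt` and the antipode -/
theorem AffAt.neg (ho : ∀ x, ‖x‖ = 1 → f (-x) = -f x) {T : X →L[ℝ] Y} {τ : Y} {x : X}
    (hA : AffAt f T τ x) : AffAt f T (-τ) (-x) := by
  obtain ⟨ε, hε, h1⟩ := hA
  refine ⟨ε, hε, fun x' hx' hx'x => ?_⟩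
  have hn : ‖-x'‖ = 1 := by rw [norm_neg]; exact hx'
  have hd : ‖-x' - x‖ < ε := by
    have e : -x' - x = -(x' - -x) := by abel
    rw [e, norm_neg]; exact hx'x
  obtain ⟨h2, h3⟩ := h1 (-x') hn hd
  rw [ho x' hx'] at h2
  constructor
  · have : f x' = -(T (-x') + τ) := by rw [← h2, neg_neg]
    rw [this, map_neg]; abel
  · intro hs hsf
    have h4 := h3 hs.neg (by rw [ho x' hx']; exact hsf.neg)
    rw [ho x' hx', hsf.J_neg, map_neg, _root_.neg_apply, map_neg, neg_neg] at h4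
    exact h4

/-- top to bottom along an exposed chord -/
theorem SI.affAt_bot [TopologicalSpace.SeparableSpace X] [TopologicalSpace.SeparableSpace Y]
    [CompleteSpace X] (h : SI f g) (ho : ∀ x, ‖x‖ = 1 → f (-x) = -f x)
    (hmf : ∀ x, ‖x‖ = 1 → Smooth x → MidAt f x) {T : X →L[ℝ] Y} (hT : Function.Surjective T)
    {τ : Y} {u₀ : X} {ρ : ℝ}
    (hnorm : ∀ ξ, ‖ξ - u₀‖ < ρ → ‖T ξ‖ = ‖ξ‖)
    (hexp : ∀ᶠ u : sphere (0 : X) 1 in residual (sphere (0 : X) 1),
      ‖(u : X) - u₀‖ < ρ → Smooth (u : X) ∧ Expo (u : X))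
    {u x y : X} (hc : UChord u x y) (hu : ‖u‖ = 1) (huρ : ‖u - u₀‖ < ρ)
    (hA : AffAt f T τ x) : AffAt f T τ y := by
  have hx := hc.1
  have hy := hc.2.1
  have hlt := hc.2.2.1
  have hne := hc.ne
  have hne0 : x - y ≠ 0 := sub_ne_zero.mpr hne
  have hnu : nu (x - y) = u := hc.nu_eq hu
  obtain ⟨εA, hεA, hAA⟩ := hA.nhds
  -- continuity of the direction
  have hcont : ContinuousAt (fun p : X × X => nu (p.1 - p.2)) (x, y) :=
    ContinuousAt.comp (f := fun p : X × X => p.1 - p.2) (tr_continuousAt_nu hne0) (by fun_prop)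
  have h1 : ∀ᶠ p : X × X in 𝓝 (x, y), ‖nu (p.1 - p.2) - u₀‖ < ρ := by
    have h2 : ContinuousAt (fun p : X × X => ‖nu (p.1 - p.2) - u₀‖) (x, y) :=
      (hcont.sub continuousAt_const).norm
    apply h2.eventually_lt_const
    show ‖nu (x - y) - u₀‖ < ρ
    rw [hnu]; exact huρ
  have h2 : ∀ᶠ p : X × X in 𝓝 (x, y), ‖p.1 + p.2‖ < 2 := by
    have h3 : ContinuousAt (fun p : X × X => ‖p.1 + p.2‖) (x, y) := by fun_prop
    exact h3.eventually_lt_const hlt
  have h3 : ∀ᶠ p : X × X in 𝓝 (x, y), p.1 - p.2 ≠ 0 := by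
    have h4 : ContinuousAt (fun p : X × X => p.1 - p.2) (x, y) := by fun_prop
    exact h4.eventually_ne hne0
  obtain ⟨δ, hδ, h4⟩ := Metric.eventually_nhds_iff.mp (h1.and (h2.and h3))
  -- a good top end for every bottom near `y`
  have key : ∀ y' : X, ‖y'‖ = 1 → ‖y' - y‖ < δ → ∃ x' : X, ‖x'‖ = 1 ∧ ‖x' + y'‖ < 2 ∧
      f x' = T x' + τ ∧ f y' = T y' + τ := by
    intro y' hy' hyy
    have hxy' : Dist.dist (x, y') (x, y) < δ := by
      rw [Prod.dist_eq, dist_self, dist_eq_norm]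
      exact max_lt hδ hyy
    obtain ⟨-, h6, h7⟩ := h4 hxy'
    obtain ⟨x', hx', hxx, hlt', hne', hsx', hsfx', hR⟩ := h.exists_gen
      (R := {u : X | ‖u - u₀‖ < ρ → Smooth u ∧ Expo u}) hexp hy' hx h6 (sub_ne_zero.mp h7)
      (ε := min δ εA) (lt_min hδ hεA)
    have hd' : Dist.dist (x', y') (x, y) < δ := by
      rw [Prod.dist_eq, dist_eq_norm, dist_eq_norm]
      exact max_lt (hxx.trans_le (min_le_left _ _)) hyy
    obtain ⟨h8, -, h10⟩ := h4 hd'
    have h8' : ‖nu (x' - y') - u₀‖ < ρ := h8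
    have h10' : x' - y' ≠ 0 := h10
    obtain ⟨hsu, heu⟩ := hR h8'
    have hAx' := hAA x' hx' (hxx.trans_le (min_le_right _ _))
    obtain ⟨ε', hε', h11⟩ := hAx'
    have h12 := h11 x' hx' (by simpa using hε')
    have hr : 0 < ‖x' - y'‖ := norm_pos_iff.mpr h10'
    have hse : ‖x' - y'‖ • nu (x' - y') = x' - y' := EP.norm_smul_nu h10'
    have hs : Smooth (x' - y') := by
      rw [← hse]; exact hsu.smul hr
    have hJ : J (x' - y') = J (nu (x' - y')) := by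
      rw [← hsu.J_smul hr, hse]
    refine ⟨x', hx', hlt', h12.1, ?_⟩
    apply h.propagate ho hmf hT hx' hy' hlt' hne' hsx' hsfx' hs
    · intro c hc1 hc2
      rw [hJ] at hc2
      exact heu c hc1 hc2
    · exact ⟨ε', hε', fun x'' hx'' hd => (h11 x'' hx'' hd).1⟩
    · exact h12.2 hsx' hsfx'
    · refine ⟨ρ - ‖nu (x' - y') - u₀‖, by linarith, fun ξ hξ => ?_⟩
      apply hnorm
      have e : ξ - u₀ = (ξ - nu (x' - y')) + (nu (x' - y') - u₀) := by abel
      rw [e]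
      have := norm_add_le (ξ - nu (x' - y')) (nu (x' - y') - u₀)
      linarith
  refine ⟨δ, hδ, fun y' hy' hyy => ?_⟩
  obtain ⟨x', hx', hlt', hfx', hfy'⟩ := key y' hy' hyy
  refine ⟨hfy', fun hsy _ => ?_⟩
  apply h.orient_bot ho hx' hy' hlt' hsy hfx'
  refine ⟨δ - ‖y' - y‖, by linarith, fun y'' hy'' hd => ?_⟩
  have hdy : ‖y'' - y‖ < δ := by
    have e : y'' - y = (y'' - y') + (y' - y) := by abel
    rw [e]
    have := norm_add_le (y'' - y') (y' - y)
    linarith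
  obtain ⟨-, -, -, -, h5⟩ := key y'' hy'' hdy
  exact h5

/-- the chord maps preserve `AffAt` -/
theorem SI.affAt_iff [TopologicalSpace.SeparableSpace X] [TopologicalSpace.SeparableSpace Y]
    [CompleteSpace X] (h : SI f g) (ho : ∀ x, ‖x‖ = 1 → f (-x) = -f x)
    (hmf : ∀ x, ‖x‖ = 1 → Smooth x → MidAt f x) {T : X →L[ℝ] Y} (hT : Function.Surjective T)
    {τ : Y} {u₀ : X} {ρ : ℝ}
    (hnorm : ∀ ξ, ‖ξ - u₀‖ < ρ → ‖T ξ‖ = ‖ξ‖)
    (hexp : ∀ᶠ u : sphere (0 : X) 1 in residual (sphere (0 : X) 1),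
      ‖(u : X) - u₀‖ < ρ → Smooth (u : X) ∧ Expo (u : X))
    {u x y : X} (hc : UChord u x y) (hu : ‖u‖ = 1) (huρ : ‖u - u₀‖ < ρ) :
    AffAt f T τ x ↔ AffAt f T τ y := by
  constructor
  · exact h.affAt_bot ho hmf hT hnorm hexp hc hu huρ
  · intro hA
    have h1 := h.affAt_bot ho hmf hT hnorm hexp hc.neg hu huρ (hA.neg ho)
    have h2 := h1.neg ho
    rwa [neg_neg, neg_neg] at h2

/-- END GAME of the mixed case -/
theorem SI.mixed_end [TopologicalSpace.SeparableSpace X] [TopologicalSpace.SeparableSpace Y]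
    [CompleteSpace X] (h : SI f g) (ho : ∀ x, ‖x‖ = 1 → f (-x) = -f x)
    (hmf : ∀ x, ‖x‖ = 1 → Smooth x → MidAt f x) {T : X →L[ℝ] Y} (hT : Function.Surjective T)
    {τ : Y} {z u₀ : X} (hz : ‖z‖ = 1) (hzA : AffAt f T τ z) (hu₀ : ‖u₀‖ = 1) {ρ : ℝ}
    (hρ : 0 < ρ) (hnorm : ∀ ξ, ‖ξ - u₀‖ < ρ → ‖T ξ‖ = ‖ξ‖)
    (hexp : ∀ᶠ u : sphere (0 : X) 1 in residual (sphere (0 : X) 1),
      ‖(u : X) - u₀‖ < ρ → Smooth (u : X) ∧ Expo (u : X)) : Ext f := by
  set F : Set X := {x | AffAt f T τ x} with hF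
  set O : Set X := {u | ‖u - u₀‖ < ρ} with hO
  have hFo : ∀ x ∈ F, ‖x‖ = 1 → ∃ ε : ℝ, 0 < ε ∧ ∀ y, ‖y‖ = 1 → ‖y - x‖ < ε → y ∈ F :=
    fun x hx _ => AffAt.nhds hx
  have hOo : ∀ x ∈ O, ‖x‖ = 1 → ∃ ε : ℝ, 0 < ε ∧ ∀ y, ‖y‖ = 1 → ‖y - x‖ < ε → y ∈ O := by
    intro x hx _
    have hx' : ‖x - u₀‖ < ρ := hx
    refine ⟨ρ - ‖x - u₀‖, by linarith, fun y _ hyx => ?_⟩
    show ‖y - u₀‖ < ρ
    have e : y - u₀ = (y - x) + (x - u₀) := by abel
    rw [e]
    have := norm_add_le (y - x) (x - u₀)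
    linarith
  have hinv : ∀ u ∈ O ∩ {u | ‖u‖ = 1}, ∀ x y, UChord u x y → (x ∈ F ↔ y ∈ F) := by
    rintro u ⟨hu, hu1⟩ x y hc
    exact h.affAt_iff ho hmf hT hnorm hexp hc hu1 hu
  -- `f = T + τ` on the sphere
  have hall : ∀ b : X, ‖b‖ = 1 → f b = T b + τ := by
    intro b hb
    rw [← sub_eq_zero, ← norm_le_zero_iff]
    apply le_of_forall_pos_lt_add
    intro ε hε
    rw [zero_add]
    have hT1 : 0 < 2 + ‖T‖ := by positivity
    obtain ⟨y, hyF, hy, hyb⟩ := trans_dense hFo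
      (O := O ∩ {u | ‖u‖ = 1})
      (by
        rintro x ⟨hx, -⟩ hx1
        obtain ⟨ε, hε, h1⟩ := hOo x hx hx1
        exact ⟨ε, hε, fun y hy hyx => ⟨h1 y hy hyx, hy⟩⟩)
      hinv hz (show z ∈ F from hzA) hu₀ ⟨by show ‖u₀ - u₀‖ < ρ; simpa using hρ, hu₀⟩ hb
      (ε := ε / (2 + ‖T‖)) (by positivity)
    obtain ⟨ε', hε', h1⟩ := (show AffAt f T τ y from hyF)
    have h2 : f y = T y + τ := (h1 y hy (by simpa using hε')).1
    have e1 : f b - (T b + τ) = (f b - f y) + T (y - b) := by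
      rw [h2, map_sub]; abel
    rw [e1]
    have n1 : ‖f b - f y‖ = ‖y - b‖ := by rw [h.dist b y hb hy, norm_sub_rev]
    have n2 := T.le_opNorm (y - b)
    have n3 := norm_add_le (f b - f y) (T (y - b))
    rw [lt_div_iff₀ hT1] at hyb
    nlinarith [norm_nonneg (y - b), norm_nonneg T]
  -- `τ = 0`
  have hτ : τ = 0 := by
    have h1 := hall z hz
    have h2 := hall (-z) (by rw [norm_neg]; exact hz)
    rw [ho z hz, h1, map_neg] at h2
    have h3 : (2 : ℝ) • τ = 0 := by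
      rw [two_smul]
      have : τ + τ = (-T z + τ) - (-(T z + τ)) := by abel
      rw [this, ← h2, sub_self]
    rcases smul_eq_zero.mp h3 with h4 | h4
    · norm_num at h4
    · exact h4
  have hall' : ∀ b : X, ‖b‖ = 1 → T b = f b := by
    intro b hb
    rw [hall b hb, hτ, add_zero]
  -- `T` is norm preserving
  have hTn : ∀ x : X, ‖T x‖ = ‖x‖ := by
    intro x
    rcases eq_or_ne x 0 with rfl | hx
    · rw [map_zero, norm_zero, norm_zero]
    · have hn := norm_nu hx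
      have h1 : ‖T (nu x)‖ = 1 := by rw [hall' _ hn]; exact h.map _ hn
      have h2 : x = ‖x‖ • nu x := (EP.norm_smul_nu hx).symm
      rw [h2, map_smul, norm_smul, norm_smul, h1, hn]
  let L : X →ₗᵢ[ℝ] Y := { toLinearMap := T.toLinearMap, norm_map' := hTn }
  refine ⟨LinearIsometryEquiv.ofSurjective L hT, fun x hx => ?_⟩
  rw [← hall' x hx]
  rfl

end MixedEnd

end Crest.Agent.R074
end

-- ▼ part R074/MixedGlue
section

/-!
Row 74 (S0099): mixed case, final glue. `InitTwoStatement` (initial step (ii)) implies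
`CaseCStatement`.
-/

set_option autoImplicit false

universe u v

namespace Crest.Agent.R074

open Metric Set Filter Topology


section Glue

variable {X : Type u} {Y : Type v} [NormedAddCommGroup X] [NormedSpace ℝ X]
  [NormedAddCommGroup Y] [NormedSpace ℝ Y] {f : X → Y} {g : Y → X}

/-- a point of the relative interior of `C` close to a point outside `C`. -/
theorem Glue.near_pair (hX : 1 < Module.rank ℝ X) {C : Set X} {y₀ p : X} (hy₀ : ‖y₀‖ = 1)
    {r₀ : ℝ} (hr₀ : 0 < r₀) (hC : ∀ s : X, ‖s‖ = 1 → ‖s - y₀‖ < r₀ → s ∈ C) (hp : ‖p‖ = 1)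
    (hpC : p ∉ C) {d : ℝ} (hd : 0 < d) :
    ∃ y u₀ : X, ‖y‖ = 1 ∧ ‖u₀‖ = 1 ∧ u₀ ∉ C ∧ ‖u₀ - y‖ < d ∧
      ∃ r : ℝ, 0 < r ∧ ∀ s : X, ‖s‖ = 1 → ‖s - y‖ < r → s ∈ C := by
  by_contra hcon
  push Not at hcon
  set G : Set X := {y | ‖y‖ = 1 ∧ ∃ r : ℝ, 0 < r ∧ ∀ s : X, ‖s‖ = 1 → ‖s - y‖ < r → s ∈ C}
    with hG
  set O : Set X := {u | ‖u‖ = 1 ∧ u ∉ C} with hO
  have hA : IsOpen (⋃ y ∈ G, ball y (d / 2)) := isOpen_biUnion fun _ _ => isOpen_ball
  have hB : IsOpen (⋃ y ∈ O, ball y (d / 2)) := isOpen_biUnion fun _ _ => isOpen_ball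
  have hcov : sphere (0 : X) 1 ⊆ (⋃ y ∈ G, ball y (d / 2)) ∪ (⋃ y ∈ O, ball y (d / 2)) := by
    intro x hx
    have hx1 : ‖x‖ = 1 := by simpa using hx
    by_cases hxG : x ∈ G
    · left
      exact mem_biUnion hxG (mem_ball_self (by positivity))
    · right
      have h1 : ∃ s : X, ‖s‖ = 1 ∧ ‖s - x‖ < d / 2 ∧ s ∉ C := by
        by_contra h2
        push Not at h2
        exact hxG ⟨hx1, d / 2, by positivity, h2⟩
      obtain ⟨s, hs, hsx, hsC⟩ := h1
      refine mem_biUnion (show s ∈ O from ⟨hs, hsC⟩) ?_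
      rw [mem_ball, dist_eq_norm, norm_sub_rev]; exact hsx
  obtain ⟨z, -, hz1, hz2⟩ := isPreconnected_sphere hX (0 : X) 1 _ _ hA hB hcov
    ⟨y₀, by simpa using hy₀, mem_biUnion (show y₀ ∈ G from ⟨hy₀, r₀, hr₀, hC⟩)
      (mem_ball_self (by positivity))⟩
    ⟨p, by simpa using hp, mem_biUnion (show p ∈ O from ⟨hp, hpC⟩)
      (mem_ball_self (by positivity))⟩
  simp only [mem_iUnion, exists_prop] at hz1 hz2
  obtain ⟨y, ⟨hy, r, hr, hry⟩, hzy⟩ := hz1
  obtain ⟨u, ⟨hu, huC⟩, hzu⟩ := hz2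
  rw [mem_ball, dist_eq_norm] at hzy hzu
  have h1 : ‖u - y‖ < d := by
    have e : u - y = (z - y) - (z - u) := by abel
    rw [e]
    exact (norm_sub_le _ _).trans_lt (by linarith)
  obtain ⟨s, hs, hsy, hsC⟩ := hcon y u hy hu huC h1 r hr
  exact hsC (hry s hs hsy)

/-- the local family of good functionals -/
theorem Glue.la (h : SI f g) {ε : ℝ} {y : X} (hy : ‖y‖ = 1) {r : ℝ} (hrε : r + r ≤ ε)
    (hcl : ∀ s, ‖s‖ = 1 → ‖s - y‖ < r → s ∈ closure (GoodSet f ε)) :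
    LA f g y r {k | ∃ u ∈ GoodSet f ε, ‖u - y‖ < r ∧ k = (J u, J (f u))} := by
  refine ⟨h, hy, ?_, ?_, ?_, ?_⟩
  · rintro _ ⟨u, hu, hur, rfl⟩; exact J_norm_le _
  · rintro _ ⟨u, hu, hur, rfl⟩; exact J_norm_le _
  · rintro _ ⟨u, hu, hur, rfl⟩ x hx hxy
    apply hu.2.2.2 x hx
    have e : x - u = (x - y) - (u - y) := by abel
    rw [e]
    exact (norm_sub_le _ _).trans_lt (by linarith)
  · intro s hs hsr δ hδ
    obtain ⟨u, hu, hus⟩ := Metric.mem_closure_iff.mp (hcl s hs hsr)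
      (min δ (r - ‖s - y‖)) (lt_min hδ (by linarith))
    rw [dist_eq_norm] at hus
    have h1 : ‖u - y‖ < r := by
      have e : u - y = (s - y) - (s - u) := by abel
      rw [e]
      have := hus.trans_le (min_le_right _ _)
      exact (norm_sub_le _ _).trans_lt (by linarith)
    refine ⟨(J u, J (f u)), ⟨u, hu, h1, rfl⟩, ?_⟩
    show 1 - δ < J u s
    have h2 := J_le u (u - s)
    rw [map_sub, J_self, hu.1, norm_sub_rev] at h2
    have := hus.trans_le (min_le_left _ _)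
    linarith

theorem Glue.vflat {y : X} {r : ℝ} (hr : 0 < r) {K : Set ((X →L[ℝ] ℝ) × (Y →L[ℝ] ℝ))}
    (hLA : LA f g y r K) {v : X} (hv : v ∈ kerX K) : VFlat v y := by
  have hv1 : 0 < 4 * (‖v‖ + 1) := by positivity
  refine ⟨min (r / 2) (r / (4 * (‖v‖ + 1))), lt_min (by positivity) (by positivity), ?_⟩
  intro s hs hsy t ht
  apply hLA.norm_add hs ((kerX K).smul_mem t hv)
  have h1 : ‖s - y‖ < r / 2 := hsy.trans_le (min_le_left _ _)
  have h2 : |t| < r / (4 * (‖v‖ + 1)) := ht.trans_le (min_le_right _ _)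
  rw [lt_div_iff₀ hv1] at h2
  rw [norm_smul, Real.norm_eq_abs]
  have h3 := abs_nonneg t
  nlinarith [norm_nonneg v]

theorem Glue.hexp {ε : ℝ} (hgen : GenLTA f ε) {u₀ : X} (hu₀ : u₀ ∉ closure (GoodSet f ε)) :
    ∃ δ : ℝ, 0 < δ ∧ ∀ ρ : ℝ, ρ ≤ δ → ∀ᶠ u : sphere (0 : X) 1 in residual (sphere (0 : X) 1),
      ‖(u : X) - u₀‖ < ρ → Smooth (u : X) ∧ Expo (u : X) := by
  rw [Metric.mem_closure_iff] at hu₀
  push Not at hu₀
  obtain ⟨δ, hδ, hG⟩ := hu₀
  refine ⟨δ, hδ, fun ρ hρ => ?_⟩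
  filter_upwards [hgen] with u hu huρ
  refine ⟨hu.1, ?_⟩
  rcases hu.2.2 with h1 | h1
  · exact h1
  · exfalso
    have hu1 : ‖(u : X)‖ = 1 := by simp
    have h2 := hG u ⟨hu1, hu.1, hu.2.1, h1⟩
    rw [dist_eq_norm, norm_sub_rev] at h2
    linarith

end Glue


end Crest.Agent.R074
end

-- ▼ part R074/Parallel
section

/-!
Row 74 (S0099): parallel chords based at points of a common flat segment have a common norming
functional (in the image).
-/

set_option autoImplicit false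

namespace Crest.Agent.R074

open Metric Set Filter Topology

section Parallel

variable {X Y : Type*} [NormedAddCommGroup X] [NormedSpace ℝ X] [NormedAddCommGroup Y]
  [NormedSpace ℝ Y] {f : X → Y} {g : Y → X}

/-- smoothness and the support functional are constant along a flat segment around a smooth
point -/
theorem smooth_flat {y l : X} (hy : ‖y‖ = 1) (hs : Smooth y) {ρ : ℝ} (hρ : 0 < ρ)
    (hflat : ∀ t : ℝ, |t| < ρ → ‖y + t • l‖ = 1) {t : ℝ} (ht : |t| < ρ) :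
    J y l = 0 ∧ Smooth (y + t • l) ∧ J (y + t • l) = J y := by
  have key : ∀ (s : ℝ) (P : X →L[ℝ] ℝ), |s| < ρ → Norming P (y + s • l) → P l = 0 := by
    intro s P hsρ hP
    have h1 : 0 < (ρ - |s|) / 2 := by linarith
    set d : ℝ := (ρ - |s|) / 2 with hd
    have hle1 : |s + d| < ρ := by
      have := abs_add_le s d
      rw [abs_of_pos h1] at this
      linarith
    have hle2 : |s - d| < ρ := by
      have := abs_sub s d
      rw [abs_of_pos h1] at this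
      linarith
    have h2 := hP.le (y + (s + d) • l)
    have h3 := hP.le (y + (s - d) • l)
    have h4 := hP.2
    rw [hflat _ hle1, map_add, map_smul, smul_eq_mul] at h2
    rw [hflat _ hle2, map_add, map_smul, smul_eq_mul] at h3
    rw [hflat _ hsρ, map_add, map_smul, smul_eq_mul] at h4
    have h5 : d * P l ≤ 0 := by nlinarith
    have h6 : 0 ≤ d * P l := by nlinarith
    have h7 : d * P l = 0 := le_antisymm h5 h6
    rcases mul_eq_zero.mp h7 with h | h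
    · exact absurd h h1.ne'
    · exact h
  have h0 : |(0 : ℝ)| < ρ := by rw [abs_zero]; exact hρ
  have hall : ∀ P : X →L[ℝ] ℝ, Norming P (y + t • l) → P = J y := by
    intro P hP
    have h1 := key t P ht hP
    apply hs.eq_J
    refine ⟨hP.1, ?_⟩
    have h2 := hP.2
    rw [hflat t ht, map_add, map_smul, h1, smul_zero, add_zero] at h2
    rw [h2, hy]
  refine ⟨?_, ?_, ?_⟩
  · apply key 0 (J y) h0
    rw [zero_smul, add_zero]
    exact J_norming y
  · apply smooth_of_unique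
    intro P Q hP hQ
    rw [hall P hP, hall Q hQ]
  · exact hall _ (J_norming _)

/-- the derivative functional of `p ∘ g` is (up to normalisation) the same at `f y` and at
`f (y + t v)` if `f (s + t v) = f s + t ℓ` for `s` near `y`. -/
theorem SI.isPhi_flat (h : SI f g) {p : X →L[ℝ] ℝ} (hp : ‖p‖ ≤ 1) {y v : X} {l : Y}
    (hy : ‖y‖ = 1) (hs : Smooth (f y)) {ρ : ℝ} (hρ : 0 < ρ)
    (hflat : ∀ s, ‖s‖ = 1 → ‖s - y‖ < ρ → ∀ t : ℝ, |t| < ρ →
      ‖s + t • v‖ = 1 ∧ f (s + t • v) = f s + t • l)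
    {Φ : Y →L[ℝ] ℝ} (hΦ : IsPhi g p (f y) Φ) {t : ℝ} (ht : |t| < ρ) :
    Smooth (f (y + t • v)) ∧ J (f (y + t • v)) = J (f y) ∧
      IsPhi g p (f (y + t • v)) (Φ - (Φ (f (y + t • v))) • J (f y)) := by
  have hfy := h.map y hy
  have hself : ∀ t : ℝ, |t| < ρ → ‖y + t • v‖ = 1 ∧ f (y + t • v) = f y + t • l :=
    hflat y hy (by rw [sub_self, norm_zero]; exact hρ)
  have hyt := (hself t ht).1
  have hft := (hself t ht).2
  have hflatY : ∀ t : ℝ, |t| < ρ → ‖f y + t • l‖ = 1 := by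
    intro t ht
    rw [← (hself t ht).2]
    exact h.map _ (hself t ht).1
  obtain ⟨hJl, hsm, hJ⟩ := smooth_flat hfy hs hρ hflatY ht
  rw [← hft] at hsm hJ
  refine ⟨hsm, hJ, ?_, ?_⟩
  · have h1 : J (f y) (f (y + t • v)) = 1 := by
      rw [hft, map_add, map_smul, hJl, J_self, hfy, smul_zero, add_zero]
    simp only [_root_.sub_apply, _root_.smul_apply, h1, smul_eq_mul, mul_one, sub_self]
  · intro al hal
    rw [hJ] at hal
    have hval : (Φ - (Φ (f (y + t • v))) • J (f y)) al = Φ al := by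
      simp only [_root_.sub_apply, _root_.smul_apply, hal, smul_zero, sub_zero]
    rw [hval]
    have h1 := hΦ.lim al hal
    have h2 : Tendsto (fun n => dq g p (f (y + t • v)) al (rr n) - dq g p (f y) al (rr n)) UU
        (𝓝 0) := by
      rw [Metric.tendsto_nhds]
      intro ε hε
      obtain ⟨δ1, hδ1, hd1⟩ := hs.nu_approx hfy hal (ε := ε / 3) (by positivity)
      obtain ⟨δ2, hδ2, hd2⟩ := hsm.nu_approx (h.map _ hyt) (v := al) (by rw [hJ]; exact hal)
        (ε := ε / 3) (by positivity)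
      set δ3 : ℝ := ρ / (2 * ‖al‖ + 1) with hδ3
      have hδ3' : 0 < δ3 := by positivity
      refine eventually_rr (δ := min (min δ1 δ2) δ3) (lt_min (lt_min hδ1 hδ2) hδ3')
        (P := fun r => Dist.dist (dq g p (f (y + t • v)) al r - dq g p (f y) al r) 0 < ε) ?_
      intro r hr hrδ
      have hr1 : r < δ1 := hrδ.trans_le ((min_le_left _ _).trans (min_le_left _ _))
      have hr2 : r < δ2 := hrδ.trans_le ((min_le_left _ _).trans (min_le_right _ _))
      have hr3 : r < δ3 := hrδ.trans_le (min_le_right _ _)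
      obtain ⟨hne1, ha1⟩ := hd1 r hr hr1
      obtain ⟨hne2, ha2⟩ := hd2 r hr hr2
      set y1 := nu (f y + r • al) with hy1
      set y2 := nu (f (y + t • v) + r • al) with hy2
      have hn1 : ‖y1‖ = 1 := norm_nu hne1
      have hn2 : ‖y2‖ = 1 := norm_nu hne2
      have hgn : ‖g y1‖ = 1 := h.imap _ hn1
      have hgy : ‖g y1 - y‖ < ρ := by
        have h3 := h.symm.dist y1 (f y) hn1 hfy
        rw [h.left y hy] at h3
        rw [h3]
        refine (norm_nu_sub_le hne1 hfy).trans_lt ?_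
        rw [add_sub_cancel_left, norm_smul, Real.norm_of_nonneg hr.le]
        have h4 : r * (2 * ‖al‖ + 1) < ρ := by
          rwa [hδ3, lt_div_iff₀ (by positivity)] at hr3
        nlinarith [norm_nonneg al]
      obtain ⟨h5, h6⟩ := hflat (g y1) hgn hgy t ht
      rw [h.right y1 hn1] at h6
      have h7 : ‖g y2 - (g y1 + t • v)‖ ≤ 2 * (ε / 3) * r := by
        have h8 : ‖g y2 - (g y1 + t • v)‖ = ‖y2 - (y1 + t • l)‖ := by
          have h9 := h.symm.dist y2 (y1 + t • l) hn2 (by rw [← h6]; exact h.map _ h5)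
          rw [← h9, ← h6, h.left _ h5]
        rw [h8]
        have e : y2 - (y1 + t • l) = (y2 - (f (y + t • v) + r • al)) - (y1 - (f y + r • al)) := by
          rw [hft]; abel
        rw [e]
        refine (norm_sub_le _ _).trans ?_
        linarith
      have h9 : dq g p (f (y + t • v)) al r - dq g p (f y) al r
          = p (g y2 - (g y1 + t • v)) / r := by
        unfold dq
        rw [h.left y hy, h.left _ hyt, ← sub_div]
        congr 1
        simp only [map_sub, map_add, map_smul, ← hy1, ← hy2]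
        ring
      rw [Real.dist_eq, sub_zero, h9, abs_div, abs_of_pos hr, div_lt_iff₀ hr]
      refine (abs_apply_le_of_norm_le_one hp _).trans_lt ?_
      refine h7.trans_lt ?_
      nlinarith
    have h3 := h1.add h2
    rw [add_zero] at h3
    refine h3.congr ?_
    intro n
    ring

/-- PARALLEL CHORDS: a common norming functional. -/
theorem SI.parallel_functional (h : SI f g) (ho : ∀ x, ‖x‖ = 1 → f (-x) = -f x)
    {p : X →L[ℝ] ℝ} (hp : ‖p‖ ≤ 1)
    {y x x' v : X} {l : Y} (hmg : MidAt g (f y)) (hsy : Smooth (f y)) (hc : Chord p y x)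
    {ρ : ℝ} (hρ : 0 < ρ)
    (hflat : ∀ s, ‖s‖ = 1 → ‖s - y‖ < ρ → ∀ t : ℝ, |t| < ρ →
      ‖s + t • v‖ = 1 ∧ f (s + t • v) = f s + t • l)
    {t : ℝ} (ht : |t| < ρ) (hc' : Chord p (y + t • v) x') :
    ∃ q : Y →L[ℝ] ℝ, ‖q‖ ≤ 1 ∧ q (f y - f x) = ‖y - x‖ ∧
      q (f (y + t • v) - f x') = ‖y + t • v - x'‖ := by
  have hy := hc.top
  have hfy := h.map y hy
  obtain ⟨Φ, hΦ⟩ := h.exists_isPhi hp hfy hsy hmg
  obtain ⟨hsm, hJ, hΦt⟩ := h.isPhi_flat hp hy hsy hρ hflat hΦ ht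
  obtain ⟨q, hq, hqx⟩ := h.exists_canon ho hp hc hsy hΦ
  obtain ⟨q', hq', hqx'⟩ := h.exists_canon ho hp hc' hsm hΦt
  -- the difference is a multiple of J (f y)
  have hdiff : ∀ z, (q - q') z = (q (f y) - q' (f y)) * J (f y) z := by
    intro z
    have hz : J (f y) (z - (J (f y) z) • f y) = 0 := by
      rw [map_sub, map_smul, J_self, hfy, smul_eq_mul, mul_one, sub_self]
    have h1 := hq.eq _ hz
    have h2 := hq'.eq _ (by rw [hJ]; exact hz)
    have h2' : q' (z - (J (f y) z) • f y) = Φ (z - (J (f y) z) • f y) := by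
      rw [h2]
      simp only [_root_.sub_apply, _root_.smul_apply, hz, smul_zero, sub_zero]
    have h3 : q (z - (J (f y) z) • f y) = q' (z - (J (f y) z) • f y) := by rw [h1, h2']
    simp only [map_sub, map_smul, smul_eq_mul] at h3
    rw [_root_.sub_apply]
    linarith
  have h1 : 0 ≤ (q (f y) - q' (f y)) * J (f y) (f y - f x) := by
    rw [← hdiff, _root_.sub_apply, hqx]
    have := apply_le_of_norm_le_one hq'.norm_le (f y - f x)
    rw [h.dist y x hy hc.bot] at this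
    linarith
  have h2 : (q (f y) - q' (f y)) * J (f y) (f (y + t • v) - f x') ≤ 0 := by
    rw [← hdiff, _root_.sub_apply, hqx']
    have := apply_le_of_norm_le_one hq.norm_le (f (y + t • v) - f x')
    rw [h.dist _ x' hc'.top hc'.bot] at this
    linarith
  have h3 := h.J_chord_pos ho hy hc.bot hc.lt
  have h4 := h.J_chord_pos ho hc'.top hc'.bot hc'.lt
  rw [hJ] at h4
  have h5 : 0 ≤ q (f y) - q' (f y) := by
    by_contra hcon
    push Not at hcon
    have := mul_neg_of_neg_of_pos hcon h3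
    linarith
  have h6 : q (f y) - q' (f y) ≤ 0 := by
    by_contra hcon
    push Not at hcon
    have := mul_pos hcon h4
    linarith
  have h7 : q (f y) - q' (f y) = 0 := le_antisymm h6 h5
  refine ⟨q, hq.norm_le, hqx, ?_⟩
  have h8 := hdiff (f (y + t • v) - f x')
  rw [h7, zero_mul, _root_.sub_apply] at h8
  linarith

end Parallel

end Crest.Agent.R074
end

-- ▼ part R074/AffLoc
section

/-!
Row 74 (S0099): a continuous function on a ball of a normed space which is affine along all lines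
whose direction is in a given nonempty open set is affine near the centre.
-/

set_option autoImplicit false

namespace Crest.Agent.R074

open Metric Set Filter Topology

section AffLoc

variable {X Y : Type*} [NormedAddCommGroup X] [NormedSpace ℝ X] [NormedAddCommGroup Y]
  [NormedSpace ℝ Y]

/-- second difference along two admissible directions vanishes -/
theorem affLoc_para {F : X → Y} {x₁ u₁ : X} {δ ε : ℝ}
    (hline : ∀ ξ ∈ ball x₁ δ, ∀ w ∈ ball u₁ ε, ∃ A : Y, ∀ τ : ℝ, ξ + τ • w ∈ ball x₁ δ →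
      F (ξ + τ • w) = F ξ + τ • A)
    {ξ w₁ w₂ : X} {s : ℝ} (hs : 0 < s) (hw₁ : w₁ ∈ ball u₁ ε) (hw₂ : w₂ ∈ ball u₁ ε)
    (hball : ∀ α β : ℝ, 0 ≤ α → α ≤ s → 0 ≤ β → β ≤ s → ξ + α • w₁ + β • w₂ ∈ ball x₁ δ) :
    F (ξ + s • w₁ + s • w₂) = F (ξ + s • w₁) + F (ξ + s • w₂) - F ξ := by
  have hξ : ξ ∈ ball x₁ δ := by
    have := hball 0 0 le_rfl hs.le le_rfl hs.le
    simpa using this
  have hξ2 : ξ + s • w₂ ∈ ball x₁ δ := by
    have := hball 0 s le_rfl hs.le hs.le le_rfl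
    simpa using this
  -- direction w₁ at ξ and at ξ + s w₂
  obtain ⟨A, hA⟩ := hline ξ hξ w₁ hw₁
  obtain ⟨A', hA'⟩ := hline (ξ + s • w₂) hξ2 w₁ hw₁
  have hg0 : ∀ α : ℝ, 0 ≤ α → α ≤ s → F (ξ + α • w₁) = F ξ + α • A := by
    intro α h0 h1
    apply hA
    have := hball α 0 h0 h1 le_rfl hs.le
    simpa using this
  have hg1 : ∀ α : ℝ, 0 ≤ α → α ≤ s → F (ξ + α • w₁ + s • w₂) = F (ξ + s • w₂) + α • A' := by
    intro α h0 h1
    have e : ξ + α • w₁ + s • w₂ = ξ + s • w₂ + α • w₁ := by abel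
    rw [e]
    apply hA'
    rw [← e]
    exact hball α s h0 h1 hs.le le_rfl
  -- direction w₂ at ξ + α w₁: the diagonal value
  have hdiag : ∀ α : ℝ, 0 ≤ α → α ≤ s → F (ξ + α • w₁ + α • w₂)
      = F ξ + α • A + (α / s) • (F (ξ + s • w₂) + α • A' - (F ξ + α • A)) := by
    intro α h0 h1
    have hm : ξ + α • w₁ ∈ ball x₁ δ := by
      have := hball α 0 h0 h1 le_rfl hs.le
      simpa using this
    obtain ⟨B, hB⟩ := hline _ hm w₂ hw₂
    have h2 := hB s (hball α s h0 h1 hs.le le_rfl)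
    have h3 := hB α (hball α α h0 h1 h0 h1)
    rw [hg1 α h0 h1, hg0 α h0 h1] at h2
    rw [h3, hg0 α h0 h1]
    have h4 : s • B = F (ξ + s • w₂) + α • A' - (F ξ + α • A) := by
      rw [h2]; abel
    rw [← h4, smul_smul, div_mul_cancel₀ α hs.ne']
  -- diagonal direction
  have hmid : (1 / 2 : ℝ) • (w₁ + w₂) ∈ ball u₁ ε := by
    rw [mem_ball, dist_eq_norm] at hw₁ hw₂ ⊢
    have e : (1 / 2 : ℝ) • (w₁ + w₂) - u₁ = (1 / 2 : ℝ) • (w₁ - u₁) + (1 / 2 : ℝ) • (w₂ - u₁) := by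
      rw [← smul_add, ← sub_eq_zero]
      have : w₁ - u₁ + (w₂ - u₁) = w₁ + w₂ - (2 : ℝ) • u₁ := by rw [two_smul]; abel
      rw [this, smul_sub, smul_smul]
      norm_num
    rw [e]
    refine (norm_add_le _ _).trans_lt ?_
    rw [norm_smul, norm_smul, Real.norm_of_nonneg (by norm_num)]
    linarith
  obtain ⟨C, hC⟩ := hline ξ hξ _ hmid
  have hdiag2 : ∀ α : ℝ, 0 ≤ α → α ≤ s → F (ξ + α • w₁ + α • w₂) = F ξ + (2 * α) • C := by
    intro α h0 h1
    have e : ξ + α • w₁ + α • w₂ = ξ + (2 * α) • ((1 / 2 : ℝ) • (w₁ + w₂)) := by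
      rw [smul_smul]
      have : 2 * α * (1 / 2) = α := by ring
      rw [this, smul_add]; abel
    rw [e]
    apply hC
    rw [← e]
    exact hball α α h0 h1 h0 h1
  -- compare at s and at s/2
  have h1 := (hdiag s hs.le le_rfl).symm.trans (hdiag2 s hs.le le_rfl)
  have h2 := (hdiag (s / 2) (by positivity) (by linarith)).symm.trans
    (hdiag2 (s / 2) (by positivity) (by linarith))
  rw [div_self hs.ne', one_smul] at h1
  have h3 : s / 2 / s = 1 / 2 := by field_simp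
  rw [h3] at h2
  -- the mixed term vanishes
  have h4 : s • (A' - A) = 0 := by
    have e1 : F ξ + s • A + (F (ξ + s • w₂) + s • A' - (F ξ + s • A)) - F ξ = (2 * s) • C := by
      rw [h1]; abel
    have e2 : (2 : ℝ) • (F ξ + (s / 2) • A + (1 / 2 : ℝ) • (F (ξ + s • w₂) + (s / 2) • A'
        - (F ξ + (s / 2) • A)) - F ξ) = (2 * s) • C := by
      rw [h2]
      have : F ξ + (2 * (s / 2)) • C - F ξ = s • C := by
        have h5 : 2 * (s / 2) = s := by ring
        rw [h5]; abel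
      rw [this, smul_smul]
    have e3 := e1.trans e2.symm
    have e4 : F ξ + s • A + (F (ξ + s • w₂) + s • A' - (F ξ + s • A)) - F ξ
        - (2 : ℝ) • (F ξ + (s / 2) • A + (1 / 2 : ℝ) • (F (ξ + s • w₂) + (s / 2) • A'
        - (F ξ + (s / 2) • A)) - F ξ) = (1 / 2 : ℝ) • (s • (A' - A)) := by
      module
    rw [e3, sub_self] at e4
    have := e4.symm
    rcases smul_eq_zero.mp this with h | h
    · norm_num at h
    · exact h
  have h5 : A' = A := by
    rcases smul_eq_zero.mp h4 with h | h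
    · exact absurd h hs.ne'
    · exact sub_eq_zero.mp h
  rw [hg1 s hs.le le_rfl, hg0 s hs.le le_rfl, h5]
  abel

/-- LEMMA AL. -/
theorem affLoc {F : X → Y} {x₁ u₁ : X} {δ ε : ℝ} (hδ : 0 < δ) (hε : 0 < ε)
    (hc : ContinuousAt F x₁)
    (hline : ∀ ξ ∈ ball x₁ δ, ∀ w ∈ ball u₁ ε, ∃ A : Y, ∀ τ : ℝ, ξ + τ • w ∈ ball x₁ δ →
      F (ξ + τ • w) = F ξ + τ • A) :
    ∃ T : X →L[ℝ] Y, ∃ r : ℝ, 0 < r ∧ r ≤ δ ∧ ∀ ξ, ‖ξ - x₁‖ < r → F ξ = F x₁ + T (ξ - x₁) := by
  set M : ℝ := ‖u₁‖ + ε with hM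
  have hM0 : 0 < M := by have := norm_nonneg u₁; linarith
  have hwM : ∀ w ∈ ball u₁ ε, ‖w‖ < M := by
    intro w hw
    rw [mem_ball, dist_eq_norm] at hw
    have e : w = (w - u₁) + u₁ := by abel
    have := norm_add_le (w - u₁) u₁
    rw [← e] at this
    linarith
  set s : ℝ := δ / (8 * M) with hs
  have hs0 : 0 < s := by positivity
  have hsM : s * M = δ / 8 := by rw [hs]; field_simp
  set r : ℝ := min (s * ε / 2) (δ / 8) with hr
  have hr0 : 0 < r := by positivity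
  have hr1 : r ≤ s * ε / 2 := min_le_left _ _
  have hr2 : r ≤ δ / 8 := min_le_right _ _
  have hu₁ : u₁ ∈ ball u₁ ε := mem_ball_self hε
  -- points needed are in the ball
  have hin : ∀ ξ w₁ w₂ : X, ‖ξ - x₁‖ < 2 * r → w₁ ∈ ball u₁ ε → w₂ ∈ ball u₁ ε → ∀ α β : ℝ,
      |α| ≤ s → |β| ≤ s → ξ + α • w₁ + β • w₂ ∈ ball x₁ δ := by
    intro ξ w₁ w₂ hξ hw₁ hw₂ α β hα hβ
    rw [mem_ball, dist_eq_norm]
    have e : ξ + α • w₁ + β • w₂ - x₁ = (ξ - x₁) + α • w₁ + β • w₂ := by abel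
    rw [e]
    have h1 := norm_add₃_le (a := ξ - x₁) (b := α • w₁) (c := β • w₂)
    rw [norm_smul, norm_smul, Real.norm_eq_abs, Real.norm_eq_abs] at h1
    have h2 : |α| * ‖w₁‖ ≤ s * M := mul_le_mul hα (hwM _ hw₁).le (norm_nonneg _) hs0.le
    have h3 : |β| * ‖w₂‖ ≤ s * M := mul_le_mul hβ (hwM _ hw₂).le (norm_nonneg _) hs0.le
    linarith
  have hin1 : ∀ ξ w₁ : X, ‖ξ - x₁‖ < 2 * r → w₁ ∈ ball u₁ ε → ∀ α : ℝ,
      |α| ≤ s → ξ + α • w₁ ∈ ball x₁ δ := by
    intro ξ w₁ hξ hw₁ α hα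
    have := hin ξ w₁ w₁ hξ hw₁ hw₁ α 0 hα (by rw [abs_zero]; exact hs0.le)
    simpa using this
  have hpara : ∀ ξ w₁ w₂ : X, ‖ξ - x₁‖ < 2 * r → w₁ ∈ ball u₁ ε → w₂ ∈ ball u₁ ε →
      F (ξ + s • w₁ + s • w₂) = F (ξ + s • w₁) + F (ξ + s • w₂) - F ξ := by
    intro ξ w₁ w₂ hξ hw₁ hw₂
    refine affLoc_para hline hs0 hw₁ hw₂ ?_
    intro α β h0 h1 h2 h3
    exact hin ξ w₁ w₂ hξ hw₁ hw₂ α β (by rw [abs_of_nonneg h0]; exact h1)
      (by rw [abs_of_nonneg h2]; exact h3)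
  have hx1 : ‖x₁ - x₁‖ < 2 * r := by rw [sub_self, norm_zero]; positivity
  -- the increment I w
  set I : X → Y := fun w => F (x₁ + s • w) - F x₁ with hI
  have hshift : ∀ h : X, ‖h‖ < r → ∀ w ∈ ball u₁ ε, F (x₁ + h + s • w) - F (x₁ + h) = I w := by
    intro h hh w hw
    set w₁ : X := u₁ + s⁻¹ • h with hw₁def
    have hw₁ : w₁ ∈ ball u₁ ε := by
      rw [mem_ball, dist_eq_norm, hw₁def, add_sub_cancel_left, norm_smul, norm_inv,
        Real.norm_of_nonneg hs0.le, inv_mul_lt_iff₀ hs0]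
      have : 0 < s * ε := mul_pos hs0 hε
      linarith
    have e : x₁ + s • w₁ = x₁ + h + s • u₁ := by
      rw [hw₁def, smul_add, smul_smul, mul_inv_cancel₀ hs0.ne', one_smul]; abel
    have h1 := hpara x₁ w₁ w hx1 hw₁ hw
    have h2 := hpara (x₁ + h) u₁ w (by rw [add_sub_cancel_left]; linarith) hu₁ hw
    rw [e] at h1
    rw [h1] at h2
    -- h2 : F (x₁ + h + s • u₁) + F (x₁ + s • w) - F x₁ = F (x₁+h+s•u₁) + F (x₁+h+s•w) - F (x₁+h)
    have h3 : F (x₁ + s • w) - F x₁ = F (x₁ + h + s • w) - F (x₁ + h) := by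
      have h4 : F (x₁ + h + s • u₁) + (F (x₁ + s • w) - F x₁)
          = F (x₁ + h + s • u₁) + (F (x₁ + h + s • w) - F (x₁ + h)) := by
        rw [← add_sub_assoc, ← add_sub_assoc]; exact h2
      exact add_left_cancel h4
    rw [hI]; exact h3.symm
  have hhom : ∀ h : X, ‖h‖ < r → ∀ w ∈ ball u₁ ε, ∀ τ : ℝ, 0 ≤ τ → τ ≤ 1 →
      F (x₁ + h + (τ * s) • w) = F (x₁ + h) + τ • I w := by
    intro h hh w hw τ h0 h1
    have hb : x₁ + h ∈ ball x₁ δ := by
      rw [mem_ball, dist_eq_norm, add_sub_cancel_left]; linarith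
    obtain ⟨A, hA⟩ := hline _ hb w hw
    have hh2 : ‖x₁ + h - x₁‖ < 2 * r := by rw [add_sub_cancel_left]; linarith
    have h2 := hA s (hin1 _ _ hh2 hw s (by rw [abs_of_pos hs0]))
    have h3 := hA (τ * s) (hin1 _ _ hh2 hw (τ * s) (by
      rw [abs_of_nonneg (by positivity)]; nlinarith))
    have h4 := hshift h hh w hw
    rw [h2, add_sub_cancel_left] at h4
    rw [h3, mul_smul, h4]
  -- D k
  set D : X → Y := fun k => I (u₁ + s⁻¹ • k) - I u₁ with hD
  have hDw : ∀ k : X, ‖k‖ < 2 * r → u₁ + s⁻¹ • k ∈ ball u₁ ε := by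
    intro k hk
    rw [mem_ball, dist_eq_norm, add_sub_cancel_left, norm_smul, norm_inv,
      Real.norm_of_nonneg hs0.le, inv_mul_lt_iff₀ hs0]
    linarith
  have hDk : ∀ h k : X, ‖h‖ < r → ‖k‖ < 2 * r → ∀ τ : ℝ, 0 ≤ τ → τ ≤ 1 → ‖h + τ • k‖ < r →
      F (x₁ + h + τ • k) = F (x₁ + h) + τ • D k := by
    intro h k hh hk τ h0 h1 hhk
    have h2 := hhom h hh _ (hDw k hk) τ h0 h1
    have h3 := hhom (h + τ • k) hhk u₁ hu₁ τ h0 h1
    have e : x₁ + h + (τ * s) • (u₁ + s⁻¹ • k) = x₁ + (h + τ • k) + (τ * s) • u₁ := by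
      rw [smul_add, smul_smul, mul_assoc, mul_inv_cancel₀ hs0.ne', mul_one]; abel
    rw [e, h3] at h2
    have h4 : F (x₁ + (h + τ • k)) = F (x₁ + h) + τ • I (u₁ + s⁻¹ • k) - τ • I u₁ := by
      rw [← h2]; abel
    rw [add_assoc x₁ h, h4, hD]
    simp only [smul_sub]
    abel
  have hD1 : ∀ h k : X, ‖h‖ < r → ‖k‖ < 2 * r → ‖h + k‖ < r →
      F (x₁ + h + k) = F (x₁ + h) + D k := by
    intro h k hh hk hhk
    have := hDk h k hh hk 1 zero_le_one le_rfl (by rwa [one_smul])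
    rwa [one_smul, one_smul] at this
  have hD0 : ∀ k : X, ‖k‖ < r → F (x₁ + k) = F x₁ + D k := by
    intro k hk
    have := hD1 0 k (by rw [norm_zero]; exact hr0) (by linarith) (by rwa [zero_add])
    rwa [add_zero] at this
  have hDhom : ∀ k : X, ‖k‖ < r → ∀ τ : ℝ, 0 ≤ τ → τ ≤ 1 → D (τ • k) = τ • D k := by
    intro k hk τ h0 h1
    have hτk : ‖τ • k‖ < r := by
      rw [norm_smul, Real.norm_of_nonneg h0]
      nlinarith [norm_nonneg k]
    have h2 := hDk 0 k (by rw [norm_zero]; exact hr0) (by linarith) τ h0 h1 (by rwa [zero_add])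
    rw [add_zero, hD0 _ hτk] at h2
    exact add_left_cancel h2
  have hDadd : ∀ h k : X, ‖h‖ < r → ‖k‖ < r → ‖h + k‖ < r → D (h + k) = D h + D k := by
    intro h k hh hk hhk
    have h1 := hD1 h k hh (by linarith) hhk
    rw [hD0 h hh, add_assoc x₁, hD0 (h + k) hhk, add_assoc] at h1
    exact add_left_cancel h1
  have hDneg : ∀ k : X, ‖k‖ < r → D (-k) = -D k := by
    intro k hk
    have h1 := hDadd k (-k) hk (by rwa [norm_neg]) (by rw [add_neg_cancel, norm_zero]; exact hr0)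
    have h2 : D 0 = 0 := by rw [hD]; simp
    rw [add_neg_cancel, h2] at h1
    exact (neg_eq_of_add_eq_zero_right h1.symm).symm
  -- global extension
  set c : X → ℝ := fun h => r / 2 / (1 + ‖h‖) with hc_def
  have hcpos : ∀ h, 0 < c h := fun h => by
    have := norm_nonneg h
    rw [hc_def]; positivity
  have hcs : ∀ (h : X) (a : ℝ), 0 < a → a ≤ c h → ‖a • h‖ < r := by
    intro h a ha hac
    rw [norm_smul, Real.norm_of_nonneg ha.le]
    have h1 : c h * (1 + ‖h‖) = r / 2 := by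
      rw [hc_def]
      have : 1 + ‖h‖ ≠ 0 := by have := norm_nonneg h; positivity
      field_simp
    have h2 := norm_nonneg h
    have h3 : a * ‖h‖ ≤ c h * ‖h‖ := mul_le_mul_of_nonneg_right hac h2
    have h4 := hcpos h
    nlinarith
  set T₀ : X → Y := fun h => (c h)⁻¹ • D (c h • h) with hT₀
  have hTc : ∀ (h : X) (a : ℝ), 0 < a → a ≤ c h → T₀ h = a⁻¹ • D (a • h) := by
    intro h a ha hac
    have h1 := hDhom (c h • h) (hcs h _ (hcpos h) le_rfl) (a / c h) (by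
      have := hcpos h; positivity) ((div_le_one (hcpos h)).mpr hac)
    rw [smul_smul, div_mul_cancel₀ a (hcpos h).ne'] at h1
    rw [h1, smul_smul]
    rw [hT₀]
    have h2 : a⁻¹ * (a / c h) = (c h)⁻¹ := by
      field_simp
    rw [h2]
  have hTadd : ∀ h k, T₀ (h + k) = T₀ h + T₀ k := by
    intro h k
    set a : ℝ := min (c h) (min (c k) (c (h + k))) with ha
    have ha0 : 0 < a := lt_min (hcpos _) (lt_min (hcpos _) (hcpos _))
    have h1 : a ≤ c h := min_le_left _ _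
    have h2 : a ≤ c k := (min_le_right _ _).trans (min_le_left _ _)
    have h3 : a ≤ c (h + k) := (min_le_right _ _).trans (min_le_right _ _)
    rw [hTc h a ha0 h1, hTc k a ha0 h2, hTc _ a ha0 h3, smul_add,
      hDadd _ _ (hcs h a ha0 h1) (hcs k a ha0 h2) (by rw [← smul_add]; exact hcs _ a ha0 h3),
      smul_add]
  have hTneg : ∀ h, T₀ (-h) = -T₀ h := by
    intro h
    have h1 : c (-h) = c h := by simp only [hc_def, norm_neg]
    rw [hTc (-h) (c h) (hcpos h) h1.ge, hTc h (c h) (hcpos h) le_rfl, smul_neg,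
      hDneg _ (hcs h _ (hcpos h) le_rfl), smul_neg]
  have hTsmul_pos : ∀ (b : ℝ) (h : X), 0 < b → T₀ (b • h) = b • T₀ h := by
    intro b h hb
    set a : ℝ := min (c (b • h)) (c h / b) with ha
    have ha0 : 0 < a := lt_min (hcpos _) (div_pos (hcpos _) hb)
    have h1 : a ≤ c (b • h) := min_le_left _ _
    have h2 : a * b ≤ c h := by
      have := min_le_right (c (b • h)) (c h / b)
      rw [← ha] at this
      rwa [le_div_iff₀ hb] at this
    rw [hTc _ a ha0 h1, hTc h (a * b) (mul_pos ha0 hb) h2, smul_smul, smul_smul]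
    congr 1
    field_simp
  have hTsmul : ∀ (b : ℝ) (h : X), T₀ (b • h) = b • T₀ h := by
    intro b h
    rcases lt_trichotomy b 0 with hb | hb | hb
    · have h1 := hTsmul_pos (-b) h (by linarith)
      have h2 : b • h = -((-b) • h) := by rw [neg_smul, neg_neg]
      rw [h2, hTneg, h1, neg_smul, neg_neg]
    · have h1 := hTadd 0 0
      rw [add_zero] at h1
      have h2 : T₀ 0 = 0 := by
        have := h1
        exact (left_eq_add.mp this)
      rw [hb, zero_smul, zero_smul, h2]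
    · exact hTsmul_pos b h hb
  have hTD : ∀ h : X, ‖h‖ < r → T₀ h = D h := by
    intro h hh
    set a : ℝ := min (c h) 1 with ha
    have ha0 : 0 < a := lt_min (hcpos _) one_pos
    rw [hTc h a ha0 (min_le_left _ _), hDhom h hh a ha0.le (min_le_right _ _), smul_smul,
      inv_mul_cancel₀ ha0.ne', one_smul]
  let T₁ : X →ₗ[ℝ] Y := { toFun := T₀, map_add' := hTadd, map_smul' := hTsmul }
  have hT₁0 : ContinuousAt T₁ 0 := by
    have h1 : ContinuousAt (fun h : X => F (x₁ + h) - F x₁) 0 := by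
      have h2 : ContinuousAt (fun h : X => F (x₁ + h)) 0 := by
        have h3 : ContinuousAt F (x₁ + 0) := by rwa [add_zero]
        exact ContinuousAt.comp (f := fun h : X => x₁ + h) h3 (by fun_prop)
      exact h2.sub continuousAt_const
    refine h1.congr ?_
    filter_upwards [ball_mem_nhds (0 : X) hr0] with h hh
    have hh' : ‖h‖ < r := by simpa using hh
    show F (x₁ + h) - F x₁ = T₀ h
    rw [hTD h hh', hD0 h hh', add_sub_cancel_left]
  have hT₁c : Continuous T₁ := continuous_of_continuousAt_zero T₁ hT₁0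
  refine ⟨⟨T₁, hT₁c⟩, r, hr0, by linarith, ?_⟩
  intro ξ hξ
  have e : ξ = x₁ + (ξ - x₁) := by abel
  show F ξ = F x₁ + T₀ (ξ - x₁)
  rw [hTD _ hξ]
  conv_lhs => rw [e]
  exact hD0 _ hξ

end AffLoc

end Crest.Agent.R074
end

-- ▼ part R074/MixedInitTwo
section

/-!
Row 74 (S0099), mixed case (C), initial step (ii): from a flat direction `v` at `y₀` which is not
tangent at `x₀`, `f` is affine near `y₀` with a surjective linear part which is norm preserving
near the direction of the chord `(y₀, x₀)`.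
-/

set_option autoImplicit false

namespace Crest.Agent.R074

open Metric Set Filter Topology

section FlatVector

variable {X Y : Type*} [NormedAddCommGroup X] [NormedSpace ℝ X] [NormedAddCommGroup Y]
  [NormedSpace ℝ Y] {f : X → Y} {g : Y → X}

/-- the local family of pairs of functionals given by the good set -/
def KK (f : X → Y) (ε : ℝ) (y : X) (r : ℝ) : Set ((X →L[ℝ] ℝ) × (Y →L[ℝ] ℝ)) :=
  {k | ∃ u ∈ GoodSet f ε, ‖u - y‖ < r ∧ k = (J u, J (f u))}

theorem SI.la_of_good (h : SI f g) {ε : ℝ} {y : X} (hy : ‖y‖ = 1) {r : ℝ} (hrε : r ≤ ε / 2)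
    (hG : ∀ s, ‖s‖ = 1 → ‖s - y‖ < r → s ∈ closure (GoodSet f ε)) :
    LA f g y r (KK f ε y r) where
  si := h
  hy := hy
  n1 := by
    rintro k ⟨u, -, -, rfl⟩
    exact J_norm_le _
  n2 := by
    rintro k ⟨u, -, -, rfl⟩
    exact J_norm_le _
  eq := by
    rintro k ⟨u, hu, hur, rfl⟩ x hx hxr
    show J (f u) (f x) = J u x
    apply hu.2.2.2 x hx
    have e : x - u = (x - y) - (u - y) := by abel
    rw [e]
    refine (norm_sub_le _ _).trans_lt ?_
    linarith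
  dense := by
    intro s hs hsr δ hδ
    have hmem := hG s hs hsr
    rw [Metric.mem_closure_iff] at hmem
    have hpos : 0 < min δ (r - ‖s - y‖) := lt_min hδ (by linarith)
    obtain ⟨u, hu, hsu⟩ := hmem _ hpos
    rw [dist_eq_norm] at hsu
    have h1 : ‖s - u‖ < δ := hsu.trans_le (min_le_left _ _)
    have h2 : ‖s - u‖ < r - ‖s - y‖ := hsu.trans_le (min_le_right _ _)
    refine ⟨(J u, J (f u)), ⟨u, hu, ?_, rfl⟩, ?_⟩
    · have e : u - y = (s - y) - (s - u) := by abel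
      rw [e]
      refine (norm_sub_le _ _).trans_lt ?_
      linarith
    · show 1 - δ < J u s
      have h3 := J_le u (u - s)
      rw [map_sub, J_self, hu.1, norm_sub_rev] at h3
      linarith

/-- PART 1: along a flat direction, `f` is a translation with one vector `l`. -/
theorem SI.exists_flat_vector (h : SI f g) {ε : ℝ} (hε : 0 < ε) {y v : X} (hy : ‖y‖ = 1)
    {r : ℝ} (hr : 0 < r) (hG : ∀ s, ‖s‖ = 1 → ‖s - y‖ < r → s ∈ closure (GoodSet f ε))
    (hv : VFlat v y) :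
    ∃ l : Y, ∃ ρ : ℝ, 0 < ρ ∧ ∀ s, ‖s‖ = 1 → ‖s - y‖ < ρ → ∀ t : ℝ, |t| < ρ →
      ‖s + t • v‖ = 1 ∧ f (s + t • v) = f s + t • l := by
  obtain ⟨ρ₀, hρ₀, hfl⟩ := hv
  set r₁ : ℝ := min (min r (ε / 2)) ρ₀ with hr₁
  have hr₁0 : 0 < r₁ := lt_min (lt_min hr (by positivity)) hρ₀
  have ha : r₁ ≤ r := (min_le_left _ _).trans (min_le_left _ _)
  have hb : r₁ ≤ ε / 2 := (min_le_left _ _).trans (min_le_right _ _)
  have hc : r₁ ≤ ρ₀ := min_le_right _ _
  have hLA := h.la_of_good hy hb (fun s hs hsr => hG s hs (hsr.trans_le ha))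
  have hmem : v ∈ kerX (KK f ε y r₁) := by
    rintro k ⟨u, hu, hur, rfl⟩
    show J u v = 0
    have h0 : |(0 : ℝ)| < ρ₀ := by rw [abs_zero]; exact hρ₀
    exact (smooth_flat hu.1 hu.2.1 hρ₀ (fun t ht => hfl u hu.1 (hur.trans_le hc) t ht) h0).1
  obtain ⟨L, hL⟩ := hLA.exists_L hr₁0
  have hvp : 0 < ‖v‖ + 1 := by positivity
  refine ⟨L ⟨v, hmem⟩, min (r₁ / 40) (r₁ / 10 / (‖v‖ + 1)), lt_min (by positivity) (by positivity),
    ?_⟩
  intro s hs hsr t ht
  have h1 : ‖s - y‖ < r₁ / 40 := hsr.trans_le (min_le_left _ _)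
  have h2 : |t| < r₁ / 10 / (‖v‖ + 1) := ht.trans_le (min_le_right _ _)
  have h3 : ‖(t • (⟨v, hmem⟩ : kerX (KK f ε y r₁)))‖ ≤ r₁ / 10 := by
    rw [norm_smul, Real.norm_eq_abs]
    have h4 : ‖(⟨v, hmem⟩ : kerX (KK f ε y r₁))‖ = ‖v‖ := rfl
    rw [h4]
    rw [lt_div_iff₀ hvp] at h2
    nlinarith [abs_nonneg t, norm_nonneg v]
  obtain ⟨h5, h6⟩ := hL s hs h1 _ h3
  refine ⟨h5, ?_⟩
  rw [map_smul] at h6
  exact h6

end FlatVector

section Ends

variable {X : Type*} [NormedAddCommGroup X] [NormedSpace ℝ X]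

/-- the bottom end of the chord of direction `u` with top end `y` -/
noncomputable def Eend (s₀ : ℝ) (y u : X) : X := top (-u) (y - s₀ • u)

theorem eend_uchord {s₀ : ℝ} (hs : 0 ≤ s₀) {y u : X} (hy : ‖y‖ = 1) (hu : ‖u‖ = 1)
    (hlt : ‖y - s₀ • u‖ < 1) : UChord u y (Eend s₀ y u) := by
  have h1 := uchord_top hu hlt
  have h2 : y = top u (y - s₀ • u) := eq_top hlt hy hs (by abel)
  rw [← h2] at h1
  exact h1

theorem eend_eq {s₀ : ℝ} {y x : X} (hx : ‖x‖ = 1) (hlt : ‖y - s₀ • nu (y - x)‖ < 1)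
    (hs : s₀ ≤ ‖y - x‖) (hne : y ≠ x) : Eend s₀ y (nu (y - x)) = x := by
  symm
  apply eq_top hlt hx (sub_nonneg.mpr hs)
  rw [smul_neg, sub_smul, tr_norm_smul_nu (sub_ne_zero.mpr hne)]
  abel

theorem continuousOn_eend (s₀ : ℝ) :
    ContinuousOn (fun q : X × X => Eend s₀ q.1 q.2) {q | ‖q.2‖ = 1 ∧ ‖q.1 - s₀ • q.2‖ < 1} := by
  have h1 : ContinuousOn (fun q : X × X => ((-q.2, q.1 - s₀ • q.2) : X × X))
      {q | ‖q.2‖ = 1 ∧ ‖q.1 - s₀ • q.2‖ < 1} := by fun_prop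
  exact (continuousOn_top (X := X)).comp h1 (fun q hq => ⟨by
    show ‖-q.2‖ = 1
    rw [norm_neg]; exact hq.1, hq.2⟩)

/-- numeric frame around a nondegenerate chord -/
theorem exists_frame {y₀ x₀ : X} (hlt : ‖y₀ + x₀‖ < 2) (hne : y₀ ≠ x₀) {ε : ℝ} (hε : 0 < ε) :
    ∃ δ : ℝ, 0 < δ ∧ ∀ y x : X, ‖y - y₀‖ < δ → ‖x - x₀‖ < δ →
      ‖nu (y - x) - nu (y₀ - x₀)‖ < ε ∧ ‖y + x‖ < 2 ∧ y ≠ x ∧ ‖y₀ - x₀‖ / 2 ≤ ‖y - x‖ := by
  have hne' : y₀ - x₀ ≠ 0 := sub_ne_zero.mpr hne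
  have hd : 0 < ‖y₀ - x₀‖ := norm_pos_iff.mpr hne'
  have hc := tr_continuousAt_nu hne'
  rw [Metric.continuousAt_iff] at hc
  obtain ⟨δ₁, hδ₁, h1⟩ := hc ε hε
  refine ⟨min (δ₁ / 2) (min (‖y₀ - x₀‖ / 4) ((2 - ‖y₀ + x₀‖) / 2)),
    lt_min (by positivity) (lt_min (by positivity) (by linarith)), ?_⟩
  intro y x hy hx
  have hy1 : ‖y - y₀‖ < δ₁ / 2 := hy.trans_le (min_le_left _ _)
  have hx1 : ‖x - x₀‖ < δ₁ / 2 := hx.trans_le (min_le_left _ _)
  have hy2 : ‖y - y₀‖ < ‖y₀ - x₀‖ / 4 := hy.trans_le ((min_le_right _ _).trans (min_le_left _ _))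
  have hx2 : ‖x - x₀‖ < ‖y₀ - x₀‖ / 4 := hx.trans_le ((min_le_right _ _).trans (min_le_left _ _))
  have hy3 : ‖y - y₀‖ < (2 - ‖y₀ + x₀‖) / 2 :=
    hy.trans_le ((min_le_right _ _).trans (min_le_right _ _))
  have hx3 : ‖x - x₀‖ < (2 - ‖y₀ + x₀‖) / 2 :=
    hx.trans_le ((min_le_right _ _).trans (min_le_right _ _))
  have h2 : ‖y - x - (y₀ - x₀)‖ ≤ ‖y - y₀‖ + ‖x - x₀‖ := by
    have e : y - x - (y₀ - x₀) = (y - y₀) - (x - x₀) := by abel
    rw [e]; exact norm_sub_le _ _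
  have h3 : ‖y₀ - x₀‖ / 2 < ‖y - x‖ := by
    have h4 : ‖y₀ - x₀‖ ≤ ‖y - x‖ + ‖y - x - (y₀ - x₀)‖ := by
      have e : y₀ - x₀ = (y - x) - (y - x - (y₀ - x₀)) := by abel
      conv_lhs => rw [e]
      exact norm_sub_le _ _
    linarith
  refine ⟨?_, ?_, ?_, h3.le⟩
  · have h4 := h1 (x := y - x) (by rw [dist_eq_norm]; linarith)
    rwa [dist_eq_norm] at h4
  · have e : y + x = (y₀ + x₀) + ((y - y₀) + (x - x₀)) := by abel
    rw [e]
    have h4 := norm_add_le (y₀ + x₀) ((y - y₀) + (x - x₀))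
    have h5 := norm_add_le (y - y₀) (x - x₀)
    linarith
  · rintro rfl
    rw [sub_self, norm_zero] at h3
    linarith

/-- the centre of the chord stays inside -/
theorem exists_frame' {y₀ x₀ : X} (hlt : ‖y₀ + x₀‖ < 2) (hne : y₀ ≠ x₀) :
    ∃ δ : ℝ, 0 < δ ∧ ∀ y u : X, ‖y - y₀‖ < δ → ‖u - nu (y₀ - x₀)‖ < δ →
      ‖y - (‖y₀ - x₀‖ / 2) • u‖ < 1 := by
  have hne' : y₀ - x₀ ≠ 0 := sub_ne_zero.mpr hne
  have hc : ContinuousAt (fun q : X × X => ‖q.1 - (‖y₀ - x₀‖ / 2) • q.2‖) (y₀, nu (y₀ - x₀)) := by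
    fun_prop
  have h0 : ‖y₀ - (‖y₀ - x₀‖ / 2) • nu (y₀ - x₀)‖ < 1 := by
    have e : (‖y₀ - x₀‖ / 2) • nu (y₀ - x₀) = (1 / 2 : ℝ) • (y₀ - x₀) := by
      have h1 : ‖y₀ - x₀‖ / 2 = (1 / 2) * ‖y₀ - x₀‖ := by ring
      rw [h1, mul_smul, tr_norm_smul_nu hne']
    have e2 : y₀ - (1 / 2 : ℝ) • (y₀ - x₀) = (1 / 2 : ℝ) • (y₀ + x₀) := by module
    rw [e, e2, norm_smul, Real.norm_of_nonneg (by norm_num)]
    linarith
  obtain ⟨δ, hδ, h1⟩ := Metric.eventually_nhds_iff.mp (hc.eventually_lt_const h0)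
  refine ⟨δ, hδ, fun y u hy hu => ?_⟩
  apply h1 (y := (y, u))
  rw [Prod.dist_eq, max_lt_iff, dist_eq_norm, dist_eq_norm]
  exact ⟨hy, hu⟩

end Ends

section ParallelDir

variable {X Y : Type*} [NormedAddCommGroup X] [NormedSpace ℝ X] [NormedAddCommGroup Y]
  [NormedSpace ℝ Y] {f : X → Y} {g : Y → X}

/-- LEMMA P: parallel chords over a flat have images of the same direction. -/
theorem SI.parallel_dir [TopologicalSpace.SeparableSpace X] [TopologicalSpace.SeparableSpace Y]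
    [CompleteSpace X] (h : SI f g) (ho : ∀ x, ‖x‖ = 1 → f (-x) = -f x)
    (hmf : ∀ x, ‖x‖ = 1 → Smooth x → MidAt f x) (hmg : ∀ y, ‖y‖ = 1 → Smooth y → MidAt g y)
    {y₀ x₀ v : X} {l : Y} (hlt : ‖y₀ + x₀‖ < 2)
    (hne : y₀ ≠ x₀) {ρ : ℝ} (hρ : 0 < ρ)
    (hflat : ∀ s, ‖s‖ = 1 → ‖s - y₀‖ < ρ → ∀ t : ℝ, |t| < ρ →
      ‖s + t • v‖ = 1 ∧ f (s + t • v) = f s + t • l)
    {ρ' : ℝ} (hρ' : 0 < ρ')
    (hexp : ∀ᶠ u : sphere (0 : X) 1 in residual (sphere (0 : X) 1),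
      ‖(u : X) - nu (y₀ - x₀)‖ < ρ' → Smooth (u : X) ∧ Expo (u : X)) :
    ∃ δ : ℝ, 0 < δ ∧ ∀ y x : X, ∀ t : ℝ, ‖y‖ = 1 → ‖x‖ = 1 → ‖y - y₀‖ < δ → ‖x - x₀‖ < δ →
      |t| < δ →
      nu (f (y + t • v) - f (Eend (‖y₀ - x₀‖ / 2) (y + t • v) (nu (y - x)))) =
        nu (f y - f x) := by
  obtain ⟨δ₁, hδ₁, hin⟩ := exists_frame' hlt hne
  obtain ⟨δ₂, hδ₂, hfr⟩ := exists_frame hlt hne (lt_min hδ₁ hρ')
  set s₀ : ℝ := ‖y₀ - x₀‖ / 2 with hs₀def
  have hs₀ : 0 ≤ s₀ := by positivity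
  have hvp : 0 < ‖v‖ + 1 := by positivity
  refine ⟨min (min δ₂ (ρ / 2)) (δ₁ / (‖v‖ + 1)), lt_min (lt_min hδ₂ (by positivity))
    (by positivity), ?_⟩
  intro y x t hy hx hyy hxx ht
  have hδle1 : min (min δ₂ (ρ / 2)) (δ₁ / (‖v‖ + 1)) ≤ δ₂ := (min_le_left _ _).trans (min_le_left _ _)
  have hδle2 : min (min δ₂ (ρ / 2)) (δ₁ / (‖v‖ + 1)) ≤ ρ / 2 :=
    (min_le_left _ _).trans (min_le_right _ _)
  have hδle3 : min (min δ₂ (ρ / 2)) (δ₁ / (‖v‖ + 1)) ≤ δ₁ / (‖v‖ + 1) := min_le_right _ _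
  set δ := min (min δ₂ (ρ / 2)) (δ₁ / (‖v‖ + 1)) with hδdef
  set S' : Set X := {y' | ‖y'‖ = 1 ∧ ‖y' - y₀‖ < δ} with hS'
  -- basic facts for points of `S'`
  have B1 : ∀ y' ∈ S', ‖y' + t • v‖ = 1 ∧ f (y' + t • v) = f y' + t • l := by
    intro y' hy'
    exact hflat y' hy'.1 (by linarith [hy'.2]) t (by linarith)
  have B2 : ∀ y' ∈ S', ‖nu (y' - x) - nu (y₀ - x₀)‖ < min δ₁ ρ' ∧ ‖y' + x‖ < 2 ∧ y' ≠ x ∧
      s₀ ≤ ‖y' - x‖ := by
    intro y' hy'
    exact hfr y' x (hy'.2.trans_le hδle1) (hxx.trans_le hδle1)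
  have B3 : ∀ y' ∈ S', ‖nu (y' - x)‖ = 1 := fun y' hy' => norm_nu (sub_ne_zero.mpr (B2 y' hy').2.2.1)
  have B4 : ∀ y' ∈ S', ‖y' + t • v - s₀ • nu (y' - x)‖ < 1 := by
    intro y' hy'
    apply hin
    · have e : y' + t • v - y₀ = (y' - y₀) + t • v := by abel
      rw [e]
      refine (norm_add_le _ _).trans_lt ?_
      rw [norm_smul, Real.norm_eq_abs]
      have h1 : δ * (‖v‖ + 1) ≤ δ₁ := by rwa [le_div_iff₀ hvp] at hδle3
      have h2 := hy'.2
      have h3 : |t| * ‖v‖ ≤ δ * ‖v‖ := mul_le_mul_of_nonneg_right ht.le (norm_nonneg _)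
      linarith
    · exact (B2 y' hy').1.trans_le (min_le_left _ _)
  have B5 : ∀ y' ∈ S', UChord (nu (y' - x)) (y' + t • v) (Eend s₀ (y' + t • v) (nu (y' - x))) := by
    intro y' hy'
    exact eend_uchord hs₀ (B1 y' hy').1 (B3 y' hy') (B4 y' hy')
  -- continuity
  have hfc := h.continuousOn
  have cU : ContinuousOn (fun y' : X => nu (y' - x)) S' := by
    intro y' hy'
    have h2 : ContinuousAt (fun y : X => nu (y - x)) y' :=
      ContinuousAt.comp (g := (nu : X → X)) (f := fun y : X => y - x)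
        (tr_continuousAt_nu (sub_ne_zero.mpr (B2 y' hy').2.2.1)) (by fun_prop)
    exact h2.continuousWithinAt
  have cA : ContinuousOn (fun y' : X => f (y' + t • v)) S' := by
    refine hfc.comp (f := fun y' : X => y' + t • v) (by fun_prop) ?_
    intro y' hy'
    show y' + t • v ∈ sphere (0 : X) 1
    simpa using (B1 y' hy').1
  have cE : ContinuousOn (fun y' : X => Eend s₀ (y' + t • v) (nu (y' - x))) S' := by
    have h1 : ContinuousOn (fun y' : X => ((y' + t • v, nu (y' - x)) : X × X)) S' :=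
      ContinuousOn.prodMk (by fun_prop) cU
    exact (continuousOn_eend s₀).comp h1 (fun y' hy' => ⟨B3 y' hy', B4 y' hy'⟩)
  have cfE : ContinuousOn (fun y' : X => f (Eend s₀ (y' + t • v) (nu (y' - x)))) S' := by
    refine hfc.comp cE ?_
    intro y' hy'
    show Eend s₀ (y' + t • v) (nu (y' - x)) ∈ sphere (0 : X) 1
    simpa using (B5 y' hy').2.1
  have cP : ContinuousOn (fun y' : X =>
      nu (f (y' + t • v) - f (Eend s₀ (y' + t • v) (nu (y' - x))))) S' := by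
    intro y' hy'
    have h1 := (cA.sub cfE) y' hy'
    have h2 : f (y' + t • v) - f (Eend s₀ (y' + t • v) (nu (y' - x))) ≠ 0 := by
      intro h0
      exact (B5 y' hy').ne (h.inj (B1 y' hy').1 (B5 y' hy').2.1 (sub_eq_zero.mp h0))
    exact ContinuousAt.comp_continuousWithinAt (g := (nu : Y → Y))
      (f := fun y' : X => f (y' + t • v) - f (Eend s₀ (y' + t • v) (nu (y' - x))))
      (tr_continuousAt_nu h2) h1
  have cQ : ContinuousOn (fun y' : X => nu (f y' - f x)) S' := by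
    intro y' hy'
    have h0 : ContinuousOn (fun y' : X => f y' - f x) S' := by
      refine ContinuousOn.sub (hfc.mono ?_) continuousOn_const
      intro y' hy'
      simpa using hy'.1
    have h2 : f y' - f x ≠ 0 := by
      intro h0
      exact (B2 y' hy').2.2.1 (h.inj hy'.1 hx (sub_eq_zero.mp h0))
    exact ContinuousAt.comp_continuousWithinAt (g := (nu : Y → Y))
      (f := fun y' : X => f y' - f x) (tr_continuousAt_nu h2) (h0 y' hy')
  have hyS : y ∈ S' := ⟨hy, hyy⟩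
  by_contra hcon
  have hne2 : nu (f (y + t • v) - f (Eend s₀ (y + t • v) (nu (y - x)))) - nu (f y - f x) ≠ 0 :=
    sub_ne_zero.mpr hcon
  have hev := ((cP.sub cQ) y hyS).eventually_ne hne2
  rw [eventually_nhdsWithin_iff, Metric.eventually_nhds_iff] at hev
  obtain ⟨ε', hε', hev⟩ := hev
  obtain ⟨-, hyx2, hyx3, -⟩ := B2 y hyS
  obtain ⟨y', hy', hy'y, hlt', hne', hsy', hsfy', hR⟩ := h.exists_gen
    (R := {u | ‖u - nu (y₀ - x₀)‖ < ρ' → Smooth u ∧ Expo u}) hexp hx hy hyx2 hyx3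
    (ε := min ε' (δ - ‖y - y₀‖)) (lt_min hε' (by linarith))
  have hy'S : y' ∈ S' := by
    refine ⟨hy', ?_⟩
    have e : y' - y₀ = (y' - y) + (y - y₀) := by abel
    rw [e]
    have h1 : ‖y' - y‖ < δ - ‖y - y₀‖ := hy'y.trans_le (min_le_right _ _)
    have := norm_add_le (y' - y) (y - y₀)
    linarith
  apply hev (y := y') (by rw [dist_eq_norm]; exact hy'y.trans_le (min_le_left _ _)) hy'S
  show nu (f (y' + t • v) - f (Eend s₀ (y' + t • v) (nu (y' - x)))) - nu (f y' - f x) = 0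
  rw [sub_eq_zero]
  -- the generic point
  obtain ⟨hsu, heu⟩ := hR ((B2 y' hy'S).1.trans_le (min_le_right _ _))
  have hd0 : y' - x ≠ 0 := sub_ne_zero.mpr hne'
  have hdpos : 0 < ‖y' - x‖ := norm_pos_iff.mpr hd0
  have hu1 := B3 y' hy'S
  set u := nu (y' - x) with hu
  have hxu : y' - x = ‖y' - x‖ • u := (tr_norm_smul_nu hd0).symm
  have hsd : Smooth (y' - x) := by
    rw [hxu]; exact hsu.smul hdpos
  have hJd : J (y' - x) = J u := by
    rw [hxu]; exact hsu.J_smul hdpos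
  have hJuu : J u u = 1 := by rw [J_self, hu1]
  have hc1 : Chord (J u) y' x := by
    refine ⟨hy', hx, ?_, hlt'⟩
    rw [hxu, map_smul, hJuu, norm_smul, hu1, norm_norm, smul_eq_mul]
  obtain ⟨c1, c2, c3, r, hr, c4⟩ := B5 y' hy'S
  have hc2 : Chord (J u) (y' + t • v) (Eend s₀ (y' + t • v) u) := by
    refine ⟨c1, c2, ?_, c3⟩
    rw [c4, map_smul, hJuu, norm_smul, hu1, Real.norm_of_nonneg hr.le, smul_eq_mul]
  obtain ⟨q, hq, hq1, hq2⟩ := h.parallel_functional ho (J_norm_le u) (hmg _ (h.map _ hy') hsfy')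
    hsfy' hc1 (show 0 < ρ / 2 by positivity)
    (fun s hs hsy t' ht' => hflat s hs (by
      have e : s - y₀ = (s - y') + (y' - y₀) := by abel
      rw [e]
      refine (norm_add_le _ _).trans_lt ?_
      have := hy'S.2
      linarith) t' (by linarith)) (t := t) (by linarith) hc2
  have htr := h.exposed_transfer ho hmf hy' hx hlt' hne' hsy' hsd (by
    intro c hc hJc
    rw [hJd] at hJc
    rw [← hu]
    exact heu c hc hJc) hq hq1
  have hn2 : ‖f (y' + t • v) - f (Eend s₀ (y' + t • v) u)‖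
      = ‖y' + t • v - Eend s₀ (y' + t • v) u‖ := h.dist _ _ c1 c2
  have hpos2 : 0 < ‖y' + t • v - Eend s₀ (y' + t • v) u‖ := by
    rw [c4, norm_smul, hu1, Real.norm_of_nonneg hr.le, mul_one]; exact hr
  apply htr
  · apply norm_nu
    rw [← norm_pos_iff, hn2]; exact hpos2
  · rw [nu, map_smul, hq2, hn2, smul_eq_mul, inv_mul_cancel₀ hpos2.ne']

end ParallelDir

section Cover

variable {X : Type*} [NormedAddCommGroup X] [NormedSpace ℝ X]

/-- covering of a ball around `x₀` by the `v`-translates of the sphere, positive case -/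
theorem exists_cover_pos {x₀ v : X} (hx₀ : ‖x₀‖ = 1) (hs : Smooth x₀) (hJ : 0 < J x₀ v) {η : ℝ}
    (hη : 0 < η) : ∃ δ : ℝ, 0 < δ ∧ ∀ ξ : X, ‖ξ - x₀‖ < δ →
      ∃ (x : X) (t : ℝ), ‖x‖ = 1 ∧ ‖x - x₀‖ < η ∧ |t| < η ∧ ξ = x + t • v := by
  obtain ⟨δ, hδ, hd⟩ := hs.deriv v (half_pos hJ)
  have hvp : 0 < ‖v‖ + 1 := by positivity
  set η₁ : ℝ := min δ (min (η / 2) (η / 2 / (‖v‖ + 1))) with hη₁
  have hη₁0 : 0 < η₁ := lt_min hδ (lt_min (by positivity) (by positivity))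
  have ha : η₁ ≤ δ := min_le_left _ _
  have hb : η₁ ≤ η / 2 := (min_le_right _ _).trans (min_le_left _ _)
  have hc : η₁ ≤ η / 2 / (‖v‖ + 1) := (min_le_right _ _).trans (min_le_right _ _)
  have hc' : η₁ * (‖v‖ + 1) ≤ η / 2 := by rwa [le_div_iff₀ hvp] at hc
  have h1 := hd (-η₁) (by rw [abs_neg, abs_of_pos hη₁0]; exact ha)
  rw [abs_neg, abs_of_pos hη₁0, hx₀] at h1
  have h2 := J_le x₀ (x₀ + η₁ • v)
  rw [map_add, map_smul, J_self, hx₀, smul_eq_mul] at h2
  have hpos : 0 < η₁ * J x₀ v := mul_pos hη₁0 hJ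
  refine ⟨min (η₁ * J x₀ v / 2) (η / 2), lt_min (by positivity) (by positivity), ?_⟩
  intro ξ hξ
  have hξ1 : ‖ξ - x₀‖ < η₁ * J x₀ v / 2 := hξ.trans_le (min_le_left _ _)
  have hξ2 : ‖ξ - x₀‖ < η / 2 := hξ.trans_le (min_le_right _ _)
  have h3 : ‖ξ + (-η₁) • v‖ ≤ 1 := by
    have e : ξ + (-η₁) • v = (x₀ + (-η₁) • v) + (ξ - x₀) := by abel
    rw [e]
    have := norm_add_le (x₀ + (-η₁) • v) (ξ - x₀)
    nlinarith
  have h4 : 1 ≤ ‖ξ + η₁ • v‖ := by
    have e : x₀ + η₁ • v = (ξ + η₁ • v) - (ξ - x₀) := by abel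
    have := norm_sub_le (ξ + η₁ • v) (ξ - x₀)
    rw [← e] at this
    nlinarith
  have hcont : ContinuousOn (fun t : ℝ => ‖ξ + t • v‖) (Icc (-η₁) η₁) := by fun_prop
  obtain ⟨t, ht, hte⟩ := intermediate_value_Icc (show -η₁ ≤ η₁ by linarith) hcont
    (show (1 : ℝ) ∈ Icc (‖ξ + (-η₁) • v‖) (‖ξ + η₁ • v‖) from ⟨h3, h4⟩)
  have htabs : |t| ≤ η₁ := abs_le.mpr ⟨ht.1, ht.2⟩
  refine ⟨ξ + t • v, -t, hte, ?_, ?_, ?_⟩
  · have e : ξ + t • v - x₀ = (ξ - x₀) + t • v := by abel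
    rw [e]
    refine (norm_add_le _ _).trans_lt ?_
    rw [norm_smul, Real.norm_eq_abs]
    have := mul_le_mul_of_nonneg_right htabs (norm_nonneg v)
    nlinarith
  · rw [abs_neg]; linarith
  · rw [neg_smul]; abel

theorem exists_cover {x₀ v : X} (hx₀ : ‖x₀‖ = 1) (hs : Smooth x₀) (hJ : J x₀ v ≠ 0) {η : ℝ}
    (hη : 0 < η) : ∃ δ : ℝ, 0 < δ ∧ ∀ ξ : X, ‖ξ - x₀‖ < δ →
      ∃ (x : X) (t : ℝ), ‖x‖ = 1 ∧ ‖x - x₀‖ < η ∧ |t| < η ∧ ξ = x + t • v := by
  rcases lt_or_gt_of_ne hJ with hJ' | hJ'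
  · obtain ⟨δ, hδ, hd⟩ := exists_cover_pos (v := -v) hx₀ hs (by rw [map_neg]; linarith) hη
    refine ⟨δ, hδ, fun ξ hξ => ?_⟩
    obtain ⟨x, t, h1, h2, h3, h4⟩ := hd ξ hξ
    exact ⟨x, -t, h1, h2, by rwa [abs_neg], by rw [h4, smul_neg, neg_smul]⟩
  · exact exists_cover_pos hx₀ hs hJ' hη

/-- the top end of the chord of direction `nu w` through a point `ξ` near `x₀` -/
theorem exists_topend {y₀ x₀ : X} (hy₀ : ‖y₀‖ = 1) (hlt : ‖y₀ + x₀‖ < 2) (hne : y₀ ≠ x₀) {ε : ℝ}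
    (hε : 0 < ε) : ∃ δ : ℝ, 0 < δ ∧ ∀ ξ w : X, ‖ξ - x₀‖ < δ → ‖w - nu (y₀ - x₀)‖ < δ →
      w ≠ 0 ∧ ‖nu w‖ = 1 ∧ ∃ y : X, ‖y‖ = 1 ∧ ‖y - y₀‖ < ε ∧ ∃ c : ℝ, ‖y₀ - x₀‖ / 2 ≤ c ∧
        y - ξ = c • nu w := by
  have hne' : y₀ - x₀ ≠ 0 := sub_ne_zero.mpr hne
  have hd : 0 < ‖y₀ - x₀‖ := norm_pos_iff.mpr hne'
  set u₀ := nu (y₀ - x₀) with hu₀
  have hu₀n : ‖u₀‖ = 1 := norm_nu hne'
  have hu₀0 : u₀ ≠ 0 := by
    intro h0; rw [h0, norm_zero] at hu₀n; norm_num at hu₀n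
  set s₀ : ℝ := ‖y₀ - x₀‖ / 2 with hs₀
  have hs₀0 : 0 < s₀ := by positivity
  have hsu : s₀ • u₀ = (1 / 2 : ℝ) • (y₀ - x₀) := by
    have h1 : s₀ = (1 / 2) * ‖y₀ - x₀‖ := by rw [hs₀]; ring
    rw [h1, mul_smul, hu₀, tr_norm_smul_nu hne']
  have hm : ‖x₀ + s₀ • u₀‖ < 1 := by
    have e2 : x₀ + (1 / 2 : ℝ) • (y₀ - x₀) = (1 / 2 : ℝ) • (y₀ + x₀) := by module
    rw [hsu, e2, norm_smul, Real.norm_of_nonneg (by norm_num)]
    linarith
  have htop : y₀ = top u₀ (x₀ + s₀ • u₀) := by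
    apply eq_top hm hy₀ hs₀0.le
    rw [add_assoc, hsu]; module
  have hcnu : ContinuousAt (nu : X → X) u₀ := tr_continuousAt_nu hu₀0
  have hnu0 : nu u₀ = u₀ := nu_of_norm_one hu₀n
  -- continuity of the top end
  have hct : ContinuousWithinAt (fun q : X × X => top q.1 q.2) {q | ‖q.1‖ = 1 ∧ ‖q.2‖ < 1}
      (u₀, x₀ + s₀ • u₀) := (continuousOn_top (X := X)) _ ⟨hu₀n, hm⟩
  have hcq : ContinuousAt (fun q : X × X => ((nu q.2, q.1 + s₀ • nu q.2) : X × X)) (x₀, u₀) := by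
    have h1 : ContinuousAt (fun q : X × X => nu q.2) (x₀, u₀) :=
      ContinuousAt.comp (g := (nu : X → X)) (f := fun q : X × X => q.2) hcnu continuousAt_snd
    exact h1.prodMk (continuousAt_fst.add (h1.const_smul s₀))
  have hin : ∀ᶠ q : X × X in 𝓝 (x₀, u₀), ‖q.1 + s₀ • nu q.2‖ < 1 := by
    have h1 : ContinuousAt (fun q : X × X => ‖q.1 + s₀ • nu q.2‖) (x₀, u₀) :=
      (ContinuousAt.comp (g := fun p : X × X => ‖p.2‖)
        (f := fun q : X × X => ((nu q.2, q.1 + s₀ • nu q.2) : X × X)) (by fun_prop) hcq)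
    apply h1.eventually_lt_const
    show ‖x₀ + s₀ • nu u₀‖ < 1
    rw [hnu0]; exact hm
  have hw0 : ∀ᶠ q : X × X in 𝓝 (x₀, u₀), q.2 ≠ 0 := by
    have h1 : ContinuousAt (fun q : X × X => q.2) (x₀, u₀) := continuousAt_snd
    exact h1.eventually_ne hu₀0
  have hnear : ∀ᶠ q : X × X in 𝓝 (x₀, u₀), ‖nu q.2‖ = 1 → ‖q.1 + s₀ • nu q.2‖ < 1 →
      ‖top (nu q.2) (q.1 + s₀ • nu q.2) - y₀‖ < ε := by
    rw [Metric.continuousWithinAt_iff] at hct
    obtain ⟨δ, hδ, h1⟩ := hct ε hε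
    rw [Metric.continuousAt_iff] at hcq
    obtain ⟨δ', hδ', h2⟩ := hcq δ hδ
    rw [Metric.eventually_nhds_iff]
    refine ⟨δ', hδ', ?_⟩
    intro q hq hq1 hq2
    have h3 := h2 hq
    simp only [hnu0] at h3
    have h4 := h1 (x := (nu q.2, q.1 + s₀ • nu q.2)) ⟨hq1, hq2⟩ h3
    rw [dist_eq_norm] at h4
    simp only [← htop] at h4
    exact h4
  obtain ⟨δ, hδ, hall⟩ := Metric.eventually_nhds_iff.mp ((hin.and hw0).and hnear)
  refine ⟨δ, hδ, ?_⟩
  intro ξ w hξ hw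
  have hq : dist ((ξ, w) : X × X) (x₀, u₀) < δ := by
    rw [Prod.dist_eq, max_lt_iff, dist_eq_norm, dist_eq_norm]
    exact ⟨hξ, hw⟩
  obtain ⟨⟨h1, h2⟩, h3⟩ := hall hq
  have h1' : ‖ξ + s₀ • nu w‖ < 1 := h1
  have h2' : w ≠ 0 := h2
  have hwn : ‖nu w‖ = 1 := norm_nu h2'
  have h3' : ‖top (nu w) (ξ + s₀ • nu w) - y₀‖ < ε := h3 hwn h1'
  refine ⟨h2', hwn, top (nu w) (ξ + s₀ • nu w), norm_top hwn h1', h3',
    s₀ + tau (nu w) (ξ + s₀ • nu w), ?_, ?_⟩
  · linarith [tau_pos hwn h1']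
  · unfold top
    rw [add_smul]; abel

end Cover

section InitTwo

variable {X Y : Type*} [NormedAddCommGroup X] [NormedSpace ℝ X] [NormedAddCommGroup Y]
  [NormedSpace ℝ Y] {f : X → Y} {g : Y → X}

/-- the difference identity `f y - f x = T (y - x)` near `(y₀, x₀)` -/
theorem SI.init_two_aux [TopologicalSpace.SeparableSpace X] [TopologicalSpace.SeparableSpace Y]
    [CompleteSpace X] (h : SI f g) (ho : ∀ x, ‖x‖ = 1 → f (-x) = -f x)
    (hmf : ∀ x, ‖x‖ = 1 → Smooth x → MidAt f x) (hmg : ∀ y, ‖y‖ = 1 → Smooth y → MidAt g y)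
    {y₀ x₀ v : X} {l : Y} (hy₀ : ‖y₀‖ = 1) (hx₀ : ‖x₀‖ = 1) (hlt : ‖y₀ + x₀‖ < 2)
    (hne : y₀ ≠ x₀) (hsx₀ : Smooth x₀) (hJ : J x₀ v ≠ 0) {ρ : ℝ} (hρ : 0 < ρ)
    (hflat : ∀ s, ‖s‖ = 1 → ‖s - y₀‖ < ρ → ∀ t : ℝ, |t| < ρ →
      ‖s + t • v‖ = 1 ∧ f (s + t • v) = f s + t • l)
    {ρ' : ℝ} (hρ' : 0 < ρ')
    (hexp : ∀ᶠ u : sphere (0 : X) 1 in residual (sphere (0 : X) 1),
      ‖(u : X) - nu (y₀ - x₀)‖ < ρ' → Smooth (u : X) ∧ Expo (u : X)) :
    ∃ T : X →L[ℝ] Y, ∃ δ : ℝ, 0 < δ ∧ ∀ y x : X, ‖y‖ = 1 → ‖x‖ = 1 → ‖y - y₀‖ < δ →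
      ‖x - x₀‖ < δ → f y - f x = T (y - x) := by
  obtain ⟨δP, hδP, hP⟩ := h.parallel_dir ho hmf hmg hlt hne hρ hflat hρ' hexp
  set s₀ : ℝ := ‖y₀ - x₀‖ / 2 with hs₀def
  have hd : 0 < ‖y₀ - x₀‖ := norm_pos_iff.mpr (sub_ne_zero.mpr hne)
  have hs₀ : 0 < s₀ := by positivity
  have hvp : 0 < ‖v‖ + 1 := by positivity
  obtain ⟨δ₁, hδ₁, hin⟩ := exists_frame' hlt hne
  obtain ⟨δ₂, hδ₂, hfr⟩ := exists_frame hlt hne hδ₁
  -- the local map
  set F : X → X → Y := fun y ξ => f y - ‖y - ξ‖ • nu (f y - f (Eend s₀ y (nu (y - ξ)))) with hF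
  -- formula
  set δA : ℝ := min δP δ₂ with hδA
  have hδA0 : 0 < δA := lt_min hδP hδ₂
  set δF : ℝ := min (min (δA / (‖v‖ + 1) / 2) ρ) δA with hδF
  have hδF0 : 0 < δF := lt_min (lt_min (by positivity) hρ) hδA0
  have a1 : δF ≤ δA / (‖v‖ + 1) / 2 := (min_le_left _ _).trans (min_le_left _ _)
  have a2 : δF ≤ ρ := (min_le_left _ _).trans (min_le_right _ _)
  have a3 : δF ≤ δA := min_le_right _ _
  have a3P : δA ≤ δP := min_le_left _ _
  have a32 : δA ≤ δ₂ := min_le_right _ _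
  have a4 : δF * (‖v‖ + 1) ≤ δA / 2 := by
    have : δA / (‖v‖ + 1) / 2 = δA / 2 / (‖v‖ + 1) := by ring
    rwa [this, le_div_iff₀ hvp] at a1
  have hFF : ∀ (y x : X) (t : ℝ), ‖y‖ = 1 → ‖x‖ = 1 → ‖y - y₀‖ < δF → ‖x - x₀‖ < δF → |t| < δF →
      F y (x + t • v) = f x + t • l := by
    intro y x t hy hx hyy hxx ht
    obtain ⟨b1, b2⟩ := hflat y hy (hyy.trans_le a2) (-t) (by rw [abs_neg]; linarith)
    set s : X := y + (-t) • v with hs
    have hsy : ‖s - y₀‖ < δA := by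
      have e : s - y₀ = (y - y₀) + (-t) • v := by rw [hs]; abel
      rw [e]
      refine (norm_add_le _ _).trans_lt ?_
      rw [norm_smul, Real.norm_eq_abs, abs_neg]
      have := mul_le_mul_of_nonneg_right ht.le (norm_nonneg v)
      nlinarith
    have h1 := hP s x t b1 hx (by linarith) (by linarith) (by linarith)
    have e1 : s + t • v = y := by rw [hs, neg_smul]; abel
    have e2 : y - (x + t • v) = s - x := by rw [hs, neg_smul]; abel
    rw [e1] at h1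
    show f y - ‖y - (x + t • v)‖ • nu (f y - f (Eend s₀ y (nu (y - (x + t • v))))) = f x + t • l
    have hsx : s ≠ x := (hfr s x (by linarith) (by linarith)).2.2.1
    rw [e2, h1]
    have h2 : ‖s - x‖ = ‖f s - f x‖ := (h.dist s x b1 hx).symm
    have h3 : f s - f x ≠ 0 := by
      intro h0
      exact hsx (h.inj b1 hx (sub_eq_zero.mp h0))
    rw [h2, tr_norm_smul_nu h3, b2, neg_smul]
    abel
  -- covering
  obtain ⟨δC, hδC, hC⟩ := exists_cover hx₀ hsx₀ hJ hδF0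
  have hx₀₀ : ‖x₀ - x₀‖ < δF := by rw [sub_self, norm_zero]; exact hδF0
  have hy₀₀ : ‖y₀ - y₀‖ < δF := by rw [sub_self, norm_zero]; exact hδF0
  -- independence of `y`
  have hind : ∀ y ξ : X, ‖y‖ = 1 → ‖y - y₀‖ < δF → ‖ξ - x₀‖ < δC → F y ξ = F y₀ ξ := by
    intro y ξ hy hyy hξ
    obtain ⟨x, t, h1, h2, h3, rfl⟩ := hC ξ hξ
    rw [hFF y x t hy h1 hyy h2 h3, hFF y₀ x t hy₀ h1 hy₀₀ h2 h3]
  have hval : ∀ x : X, ‖x‖ = 1 → ‖x - x₀‖ < δF → F y₀ x = f x := by
    intro x hx hxx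
    have := hFF y₀ x 0 hy₀ hx hy₀₀ hxx (by rw [abs_zero]; exact hδF0)
    simpa using this
  -- continuity at `x₀`
  have hcont : ContinuousAt (F y₀) x₀ := by
    rw [Metric.continuousAt_iff]
    intro e he
    have hlp : 0 < ‖l‖ + 1 := by positivity
    obtain ⟨δ', hδ', hC'⟩ := exists_cover hx₀ hsx₀ hJ (η := min δF (e / (2 * (‖l‖ + 1))))
      (lt_min hδF0 (by positivity))
    refine ⟨δ', hδ', ?_⟩
    intro ξ hξ
    rw [dist_eq_norm] at hξ
    obtain ⟨x, t, h1, h2, h3, rfl⟩ := hC' ξ hξ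
    rw [hFF y₀ x t hy₀ h1 hy₀₀ (h2.trans_le (min_le_left _ _)) (h3.trans_le (min_le_left _ _)),
      hval x₀ hx₀ hx₀₀, dist_eq_norm]
    have e1 : f x + t • l - f x₀ = (f x - f x₀) + t • l := by abel
    rw [e1]
    refine (norm_add_le _ _).trans_lt ?_
    rw [norm_smul, h.dist x x₀ h1 hx₀, Real.norm_eq_abs]
    have h4 : ‖x - x₀‖ < e / (2 * (‖l‖ + 1)) := h2.trans_le (min_le_right _ _)
    have h5 : |t| < e / (2 * (‖l‖ + 1)) := h3.trans_le (min_le_right _ _)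
    have h6 : e / (2 * (‖l‖ + 1)) * (‖l‖ + 1) = e / 2 := by field_simp
    have h7 : |t| * ‖l‖ ≤ e / (2 * (‖l‖ + 1)) * ‖l‖ :=
      mul_le_mul_of_nonneg_right h5.le (norm_nonneg _)
    have h8 : 0 < e / (2 * (‖l‖ + 1)) := by positivity
    nlinarith
  -- affine along lines
  obtain ⟨δE, hδE, hE⟩ := exists_topend hy₀ hlt hne hδF0
  set δL : ℝ := min (min δE δC) (s₀ / 2) with hδL
  have hδL0 : 0 < δL := lt_min (lt_min hδE hδC) (by positivity)
  have c1 : δL ≤ δE := (min_le_left _ _).trans (min_le_left _ _)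
  have c2 : δL ≤ δC := (min_le_left _ _).trans (min_le_right _ _)
  have c3 : δL ≤ s₀ / 2 := min_le_right _ _
  have hline : ∀ ξ ∈ ball x₀ δL, ∀ w ∈ ball (nu (y₀ - x₀)) δL, ∃ A : Y, ∀ τ : ℝ,
      ξ + τ • w ∈ ball x₀ δL → F y₀ (ξ + τ • w) = F y₀ ξ + τ • A := by
    intro ξ hξ w hw
    rw [mem_ball, dist_eq_norm] at hξ hw
    obtain ⟨hw0, hwn, y, hy, hyy, c, hc, hyξ⟩ := hE ξ w (hξ.trans_le c1) (hw.trans_le c1)
    refine ⟨‖w‖ • nu (f y - f (Eend s₀ y (nu w))), ?_⟩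
    intro τ hτ
    rw [mem_ball, dist_eq_norm] at hτ
    have hcpos : 0 < c := lt_of_lt_of_le hs₀ hc
    have hτw : |τ| * ‖w‖ < s₀ := by
      have h1 : ‖τ • w‖ ≤ ‖ξ + τ • w - x₀‖ + ‖ξ - x₀‖ := by
        have e : τ • w = (ξ + τ • w - x₀) - (ξ - x₀) := by abel
        conv_lhs => rw [e]
        exact norm_sub_le _ _
      rw [norm_smul, Real.norm_eq_abs] at h1
      linarith
    have hcτ : 0 < c - τ * ‖w‖ := by
      have : τ * ‖w‖ ≤ |τ| * ‖w‖ := mul_le_mul_of_nonneg_right (le_abs_self _) (norm_nonneg _)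
      linarith
    have e1 : y - (ξ + τ • w) = (c - τ * ‖w‖) • nu w := by
      have h1 : τ • w = (τ * ‖w‖) • nu w := by
        rw [mul_smul, tr_norm_smul_nu hw0]
      rw [sub_smul, ← h1, ← hyξ]; abel
    have n1 : nu (y - (ξ + τ • w)) = nu w := by
      rw [e1, tr_nu_smul hcτ, nu_of_norm_one hwn]
    have n2 : ‖y - (ξ + τ • w)‖ = c - τ * ‖w‖ := by
      rw [e1, norm_smul, hwn, mul_one, Real.norm_of_nonneg hcτ.le]
    have n3 : nu (y - ξ) = nu w := by
      rw [hyξ, tr_nu_smul hcpos, nu_of_norm_one hwn]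
    have n4 : ‖y - ξ‖ = c := by
      rw [hyξ, norm_smul, hwn, mul_one, Real.norm_of_nonneg hcpos.le]
    rw [← hind y _ hy hyy (hτ.trans_le c2), ← hind y _ hy hyy (hξ.trans_le c2)]
    show f y - ‖y - (ξ + τ • w)‖ • nu (f y - f (Eend s₀ y (nu (y - (ξ + τ • w)))))
      = f y - ‖y - ξ‖ • nu (f y - f (Eend s₀ y (nu (y - ξ)))) + τ • (‖w‖ • nu (f y - f (Eend s₀ y (nu w))))
    rw [n1, n2, n3, n4]
    module
  obtain ⟨T, r, hr, hrδ, hT⟩ := affLoc hδL0 hδL0 hcont hline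
  -- the difference identity
  set δZ : ℝ := min (min δF δ₂) (min (r / 2) δC) with hδZ
  have hδZ0 : 0 < δZ := lt_min (lt_min hδF0 hδ₂) (lt_min (by positivity) hδC)
  have d1 : δZ ≤ δF := (min_le_left _ _).trans (min_le_left _ _)
  have d2 : δZ ≤ δ₂ := (min_le_left _ _).trans (min_le_right _ _)
  have d3 : δZ ≤ r / 2 := (min_le_right _ _).trans (min_le_left _ _)
  have d4 : δZ ≤ δC := (min_le_right _ _).trans (min_le_right _ _)
  refine ⟨T, min δZ δ₁, lt_min hδZ0 hδ₁, ?_⟩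
  intro y x hy hx hyy hxx
  have hyy1 : ‖y - y₀‖ < δZ := hyy.trans_le (min_le_left _ _)
  have hxx1 : ‖x - x₀‖ < δZ := hxx.trans_le (min_le_left _ _)
  have hyy2 : ‖y - y₀‖ < δ₁ := hyy.trans_le (min_le_right _ _)
  obtain ⟨g1, g2, g3, g4⟩ := hfr y x (hyy1.trans_le d2) (hxx1.trans_le d2)
  have hyx0 : y - x ≠ 0 := sub_ne_zero.mpr g3
  have hyxpos : 0 < ‖y - x‖ := norm_pos_iff.mpr hyx0
  set u := nu (y - x) with hu
  have hun : ‖u‖ = 1 := norm_nu hyx0
  have hEnd : Eend s₀ y u = x := eend_eq hx (hin y u hyy2 g1) g4 g3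
  set τ : ℝ := min (r / 2) (min (δC - ‖x - x₀‖) ‖y - x‖) / 2 with hτ
  have hm0 : 0 < min (r / 2) (min (δC - ‖x - x₀‖) ‖y - x‖) :=
    lt_min (by positivity) (lt_min (by linarith) hyxpos)
  have hτ0 : 0 < τ := by positivity
  have t1 : τ < r / 2 := by
    have := min_le_left (r / 2) (min (δC - ‖x - x₀‖) ‖y - x‖)
    linarith
  have t2 : τ < δC - ‖x - x₀‖ := by
    have := (min_le_right (r / 2) (min (δC - ‖x - x₀‖) ‖y - x‖)).trans (min_le_left _ _)
    linarith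
  have t3 : τ < ‖y - x‖ := by
    have := (min_le_right (r / 2) (min (δC - ‖x - x₀‖) ‖y - x‖)).trans (min_le_right _ _)
    linarith
  have hnear : ‖x + τ • u - x₀‖ ≤ ‖x - x₀‖ + τ := by
    have e : x + τ • u - x₀ = (x - x₀) + τ • u := by abel
    rw [e]
    refine (norm_add_le _ _).trans ?_
    rw [norm_smul, hun, mul_one, Real.norm_of_nonneg hτ0.le]
  have h1 := hT (x + τ • u) (by linarith)
  have h2 := hT x (by linarith)
  have h3 : F y₀ (x + τ • u) = F y₀ x + τ • T u := by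
    rw [h1, h2]
    have e : x + τ • u - x₀ = (x - x₀) + τ • u := by abel
    rw [e, map_add, map_smul]; abel
  rw [hval x hx (by linarith), ← hind y _ hy (by linarith) (by linarith)] at h3
  have e1 : y - (x + τ • u) = (‖y - x‖ - τ) • u := by
    rw [sub_smul, hu, tr_norm_smul_nu hyx0]; abel
  have hpos : 0 < ‖y - x‖ - τ := by linarith
  have n1 : nu (y - (x + τ • u)) = u := by
    rw [e1, tr_nu_smul hpos, nu_of_norm_one hun]
  have n2 : ‖y - (x + τ • u)‖ = ‖y - x‖ - τ := by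
    rw [e1, norm_smul, hun, mul_one, Real.norm_of_nonneg hpos.le]
  have h4 : f y - ‖y - (x + τ • u)‖ • nu (f y - f (Eend s₀ y (nu (y - (x + τ • u)))))
      = f x + τ • T u := h3
  rw [n1, n2, hEnd] at h4
  have hfyx : f y - f x ≠ 0 := by
    intro h0
    exact g3 (h.inj hy hx (sub_eq_zero.mp h0))
  have h5 : f y - f x = ‖y - x‖ • nu (f y - f x) := by
    rw [← h.dist y x hy hx, tr_norm_smul_nu hfyx]
  have h6 : τ • T u = τ • nu (f y - f x) := by
    have h7 : τ • T u = (f y - f x) - (‖y - x‖ - τ) • nu (f y - f x) := by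
      have h8 : τ • T u = (f y - (‖y - x‖ - τ) • nu (f y - f x)) - f x := by
        rw [h4]; abel
      rw [h8]; abel
    have h9 : (f y - f x) - (‖y - x‖ - τ) • nu (f y - f x)
        = ‖y - x‖ • nu (f y - f x) - (‖y - x‖ - τ) • nu (f y - f x) := by
      congr 1
    rw [h7, h9, ← sub_smul, sub_sub_cancel]
  have h7 : T u = nu (f y - f x) := smul_right_injective Y hτ0.ne' h6
  have h8 : T (y - x) = ‖y - x‖ • T u := by
    rw [hu, ← map_smul, tr_norm_smul_nu hyx0]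
  rw [h8, h7, ← h5]

/-- PART 2 -/
theorem SI.init_two [TopologicalSpace.SeparableSpace X] [TopologicalSpace.SeparableSpace Y]
    [CompleteSpace X] (h : SI f g) (ho : ∀ x, ‖x‖ = 1 → f (-x) = -f x)
    (hmf : ∀ x, ‖x‖ = 1 → Smooth x → MidAt f x) (hmg : ∀ y, ‖y‖ = 1 → Smooth y → MidAt g y)
    {y₀ x₀ v : X} {l : Y} (hy₀ : ‖y₀‖ = 1) (hx₀ : ‖x₀‖ = 1) (hlt : ‖y₀ + x₀‖ < 2)
    (hne : y₀ ≠ x₀) (hsx₀ : Smooth x₀) (hJ : J x₀ v ≠ 0) {ρ : ℝ} (hρ : 0 < ρ)
    (hflat : ∀ s, ‖s‖ = 1 → ‖s - y₀‖ < ρ → ∀ t : ℝ, |t| < ρ →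
      ‖s + t • v‖ = 1 ∧ f (s + t • v) = f s + t • l)
    {ρ' : ℝ} (hρ' : 0 < ρ')
    (hexp : ∀ᶠ u : sphere (0 : X) 1 in residual (sphere (0 : X) 1),
      ‖(u : X) - nu (y₀ - x₀)‖ < ρ' → Smooth (u : X) ∧ Expo (u : X)) :
    ∃ (T : X →L[ℝ] Y) (τ : Y), Function.Surjective T ∧ AffAt f T τ y₀ ∧
      ∃ ρ₁ : ℝ, 0 < ρ₁ ∧ ∀ ξ : X, ‖ξ - nu (y₀ - x₀)‖ < ρ₁ → ‖T ξ‖ = ‖ξ‖ := by
  obtain ⟨T, δ, hδ, hT⟩ := h.init_two_aux ho hmf hmg hy₀ hx₀ hlt hne hsx₀ hJ hρ hflat hρ' hexp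
  have hne' : y₀ - x₀ ≠ 0 := sub_ne_zero.mpr hne
  have hx₀₀ : ‖x₀ - x₀‖ < δ := by rw [sub_self, norm_zero]; exact hδ
  -- directions
  have hdir : ∀ y : X, ‖y‖ = 1 → ‖y - y₀‖ < δ → f y = T y + (f x₀ - T x₀) := by
    intro y hy hyy
    have := hT y x₀ hy hx₀ hyy hx₀₀
    rw [map_sub, sub_eq_iff_eq_add] at this
    rw [this]; abel
  refine ⟨T, f x₀ - T x₀, ?_, ?_, ?_⟩
  · -- surjectivity
    have hfy := h.map y₀ hy₀
    have hfx := h.map x₀ hx₀
    have hltf : ‖f y₀ + f x₀‖ < 2 := by rw [h.norm_add ho hy₀ hx₀]; exact hlt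
    have hnef : f y₀ ≠ f x₀ := fun h0 => hne (h.inj hy₀ hx₀ h0)
    obtain ⟨δ₅, hδ₅, hE⟩ := exists_end_of_dir hfx hfy hltf hnef hδ
    set ω₀ := nu (f y₀ - f x₀) with hω₀
    have hω₀n : ‖ω₀‖ = 1 := norm_nu (sub_ne_zero.mpr hnef)
    have hω₀0 : ω₀ ≠ 0 := by
      intro h0
      rw [h0, norm_zero] at hω₀n
      norm_num at hω₀n
    have hR : ∀ ω : Y, ‖ω‖ = 1 → ‖ω - ω₀‖ < δ₅ → ∃ ξ, T ξ = ω := by
      intro ω hω hωω
      obtain ⟨η', hη', c1, c2, c3, r, hr, c4⟩ := hE ω hω hωω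
      have h1 := h.imap η' c1
      have h2 : ‖g η' - y₀‖ < δ := by
        have := h.symm.dist η' (f y₀) c1 hfy
        rw [h.left y₀ hy₀] at this
        rw [this]; exact hη'
      have h3 := hT (g η') x₀ h1 hx₀ h2 hx₀₀
      rw [h.right η' c1, c4] at h3
      refine ⟨r⁻¹ • (g η' - x₀), ?_⟩
      rw [map_smul, ← h3, smul_smul, inv_mul_cancel₀ hr.ne', one_smul]
    intro z
    have hcont : ContinuousAt (fun t : ℝ => nu (ω₀ + t • z)) 0 := by
      have h1 : ContinuousAt (fun t : ℝ => ω₀ + t • z) 0 := by fun_prop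
      have h2 : ContinuousAt (nu : Y → Y) (ω₀ + (0 : ℝ) • z) := by
        rw [zero_smul, add_zero]; exact tr_continuousAt_nu hω₀0
      exact ContinuousAt.comp (f := fun t : ℝ => ω₀ + t • z) h2 h1
    have hcont2 : ContinuousAt (fun t : ℝ => ω₀ + t • z) 0 := by fun_prop
    have hev : ∀ᶠ t : ℝ in 𝓝 0, ω₀ + t • z ≠ 0 := by
      apply hcont2.eventually_ne
      rw [zero_smul, add_zero]; exact hω₀0
    rw [Metric.continuousAt_iff] at hcont
    obtain ⟨δ₆, hδ₆, h6⟩ := hcont δ₅ hδ₅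
    obtain ⟨δ₇, hδ₇, h7⟩ := Metric.eventually_nhds_iff.mp hev
    set t : ℝ := min δ₆ δ₇ / 2 with ht
    have hm : 0 < min δ₆ δ₇ := lt_min hδ₆ hδ₇
    have ht0 : 0 < t := by positivity
    have ht6 : Dist.dist t 0 < δ₆ := by
      rw [Real.dist_eq, sub_zero, abs_of_pos ht0]
      have := min_le_left δ₆ δ₇
      linarith
    have ht7 : Dist.dist t 0 < δ₇ := by
      rw [Real.dist_eq, sub_zero, abs_of_pos ht0]
      have := min_le_right δ₆ δ₇
      linarith
    have h8 := h6 ht6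
    have h9 := h7 ht7
    simp only [zero_smul, add_zero, nu_of_norm_one hω₀n] at h8
    rw [dist_eq_norm] at h8
    obtain ⟨ξ₁, hξ₁⟩ := hR _ (norm_nu h9) h8
    obtain ⟨ξ₀, hξ₀⟩ := hR ω₀ hω₀n (by rw [sub_self, norm_zero]; exact hδ₅)
    refine ⟨t⁻¹ • (‖ω₀ + t • z‖ • ξ₁ - ξ₀), ?_⟩
    rw [map_smul, map_sub, map_smul, hξ₁, hξ₀, tr_norm_smul_nu h9, add_sub_cancel_left, smul_smul,
      inv_mul_cancel₀ ht0.ne', one_smul]
  · -- affine near y₀
    obtain ⟨δ₂, hδ₂, hfr⟩ := exists_frame hlt hne one_pos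
    refine ⟨min (δ / 2) δ₂, lt_min (by positivity) hδ₂, ?_⟩
    intro y hy hyy
    have hyy1 : ‖y - y₀‖ < δ / 2 := hyy.trans_le (min_le_left _ _)
    refine ⟨hdir y hy (by linarith), fun hsy hsfy => ?_⟩
    have h1 := (hfr y x₀ (hyy.trans_le (min_le_right _ _))
      (by rw [sub_self, norm_zero]; exact hδ₂)).2.1
    refine h.orient_bot ho (τ := f x₀ - T x₀) hx₀ hy (by rwa [add_comm]) hsy (by abel)
      ⟨δ / 2, by positivity, ?_⟩
    intro y' hy' hy'y
    apply hdir y' hy'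
    have e : y' - y₀ = (y' - y) + (y - y₀) := by abel
    rw [e]
    refine (norm_add_le _ _).trans_lt ?_
    linarith
  · -- norm preserving
    obtain ⟨δ₃, hδ₃, hE⟩ := exists_end_of_dir hx₀ hy₀ hlt hne hδ
    have hunit : ∀ u : X, ‖u‖ = 1 → ‖u - nu (y₀ - x₀)‖ < δ₃ → ‖T u‖ = 1 := by
      intro u hu huu
      obtain ⟨y, hy, hc⟩ := hE u hu huu
      obtain ⟨c1, c2, c3, r, hr, c4⟩ := hc
      have h1 := hT y x₀ c1 hx₀ hy hx₀₀
      have h2 := h.dist y x₀ c1 hx₀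
      rw [h1, c4, map_smul, norm_smul, norm_smul, hu] at h2
      rw [Real.norm_of_nonneg hr.le] at h2
      exact mul_left_cancel₀ hr.ne' h2
    have hc : ContinuousAt (nu : X → X) (nu (y₀ - x₀)) := by
      apply tr_continuousAt_nu
      intro h0
      have := norm_nu hne'
      rw [h0, norm_zero] at this
      norm_num at this
    rw [Metric.continuousAt_iff] at hc
    obtain ⟨δ₄, hδ₄, h4⟩ := hc δ₃ hδ₃
    refine ⟨δ₄, hδ₄, fun ξ hξ => ?_⟩
    rcases eq_or_ne ξ 0 with rfl | hξ0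
    · rw [map_zero, norm_zero, norm_zero]
    · have h5 := h4 (x := ξ) (by rw [dist_eq_norm]; exact hξ)
      rw [nu_of_norm_one (norm_nu hne'), dist_eq_norm] at h5
      have h6 := hunit (nu ξ) (norm_nu hξ0) h5
      conv_lhs => rw [← tr_norm_smul_nu hξ0]
      rw [map_smul, norm_smul, norm_norm, h6, mul_one]

end InitTwo

end Crest.Agent.R074
end

-- ▼ part R074/MixedFinal

/-!
Row 74 (S0099): the mixed case, `caseCStatement`.
-/

set_option autoImplicit false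

universe u v

namespace Crest.Agent.R074

open Metric Set Filter Topology

section MixedFinal

variable {X : Type u} {Y : Type v} [NormedAddCommGroup X] [NormedSpace ℝ X]
  [NormedAddCommGroup Y] [NormedSpace ℝ Y] {f : X → Y} {g : Y → X}

/-- near a flat point the good set is dense -/
theorem Glue.dense_good [CompleteSpace X] {ε : ℝ} (hgen : GenLTA f ε) {v x : X} (hv : v ≠ 0)
    (hfl : VFlat v x) :
    ∃ r : ℝ, 0 < r ∧ ∀ s, ‖s‖ = 1 → ‖s - x‖ < r → s ∈ closure (GoodSet f ε) := by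
  obtain ⟨r, hr, hnh⟩ := VFlat.nhds hfl
  refine ⟨r, hr, fun s hs hsx => ?_⟩
  rw [Metric.mem_closure_iff]
  intro δ hδ
  have : CompleteSpace (sphere (0 : X) 1) := isClosed_sphere.completeSpace_coe
  have hdense := dense_of_mem_residual hgen
  let U : Set (sphere (0 : X) 1) := {z | (z : X) ∈ ball s (min δ (r - ‖s - x‖))}
  have hU : IsOpen U := isOpen_ball.preimage continuous_subtype_val
  have hUne : U.Nonempty := ⟨⟨s, by simpa using hs⟩, mem_ball_self (lt_min hδ (by linarith))⟩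
  obtain ⟨z, hzU, hz⟩ := hdense.inter_open_nonempty U hU hUne
  have hz1 : ‖(z : X)‖ = 1 := by simp
  have hzs : ‖(z : X) - s‖ < min δ (r - ‖s - x‖) := by
    have : (z : X) ∈ ball s (min δ (r - ‖s - x‖)) := hzU
    rwa [mem_ball, dist_eq_norm] at this
  have hzx : ‖(z : X) - x‖ < r := by
    have e : (z : X) - x = ((z : X) - s) + (s - x) := by abel
    rw [e]
    have := hzs.trans_le (min_le_right _ _)
    exact (norm_add_le _ _).trans_lt (by linarith)
  refine ⟨z, ⟨hz1, hz.1, hz.2.1, ?_⟩, ?_⟩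
  · rcases hz.2.2 with h1 | h1
    · exact absurd (h1.not_vflat hz1 (hnh z hz1 hzx)) hv
    · exact h1
  · rw [dist_eq_norm, norm_sub_rev]
    exact hzs.trans_le (min_le_left _ _)

end MixedFinal

theorem caseCStatement : CaseCStatement.{u, v} := by
  intro X Y _ _ _ _ _ _ _ _ f g h ho hfd ε hε hgen hGi hO
  obtain ⟨y₀, hy₀, r₀, hr₀, hC⟩ := hGi
  obtain ⟨p, hp, hpC⟩ := hO
  have hX2 := two_lt_rank hfd
  have hX : 1 < Module.rank ℝ X := lt_trans (by exact_mod_cast one_lt_two) hX2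
  have hmf : ∀ x, ‖x‖ = 1 → Smooth x → MidAt f x := fun x hx hs => h.midAt ho hx hs
  have hmg : ∀ y, ‖y‖ = 1 → Smooth y → MidAt g y := fun y hy hs =>
    h.symm.midAt (h.odd_symm ho) hy hs
  obtain ⟨y, u₀, hy, hu₀, hu₀C, huy, r, hr, hcl⟩ :=
    Glue.near_pair hX hy₀ hr₀ hC hp hpC (show (0 : ℝ) < ε / 10 by positivity)
  set r' : ℝ := min r (ε / 10) with hr'
  have hr'0 : 0 < r' := lt_min hr (by positivity)
  have hr'ε : r' ≤ ε / 10 := min_le_right _ _
  have hcl' : ∀ s, ‖s‖ = 1 → ‖s - y‖ < r' → s ∈ closure (GoodSet f ε) := fun s hs hsy =>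
    hcl s hs (hsy.trans_le (min_le_left _ _))
  by_cases hN : ∀ v : X, (∀ u ∈ GoodSet f ε, ‖u - y‖ < r' → J u v = 0) → v = 0
  · obtain ⟨T, hT, hA, ρ, hρ, hnorm⟩ := h.init_one ho hε hy hr'0 hr'ε hcl' hN hu₀ huy
    obtain ⟨δ, hδ, hexp⟩ := Glue.hexp hgen hu₀C
    exact h.mixed_end ho hmf hT (τ := 0) hy hA hu₀ (lt_min hρ hδ)
      (fun ξ hξ => hnorm ξ (hξ.trans_le (min_le_left _ _))) (hexp _ (min_le_right _ _))
  · push Not at hN
    obtain ⟨w, hw, hw0⟩ := hN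
    have hLA := Glue.la (r := r') h hy (by linarith) hcl'
    have hvf : VFlat w y := by
      apply Glue.vflat hr'0 hLA
      rintro _ ⟨u, hu, hur, rfl⟩
      exact hw u hu hur
    obtain ⟨u, a, b, hc, hu, huG, hfl, hnf⟩ := exists_vflat_chord hw0 hy hvf hp hpC hgen
    obtain ⟨r₁, hr₁, hG₁⟩ := Glue.dense_good hgen hw0 hfl
    obtain ⟨ha, hb, hlt, t, ht, hab⟩ := hc
    obtain ⟨l, ρ₂, hρ₂, hflat⟩ := h.exists_flat_vector hε ha hr₁ hG₁ hfl
    -- choose the bottom point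
    have hab0 : a - b ≠ 0 := by
      rw [hab]
      intro h0
      rcases smul_eq_zero.mp h0 with h1 | h1
      · exact ht.ne' h1
      · rw [h1, norm_zero] at hu; norm_num at hu
    have hnu : nu (a - b) = u := by rw [hab]; exact EP.nu_smul ht hu
    have hcont : ContinuousAt (fun s : X => nu (a - s)) b := by
      have h1 : ContinuousAt (nu : X → X) (a - b) := tr_continuousAt_nu hab0
      exact ContinuousAt.comp (f := fun s : X => a - s) h1 (by fun_prop)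
    have hev1 : ∀ᶠ s in 𝓝 b, nu (a - s) ∈ (closure (GoodSet f ε))ᶜ := by
      apply hcont.eventually_mem
      rw [hnu]
      exact isClosed_closure.isOpen_compl.mem_nhds huG
    have hev2 : ∀ᶠ s in 𝓝 b, ‖a + s‖ < 2 := by
      have h1 : ContinuousAt (fun s : X => ‖a + s‖) b := by fun_prop
      exact h1.eventually (gt_mem_nhds hlt)
    have hev3 : ∀ᶠ s in 𝓝 b, a - s ≠ 0 := by
      have h1 : ContinuousAt (fun s : X => a - s) b := by fun_prop
      exact h1.eventually_ne hab0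
    obtain ⟨δ, hδ, hball⟩ := Metric.eventually_nhds_iff.mp (hev1.and (hev2.and hev3))
    obtain ⟨s, hs, hsb, hss, hsJ⟩ := exists_smooth_J_ne hb hnf hδ
    obtain ⟨hs1, hs2, hs3⟩ := hball (show dist s b < δ by rw [dist_eq_norm]; exact hsb)
    obtain ⟨δ', hδ', hexp⟩ := Glue.hexp hgen hs1
    obtain ⟨T, τ, hT, hA, ρ, hρ, hnorm⟩ := h.init_two ho hmf hmg ha hs hs2
      (sub_ne_zero.mp hs3) hss hsJ hρ₂ hflat hδ' (hexp _ le_rfl)
    exact h.mixed_end ho hmf hT ha hA (norm_nu hs3) (lt_min hρ hδ')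
      (fun ξ hξ => hnorm ξ (hξ.trans_le (min_le_left _ _))) (hexp _ (min_le_right _ _))

end Crest.Agent.R074
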